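import Mathlib

/-! The switch chain on the simple graphs with given degrees. -/

namespace Vale.Agent.P335

open Finset

variable {n : ℕ}

open Classical in
/-- Simple graphs on `Fin n` with degree vector `d`. -/
abbrev Graphs (d : Fin n → ℕ) : Type :=
  {G : SimpleGraph (Fin n) // ∀ i, (Finset.univ.filter fun j => G.Adj i j).card = d i}

noncomputable instance instFintypeGraphs (d : Fin n → ℕ) : Fintype (Graphs d) := Fintype.ofFinite _

noncomputable instance instDecidableEqGraphs (d : Fin n → ℕ) : DecidableEq (Graphs d) :=
  Classical.decEq _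

/-- The perfect matchings of the complete graph on `S`, as sets of two disjoint edges. -/
def matchings (S : Finset (Fin n)) : Finset (Finset (Finset (Fin n))) :=
  ((S.powersetCard 2).powersetCard 2).filter fun F => F.biUnion id = S

/-- The ordered pairs of distinct perfect matchings on `S`. -/
def moves (S : Finset (Fin n)) : Finset (Finset (Finset (Fin n)) × Finset (Finset (Fin n))) :=
  (matchings S ×ˢ matchings S).filter fun m => m.1 ≠ m.2

/-- All edges of `F` are present. -/
def Present (G : SimpleGraph (Fin n)) (F : Finset (Finset (Fin n))) : Prop :=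
  ∀ e ∈ F, ∀ x ∈ e, ∀ y ∈ e, x ≠ y → G.Adj x y

/-- All edges of `F` are absent. -/
def Absent (G : SimpleGraph (Fin n)) (F : Finset (Finset (Fin n))) : Prop :=
  ∀ e ∈ F, ∀ x ∈ e, ∀ y ∈ e, ¬ G.Adj x y

/-- Replace the edges of `F` by those of `F'`. -/
def replace (G : SimpleGraph (Fin n)) (m : Finset (Finset (Fin n)) × Finset (Finset (Fin n))) :
    SimpleGraph (Fin n) :=
  SimpleGraph.fromRel fun x y => (G.Adj x y ∧ ({x, y} : Finset (Fin n)) ∉ m.1)
    ∨ ({x, y} : Finset (Fin n)) ∈ m.2

open Classical in
/-- The outcome of one proposed move. -/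
noncomputable def outcome (G : SimpleGraph (Fin n))
    (m : Finset (Finset (Fin n)) × Finset (Finset (Fin n))) : SimpleGraph (Fin n) :=
  if Present G m.1 ∧ Absent G m.2 then replace G m else G

open Classical in
/-- Transition matrix: stay with probability one half; otherwise choose a four-set and then one of
its six ordered pairs of distinct matchings uniformly, and make the switch if it applies. -/
noncomputable def switchP (d : Fin n → ℕ) : Matrix (Graphs d) (Graphs d) ℝ := fun G H =>
  (if G = H then (1 : ℝ) / 2 else 0) + 1 / 2 * (1 / (n.choose 4 : ℝ)) *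
    ∑ S ∈ (Finset.univ : Finset (Fin n)).powersetCard 4, ∑ m ∈ moves S,
      1 / 6 * (if outcome G.1 m = H.1 then (1 : ℝ) else 0)

/-- Total variation distance to the uniform law after `t` steps from `G`. -/
noncomputable def distUniform (d : Fin n → ℕ) (t : ℕ) (G : Graphs d) : ℝ :=
  1 / 2 * ∑ H, |(switchP d ^ t) G H - 1 / (Fintype.card (Graphs d) : ℝ)|

end Vale.Agent.P335
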