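import Vale.Agent.P335.Connect
import Vale.Agent.P335.Defs

/-! From the trade gap to the mixing time of the switch chain. -/

namespace Vale.Agent.P335

open Finset

variable {n : ℕ} {d : Fin n → ℕ}

theorem matchings_eq {S : Finset (Fin n)} (hS : S.card = 4) :
    matchings S = (S.powersetCard 2).image fun A => {A, S \ A} := by
  ext F
  simp only [matchings, mem_filter, mem_powersetCard, mem_image]
  constructor
  · rintro ⟨⟨hsub, h2⟩, hU⟩
    obtain ⟨A, B, hAB, rfl⟩ := card_eq_two.1 h2
    have hA := mem_powersetCard.1 (hsub (mem_insert_self A {B}))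
    have hB := mem_powersetCard.1 (hsub (mem_insert_of_mem (mem_singleton_self B)))
    have hu : A ∪ B = S := by simpa [biUnion_insert] using hU
    refine ⟨A, hA, ?_⟩
    have : S \ A = B := by
      refine eq_of_subset_of_card_le (fun t ht => ?_) ?_
      · rw [mem_sdiff, ← hu, mem_union] at ht
        exact ht.1.resolve_left ht.2
      · rw [card_sdiff_of_subset hA.1, hS, hA.2, hB.2]
    rw [this]
  · rintro ⟨A, ⟨hAS, hA⟩, rfl⟩
    have hc : (S \ A).card = 2 := by rw [card_sdiff_of_subset hAS, hS, hA]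
    have hne : A ≠ S \ A := fun e => by
      obtain ⟨t, ht⟩ := card_pos.1 (show 0 < A.card by omega)
      exact (mem_sdiff.1 (e ▸ ht : t ∈ S \ A)).2 ht
    refine ⟨⟨?_, card_pair hne⟩, ?_⟩
    · intro t ht
      rcases mem_insert.1 ht with rfl | ht
      · exact mem_powersetCard.2 ⟨hAS, hA⟩
      · rw [mem_singleton] at ht
        exact ht ▸ mem_powersetCard.2 ⟨sdiff_subset, hc⟩
    · simp [biUnion_insert, union_sdiff_of_subset hAS]

theorem card_matchings {S : Finset (Fin n)} (hS : S.card = 4) : (matchings S).card = 3 := by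
  rw [matchings_eq hS]
  set img := (S.powersetCard 2).image fun A => ({A, S \ A} : Finset (Finset (Fin n)))
  have h6 : (S.powersetCard 2).card = 6 := by rw [card_powersetCard, hS]; rfl
  have hf : ∀ F ∈ img, ((S.powersetCard 2).filter fun A => ({A, S \ A} : Finset _) = F).card = 2 := by
    intro F hF
    obtain ⟨A, hA, rfl⟩ := mem_image.1 hF
    obtain ⟨hAS, hA2⟩ := mem_powersetCard.1 hA
    have hne : A ≠ S \ A := fun e => by
      obtain ⟨t, ht⟩ := card_pos.1 (show 0 < A.card by omega)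
      exact (mem_sdiff.1 (e ▸ ht : t ∈ S \ A)).2 ht
    rw [show (S.powersetCard 2).filter (fun B => ({B, S \ B} : Finset _) = {A, S \ A}) =
        {A, S \ A} from ?_, card_pair hne]
    ext B
    simp only [mem_filter, mem_insert, mem_singleton]
    constructor
    · rintro ⟨-, h⟩
      have : B ∈ ({A, S \ A} : Finset (Finset (Fin n))) := h ▸ mem_insert_self _ _
      simpa using this
    · rintro (rfl | rfl)
      · exact ⟨hA, rfl⟩
      · refine ⟨mem_powersetCard.2 ⟨sdiff_subset, by rw [card_sdiff_of_subset hAS, hS, hA2]⟩, ?_⟩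
        rw [Finset.sdiff_sdiff_eq_self hAS, pair_comm]
  have h : (S.powersetCard 2).card = img.card * 2 := by
    rw [card_eq_sum_card_fiberwise (f := fun A => ({A, S \ A} : Finset (Finset (Fin n)))) (t := img)
      fun A hA => mem_image_of_mem _ hA, sum_congr rfl hf, sum_const,
      smul_eq_mul]
  omega

theorem card_moves {S : Finset (Fin n)} (hS : S.card = 4) : (moves S).card = 6 := by
  rw [show moves S = (matchings S).offDiag by ext ⟨a, b⟩; simp [moves, and_assoc],
    offDiag_card, card_matchings hS]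

/-- The vertices matched to `x` by `F`. -/
def partners (F : Finset (Finset (Fin n))) (x : Fin n) : Finset (Fin n) :=
  univ.filter fun y => x ≠ y ∧ ({x, y} : Finset (Fin n)) ∈ F

theorem card_partners {S : Finset (Fin n)} (hS : S.card = 4) {F : Finset (Finset (Fin n))}
    (hF : F ∈ matchings S) (x : Fin n) : (partners F x).card = if x ∈ S then 1 else 0 := by
  rw [matchings_eq hS] at hF
  obtain ⟨A, hA, rfl⟩ := mem_image.1 hF
  obtain ⟨hAS, hA2⟩ := mem_powersetCard.1 hA
  have hc : (S \ A).card = 2 := by rw [card_sdiff_of_subset hAS, hS, hA2]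
  split_ifs with hx
  · obtain ⟨B, hB, hxB, hB2, hother⟩ : ∃ B, B ∈ ({A, S \ A} : Finset (Finset (Fin n))) ∧ x ∈ B ∧
        B.card = 2 ∧ ∀ C ∈ ({A, S \ A} : Finset (Finset (Fin n))), x ∈ C → C = B := by
      by_cases hxA : x ∈ A
      · refine ⟨A, by simp, hxA, hA2, fun C hC hxC => ?_⟩
        rcases mem_insert.1 hC with rfl | hC
        · rfl
        · rw [mem_singleton.1 hC] at hxC; exact absurd hxA (mem_sdiff.1 hxC).2
      · refine ⟨S \ A, by simp, mem_sdiff.2 ⟨hx, hxA⟩, hc, fun C hC hxC => ?_⟩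
        rcases mem_insert.1 hC with rfl | hC
        · exact absurd hxC hxA
        · exact mem_singleton.1 hC
    rw [show partners {A, S \ A} x = B.erase x from ?_, card_erase_of_mem hxB, hB2]
    ext y
    simp only [partners, mem_filter, mem_univ, true_and, mem_erase]
    constructor
    · rintro ⟨hxy, hm⟩
      exact ⟨hxy.symm, hother _ hm (mem_insert_self _ _) ▸ by simp⟩
    · rintro ⟨hyx, hy⟩
      refine ⟨hyx.symm, ?_⟩
      rwa [show ({x, y} : Finset (Fin n)) = B from eq_of_subset_of_card_le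
        (insert_subset hxB (singleton_subset_iff.2 hy)) (by rw [hB2, card_pair hyx.symm])]
  · rw [card_eq_zero, partners, filter_eq_empty_iff]
    rintro y - ⟨-, hm⟩
    rcases mem_insert.1 hm with h | h
    · exact hx (hAS (h ▸ mem_insert_self _ _))
    · rw [mem_singleton] at h
      exact hx (sdiff_subset (h ▸ mem_insert_self _ _))

theorem replace_adj (G : SimpleGraph (Fin n))
    (m : Finset (Finset (Fin n)) × Finset (Finset (Fin n))) (x y : Fin n) :
    (replace G m).Adj x y ↔
      x ≠ y ∧ ((G.Adj x y ∧ ({x, y} : Finset (Fin n)) ∉ m.1) ∨ ({x, y} : Finset (Fin n)) ∈ m.2) := by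
  simp only [replace, SimpleGraph.fromRel_adj, Finset.pair_comm y x, G.adj_comm y x, or_self]

theorem replace_degree {S : Finset (Fin n)} (hS : S.card = 4) (G : Graphs d)
    {m : Finset (Finset (Fin n)) × Finset (Finset (Fin n))} (hm : m ∈ moves S)
    (hP : Present G.1 m.1) (hA : Absent G.1 m.2) (x : Fin n) :
    ∀ [DecidablePred fun y => (replace G.1 m).Adj x y],
      (univ.filter fun y => (replace G.1 m).Adj x y).card = d x := by
  intro _
  classical
  obtain ⟨hm12, -⟩ := mem_filter.1 hm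
  obtain ⟨h1, h2⟩ := mem_product.1 hm12
  set N := univ.filter fun y => G.1.Adj x y
  have hsub : partners m.1 x ⊆ N := fun y hy => by
    obtain ⟨hne, hy⟩ := (mem_filter.1 hy).2
    exact mem_filter.2 ⟨mem_univ _, hP _ hy x (mem_insert_self _ _) y (by simp) hne⟩
  have hdis : Disjoint (N \ partners m.1 x) (partners m.2 x) := by
    rw [disjoint_left]
    intro y hy hy'
    exact hA _ (mem_filter.1 hy').2.2 x (mem_insert_self _ _) y (by simp)
      (mem_filter.1 (mem_sdiff.1 hy).1).2
  have e : (univ.filter fun y => (replace G.1 m).Adj x y) =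
      (N \ partners m.1 x) ∪ partners m.2 x := by
    ext y
    simp only [N, partners, mem_union, mem_sdiff, mem_filter, mem_univ, true_and, replace_adj]
    constructor
    · rintro ⟨hne, ⟨h, h'⟩ | h⟩
      · exact Or.inl ⟨h, fun hh => h' hh.2⟩
      · exact Or.inr ⟨hne, h⟩
    · rintro (⟨h, h'⟩ | ⟨hne, h⟩)
      · exact ⟨h.ne, Or.inl ⟨h, fun hh => h' ⟨h.ne, hh⟩⟩⟩
      · exact ⟨hne, Or.inr h⟩
  have hN : N.card = d x := by rw [← G.2 x]
  rw [e, card_union_of_disjoint hdis, card_sdiff_of_subset hsub, card_partners hS h2, hN]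
  have hle := card_le_card hsub
  rw [card_partners hS h1] at hle ⊢
  omega

theorem outcome_mem {S : Finset (Fin n)} (hS : S.card = 4) (G : Graphs d)
    {m : Finset (Finset (Fin n)) × Finset (Finset (Fin n))} (hm : m ∈ moves S) :
    ∃ H : Graphs d, H.1 = outcome G.1 m := by
  classical
  unfold outcome
  split_ifs with h
  · exact ⟨⟨_, fun i => replace_degree hS G hm h.1 h.2 i⟩, rfl⟩
  · exact ⟨G, rfl⟩

theorem outcome_swap {S : Finset (Fin n)} {G : SimpleGraph (Fin n)}
    {m : Finset (Finset (Fin n)) × Finset (Finset (Fin n))} (hm : m ∈ moves S)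
    {H : SimpleGraph (Fin n)} (hne : G ≠ H) (h : outcome G m = H) : outcome H m.swap = G := by
  classical
  unfold outcome at h ⊢
  split_ifs at h with hc
  · obtain ⟨hP, hA⟩ := hc
    subst h
    obtain ⟨hm12, -⟩ := mem_filter.1 hm
    obtain ⟨h1, h2⟩ := mem_product.1 hm12
    have pair : ∀ {F : Finset (Finset (Fin n))}, F ∈ matchings S → ∀ e ∈ F, ∀ x ∈ e, ∀ y ∈ e,
        x ≠ y → ({x, y} : Finset (Fin n)) = e := by
      intro F hF e he x hx y hy hxy
      have hc := (mem_powersetCard.1 ((mem_powersetCard.1 (mem_filter.1 hF).1).1 he)).2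
      exact eq_of_subset_of_card_le (insert_subset hx (singleton_subset_iff.2 hy))
        (by rw [hc, card_pair hxy])
    have hP' : Present (replace G m) m.swap.1 := by
      intro e he x hx y hy hxy
      rw [replace_adj]
      exact ⟨hxy, Or.inr (pair h2 e he x hx y hy hxy ▸ he)⟩
    have hA' : Absent (replace G m) m.swap.2 := by
      intro e he x hx y hy hadj
      rw [replace_adj] at hadj
      obtain ⟨hxy, h'⟩ := hadj
      have he' := pair h1 e he x hx y hy hxy
      rcases h' with ⟨-, h'⟩ | h'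
      · exact h' (he' ▸ he)
      · exact hA _ h' x (mem_insert_self _ _) y (by simp) (hP e he x hx y hy hxy)
    rw [if_pos ⟨hP', hA'⟩]
    ext x y
    simp only [replace_adj, Prod.fst_swap, Prod.snd_swap]
    constructor
    · rintro ⟨hxy, ⟨⟨-, ⟨h, -⟩ | h⟩, h'⟩ | h⟩
      · exact h
      · exact absurd h h'
      · exact hP _ h x (mem_insert_self _ _) y (by simp) hxy
    · intro h
      refine ⟨h.ne, ?_⟩
      by_cases hm1 : ({x, y} : Finset (Fin n)) ∈ m.1
      · exact Or.inr hm1
      · exact Or.inl ⟨⟨h.ne, Or.inl ⟨h, hm1⟩⟩,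
          fun h' => hA _ h' x (mem_insert_self _ _) y (by simp) h⟩
  · exact absurd h hne

open Classical in
/-- The proposal part of the chain. -/
noncomputable def propose (d : Fin n → ℕ) (G H : Graphs d) : ℝ :=
  1 / (n.choose 4 : ℝ) * ∑ S ∈ (univ : Finset (Fin n)).powersetCard 4, ∑ m ∈ moves S,
    1 / 6 * (if outcome G.1 m = H.1 then (1 : ℝ) else 0)

theorem switchP_eq (G H : Graphs d) :
    switchP d G H = (if G = H then (1 : ℝ) / 2 else 0) + 1 / 2 * propose d G H := by
  rw [switchP, propose, mul_assoc]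

theorem propose_nonneg (G H : Graphs d) : 0 ≤ propose d G H := by
  unfold propose
  refine mul_nonneg (by positivity) (sum_nonneg fun S _ => sum_nonneg fun m _ => ?_)
  split_ifs <;> norm_num

theorem propose_row (hn : 4 ≤ n) (G : Graphs d) : ∑ H, propose d G H = 1 := by
  classical
  have hc : (0 : ℝ) < (n.choose 4 : ℝ) := by exact_mod_cast Nat.choose_pos hn
  unfold propose
  rw [← mul_sum, sum_comm]
  have : ∀ S ∈ (univ : Finset (Fin n)).powersetCard 4,
      ∑ H : Graphs d, ∑ m ∈ moves S, (1 : ℝ) / 6 * (if outcome G.1 m = H.1 then (1 : ℝ) else 0) =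
        1 := by
    intro S hS
    have hS4 := (mem_powersetCard.1 hS).2
    rw [sum_comm]
    rw [sum_congr rfl (g := fun _ => (1 : ℝ) / 6), sum_const, card_moves hS4]
    · norm_num
    intro m hm
    obtain ⟨H, hH⟩ := outcome_mem hS4 G hm
    rw [sum_eq_single H (fun b _ hb => by rw [if_neg fun e => hb (Subtype.ext (e ▸ hH).symm)]; simp)
      (fun h => absurd (mem_univ H) h), if_pos hH.symm, mul_one]
  rw [sum_congr rfl this, sum_const, card_powersetCard, card_univ, Fintype.card_fin, nsmul_eq_mul,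
    mul_one, one_div_mul_cancel hc.ne']

theorem propose_symm (G H : Graphs d) : propose d G H = propose d H G := by
  classical
  rcases eq_or_ne G H with rfl | hne
  · rfl
  have hne' : G.1 ≠ H.1 := fun e => hne (Subtype.ext e)
  unfold propose
  congr 1
  refine sum_congr rfl fun S _ => ?_
  have hswap : ∀ m ∈ moves S, m.swap ∈ moves S := fun m hm => by
    simp only [moves, mem_filter, mem_product, Prod.fst_swap, Prod.snd_swap] at hm ⊢
    exact ⟨⟨hm.1.2, hm.1.1⟩, hm.2.symm⟩
  refine sum_nbij' Prod.swap Prod.swap hswap hswap (fun m _ => Prod.swap_swap m)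
    (fun m _ => Prod.swap_swap m) fun m hm => ?_
  by_cases h : outcome G.1 m = H.1
  · rw [if_pos h, if_pos (outcome_swap hm hne' h)]
  · rw [if_neg h, if_neg fun h' => h (by
      simpa using outcome_swap (hswap m hm) hne'.symm h')]

theorem switchP_symm (G H : Graphs d) : switchP d G H = switchP d H G := by
  classical
  rw [switchP_eq, switchP_eq, propose_symm G H]
  congr 1
  by_cases h : G = H
  · rw [if_pos h, if_pos h.symm]
  · rw [if_neg h, if_neg (Ne.symm h)]

theorem switchP_row (hn : 4 ≤ n) (G : Graphs d) : ∑ H, switchP d G H = 1 := by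
  classical
  simp only [switchP_eq, sum_add_distrib, ← mul_sum, propose_row hn G, sum_ite_eq, mem_univ,
    if_true]
  norm_num

/-- The chain as a linear map. -/
noncomputable def chainMap (d : Fin n → ℕ) : (Graphs d → ℝ) →ₗ[ℝ] (Graphs d → ℝ) :=
  Matrix.mulVecLin (switchP d)

theorem chainMap_apply (f : Graphs d → ℝ) (G : Graphs d) :
    chainMap d f G = ∑ H, switchP d G H * f H := rfl

theorem chainMap_pow (t : ℕ) (f : Graphs d → ℝ) (G : Graphs d) :
    (chainMap d ^ t) f G = ∑ H, (switchP d ^ t) G H * f H := by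
  induction t generalizing G with
  | zero => simp [Matrix.one_apply]
  | succ t ih =>
    rw [pow_succ', Module.End.mul_apply, chainMap_apply, pow_succ']
    simp only [ih, Matrix.mul_apply, mul_sum, sum_mul]
    rw [sum_comm]
    exact sum_congr rfl fun H _ => sum_congr rfl fun K _ => by ring

theorem chainMap_sym (f g : Graphs d → ℝ) : ip (chainMap d f) g = ip f (chainMap d g) := by
  simp only [ip, chainMap_apply, sum_mul, mul_sum]
  rw [sum_comm]
  exact sum_congr rfl fun G _ => sum_congr rfl fun H _ => by rw [switchP_symm H G]; ring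

theorem chainMap_sum (hn : 4 ≤ n) (f : Graphs d → ℝ) : ∑ G, chainMap d f G = ∑ G, f G := by
  simp only [chainMap_apply]
  rw [sum_comm]
  refine sum_congr rfl fun H _ => ?_
  rw [← sum_mul, sum_congr rfl fun G _ => switchP_symm G H, switchP_row hn, one_mul]

theorem form_bound {Ω : Type*} [Fintype Ω] (R : Ω → Ω → ℝ) (h0 : ∀ x y, 0 ≤ R x y)
    (hs : ∀ x y, R x y = R y x) (hr : ∀ x, ∑ y, R x y = 1) (f : Ω → ℝ) :
    |∑ x, ∑ y, R x y * (f x * f y)| ≤ ip f f := by
  have h : ∑ x, ∑ y, R x y * (f x * f x + f y * f y) = 2 * ip f f := by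
    simp only [mul_add, sum_add_distrib, ← sum_mul, hr, one_mul]
    rw [sum_comm, sum_congr rfl fun y _ => (show ∑ x, R x y * (f y * f y) = f y * f y by
      rw [← sum_mul, sum_congr rfl fun x _ => hs x y, hr, one_mul])]
    simp only [ip]
    ring
  rw [abs_le]
  constructor
  · have : 0 ≤ ∑ x, ∑ y, (R x y * (f x * f x + f y * f y) + 2 * (R x y * (f x * f y))) :=
      sum_nonneg fun x _ => sum_nonneg fun y _ => by
        nlinarith [mul_nonneg (h0 x y) (sq_nonneg (f x + f y))]
    simp only [sum_add_distrib, ← mul_sum] at this h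
    linarith
  · have : 0 ≤ ∑ x, ∑ y, (R x y * (f x * f x + f y * f y) - 2 * (R x y * (f x * f y))) :=
      sum_nonneg fun x _ => sum_nonneg fun y _ => by
        nlinarith [mul_nonneg (h0 x y) (sq_nonneg (f x - f y))]
    simp only [sum_sub_distrib, ← mul_sum] at this h
    linarith

theorem chainMap_form (f : Graphs d → ℝ) :
    ip f (chainMap d f) = 1 / 2 * ip f f + 1 / 2 * ∑ G, ∑ H, propose d G H * (f G * f H) := by
  classical
  simp only [ip, chainMap_apply, switchP_eq, add_mul, sum_add_distrib, mul_add, mul_sum, ite_mul,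
    zero_mul, mul_ite, mul_zero, sum_ite_eq, mem_univ, if_true]
  congr 1
  · exact sum_congr rfl fun G _ => by ring
  · exact sum_congr rfl fun G _ => sum_congr rfl fun H _ => by ring

theorem chainMap_pos (hn : 4 ≤ n) (f : Graphs d → ℝ) :
    0 ≤ ip f (chainMap d f) ∧ ip f (chainMap d f) ≤ ip f f := by
  have h := abs_le.1 (form_bound (propose d) propose_nonneg propose_symm (propose_row hn) f)
  rw [chainMap_form]
  constructor <;> linarith [h.1, h.2]

theorem dirichlet (hn : 4 ≤ n) (f : Graphs d → ℝ) :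
    ∑ G, ∑ H, switchP d G H * (f G - f H) ^ 2 = 2 * (ip f f - ip f (chainMap d f)) := by
  have e : ∀ G H, switchP d G H * (f G - f H) ^ 2 = switchP d G H * (f G * f G) +
      switchP d H G * (f H * f H) - 2 * (f G * (switchP d G H * f H)) := fun G H => by
    rw [switchP_symm H G]; ring
  simp only [e, sum_sub_distrib, sum_add_distrib, ← mul_sum, ← sum_mul, switchP_row hn, one_mul]
  rw [sum_comm, sum_congr rfl fun H _ => (show ∑ G, switchP d H G * (f H * f H) = f H * f H by
    rw [← sum_mul, switchP_row hn, one_mul])]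
  simp only [ip, chainMap_apply]
  ring

open Classical in
/-- Tables and graphs are the same thing. -/
noncomputable def graphEquiv (d : Fin n → ℕ) : Real' d ≃ Graphs d where
  toFun g := ⟨{ Adj := fun i j => g.1 i j = true
                symm := ⟨fun i j h => (g.symm j i).trans h⟩
                loopless := ⟨fun i h => Bool.noConfusion ((g.irrefl i).symm.trans h)⟩ }, fun i => by
      rw [← card_nbrs g i]
      congr 1
      ext j
      simp [nbrs]⟩
  invFun G := ⟨fun i j => decide (G.1.Adj i j), fun i j => by simp [G.1.adj_comm],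
    fun i => by simp, fun i => by
      rw [← G.2 i, deg, card_filter]
      exact sum_congr rfl fun j _ => by by_cases h : G.1.Adj i j <;> simp [bn, h]⟩
  left_inv g := Real'.ext' fun i j => by
    simp
  right_inv G := by
    apply Subtype.ext
    ext i j
    simp

theorem graphEquiv_adj (g : Real' d) (i j : Fin n) :
    (graphEquiv d g).1.Adj i j ↔ g.1 i j = true := Iff.rfl

theorem pair_cases {α : Type*} [DecidableEq α] {x y u v : α}
    (e : ({x, y} : Finset α) = {u, v}) : x = u ∧ y = v ∨ x = v ∧ y = u := by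
  have h := congrArg (fun s : Finset α => (s : Set α)) e
  simp only [coe_insert, coe_singleton] at h
  exact Set.pair_eq_pair_iff.1 h

theorem switch_outcome {G H : SimpleGraph (Fin n)} {p q u v : Fin n} (hpq : p ≠ q) (huv : u ≠ v)
    (hup : u ≠ p) (huq : u ≠ q) (hvp : v ≠ p) (hvq : v ≠ q)
    (a1 : G.Adj p u) (a2 : ¬ G.Adj q u) (a3 : ¬ G.Adj p v) (a4 : G.Adj q v)
    (b1 : ¬ H.Adj p u) (b2 : H.Adj q u) (b3 : H.Adj p v) (b4 : ¬ H.Adj q v)
    (hsame : ∀ x y, ¬((x = p ∨ x = q) ∧ (y = u ∨ y = v)) →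
      ¬((y = p ∨ y = q) ∧ (x = u ∨ x = v)) → (H.Adj x y ↔ G.Adj x y)) :
    ∃ T : Finset (Fin n), T.card = 4 ∧ ∃ m ∈ moves T, outcome G m = H := by
  classical
  set T : Finset (Fin n) := {p, q, u, v}
  have hT : T.card = 4 := by
    simp only [T]
    rw [card_insert_of_notMem (by simp [hpq, hup.symm, hvp.symm]),
      card_insert_of_notMem (by simp [huq.symm, hvq.symm]), card_pair huv]
  set F : Finset (Finset (Fin n)) := {{p, u}, {q, v}}
  set F' : Finset (Finset (Fin n)) := {{p, v}, {q, u}}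
  have inT : ∀ A B : Finset (Fin n), A ⊆ T → A.card = 2 → B.card = 2 → B ⊆ T → Disjoint A B →
      ({A, B} : Finset (Finset (Fin n))) ∈ matchings T := fun A B hA hA2 hB2 hB hd => by
    rw [matchings_eq hT]
    refine mem_image.2 ⟨A, mem_powersetCard.2 ⟨hA, hA2⟩, ?_⟩
    rw [show T \ A = B from (eq_of_subset_of_card_le
      (fun t ht => mem_sdiff.2 ⟨hB ht, fun h => disjoint_left.1 hd h ht⟩)
      (by rw [card_sdiff_of_subset hA, hT, hA2, hB2])).symm]
  have hF : F ∈ matchings T := inT _ _ (by simp [T, insert_subset_iff]) (card_pair hup.symm)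
    (card_pair hvq.symm) (by simp [T, insert_subset_iff])
    (by simp [hpq.symm, huq.symm, hvp, huv.symm])
  have hF' : F' ∈ matchings T := inT _ _ (by simp [T, insert_subset_iff]) (card_pair hvp.symm)
    (card_pair huq.symm) (by simp [T, insert_subset_iff])
    (by simp [hpq.symm, hvq.symm, hup, huv])
  have notMem : ∀ {a b : Fin n} {A B A' B' : Fin n}, ¬(a = A ∧ b = B) → ¬(a = B ∧ b = A) →
      ¬(a = A' ∧ b = B') → ¬(a = B' ∧ b = A') →
      ({a, b} : Finset (Fin n)) ∉ ({{A, B}, {A', B'}} : Finset (Finset (Fin n))) := by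
    intro a b A B A' B' c1 c2 c3 c4 h
    simp only [mem_insert, mem_singleton] at h
    rcases h with h | h
    · exact (pair_cases h).elim c1 c2
    · exact (pair_cases h).elim c3 c4
  have i1 : ({p, u} : Finset (Fin n)) ∈ F := mem_insert_self _ _
  have i2 : ({q, v} : Finset (Fin n)) ∈ F := by simp [F]
  have i3 : ({p, v} : Finset (Fin n)) ∈ F' := mem_insert_self _ _
  have i4 : ({q, u} : Finset (Fin n)) ∈ F' := by simp [F']
  have j1 : ({p, u} : Finset (Fin n)) ∉ F' :=
    notMem (fun h => huv h.2) (fun h => hvp h.1.symm) (fun h => hpq h.1) (fun h => hup h.1.symm)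
  have j2 : ({q, v} : Finset (Fin n)) ∉ F' :=
    notMem (fun h => hpq h.1.symm) (fun h => hvq h.1.symm) (fun h => huv h.2.symm)
      (fun h => huq h.1.symm)
  have j3 : ({p, v} : Finset (Fin n)) ∉ F :=
    notMem (fun h => huv h.2.symm) (fun h => hup h.1.symm) (fun h => hpq h.1) (fun h => hvp h.1.symm)
  have j4 : ({q, u} : Finset (Fin n)) ∉ F :=
    notMem (fun h => hpq h.1.symm) (fun h => huq h.1.symm) (fun h => huv h.2)
      (fun h => hvq h.1.symm)
  have hne : F ≠ F' := fun e => j1 (e ▸ i1)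
  refine ⟨T, hT, (F, F'), by simp [moves, hF, hF', hne], ?_⟩
  have pP : ∀ {A B : Fin n}, G.Adj A B → ∀ x ∈ ({A, B} : Finset (Fin n)),
      ∀ y ∈ ({A, B} : Finset (Fin n)), x ≠ y → G.Adj x y := by
    intro A B h x hx y hy hxy
    simp only [mem_insert, mem_singleton] at hx hy
    rcases hx with hx | hx <;> rcases hy with hy | hy <;> subst hx <;> subst hy <;>
      first | exact absurd rfl hxy | exact h | exact h.symm
  have pA : ∀ {A B : Fin n}, ¬ G.Adj A B → ∀ x ∈ ({A, B} : Finset (Fin n)),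
      ∀ y ∈ ({A, B} : Finset (Fin n)), ¬ G.Adj x y := by
    intro A B h x hx y hy hadj
    simp only [mem_insert, mem_singleton] at hx hy
    rcases hx with hx | hx <;> rcases hy with hy | hy <;> subst hx <;> subst hy <;>
      first | exact hadj.ne rfl | exact h hadj | exact h hadj.symm
  have hP : Present G F := fun e he => by
    simp only [F, mem_insert, mem_singleton] at he
    rcases he with he | he <;> subst he
    · exact pP a1
    · exact pP a4
  have hA : Absent G F' := fun e he => by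
    simp only [F', mem_insert, mem_singleton] at he
    rcases he with he | he <;> subst he
    · exact pA a3
    · exact pA a2
  rw [outcome, if_pos ⟨hP, hA⟩]
  ext x y
  rw [replace_adj]
  set Q : Fin n → Fin n → Prop := fun x y =>
    (x ≠ y ∧ ((G.Adj x y ∧ ({x, y} : Finset (Fin n)) ∉ F) ∨ ({x, y} : Finset (Fin n)) ∈ F')) ↔
      H.Adj x y
  show Q x y
  have hsym : ∀ {x y}, Q x y → Q y x := by
    intro x y h
    simp only [Q] at h ⊢
    rw [G.adj_comm y x, H.adj_comm y x, Finset.pair_comm y x, ne_comm]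
    exact h
  have q1 : Q p u := iff_of_false (fun h => h.2.elim (fun h => h.2 i1) j1) b1
  have q2 : Q q u := iff_of_true ⟨huq.symm, Or.inr i4⟩ b2
  have q3 : Q p v := iff_of_true ⟨hvp.symm, Or.inr i3⟩ b3
  have q4 : Q q v := iff_of_false (fun h => h.2.elim (fun h => h.2 i2) j2) b4
  by_cases c1 : (x = p ∨ x = q) ∧ (y = u ∨ y = v)
  · obtain ⟨hx | hx, hy | hy⟩ := c1 <;> rw [hx, hy] <;> assumption
  by_cases c2 : (y = p ∨ y = q) ∧ (x = u ∨ x = v)
  · obtain ⟨hy | hy, hx | hx⟩ := c2 <;> rw [hx, hy] <;> exact hsym (by assumption)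
  simp only [Q]
  rw [hsame x y c1 c2]
  have n1 : ({x, y} : Finset (Fin n)) ∉ F :=
    notMem (fun h => c1 ⟨Or.inl h.1, Or.inl h.2⟩) (fun h => c2 ⟨Or.inl h.2, Or.inl h.1⟩)
      (fun h => c1 ⟨Or.inr h.1, Or.inr h.2⟩) (fun h => c2 ⟨Or.inr h.2, Or.inr h.1⟩)
  have n2 : ({x, y} : Finset (Fin n)) ∉ F' :=
    notMem (fun h => c1 ⟨Or.inl h.1, Or.inr h.2⟩) (fun h => c2 ⟨Or.inl h.2, Or.inr h.1⟩)
      (fun h => c1 ⟨Or.inr h.1, Or.inl h.2⟩) (fun h => c2 ⟨Or.inr h.2, Or.inl h.1⟩)
  exact ⟨fun h => h.2.elim (fun h => h.1) fun h => absurd h n2,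
    fun h => ⟨h.ne, Or.inl ⟨h, n1⟩⟩⟩

theorem switch_prob {g₀ : Real' d} {p q : Fin n} (hn : 4 ≤ n) (hpq : p ≠ q)
    {S : Finset {x // x ∈ excl g₀ p q}} (hS : S.card = (toSet g₀ p q g₀).card)
    {z w : {x // x ∈ excl g₀ p q}} (hz : z ∈ S) (hw : w ∉ S) :
    1 ≤ 12 * (n : ℝ) ^ 4 * switchP d (graphEquiv d (ofSet g₀ p q S))
      (graphEquiv d (ofSet g₀ p q (exch S z w))) := by
  classical
  obtain ⟨-, -, hsame, ⟨a1, a2, a3, a4⟩, ⟨b1, b2, b3, b4⟩⟩ := ofSet_exch_apply hpq hS hz hw
  set g := ofSet g₀ p q S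
  set h := ofSet g₀ p q (exch S z w)
  obtain ⟨T, hT, mv, hm, hout⟩ := switch_outcome (G := (graphEquiv d g).1)
    (H := (graphEquiv d h).1) hpq (fun e => hw (Subtype.ext e ▸ hz) : z.1 ≠ w.1)
    (excl_ne z.2).1 (excl_ne z.2).2 (excl_ne w.2).1 (excl_ne w.2).2
    (by rw [graphEquiv_adj]; exact a1) (by rw [graphEquiv_adj, a2]; simp)
    (by rw [graphEquiv_adj, a3]; simp) (by rw [graphEquiv_adj]; exact a4)
    (by rw [graphEquiv_adj, b1]; simp) (by rw [graphEquiv_adj]; exact b2)
    (by rw [graphEquiv_adj]; exact b3) (by rw [graphEquiv_adj, b4]; simp)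
    (fun x y c1 c2 => by rw [graphEquiv_adj, graphEquiv_adj, hsame x y c1 c2])
  have hmem : T ∈ (univ : Finset (Fin n)).powersetCard 4 := mem_powersetCard.2 ⟨subset_univ _, hT⟩
  have h0 : ∀ S' (m : Finset (Finset (Fin n)) × Finset (Finset (Fin n))), m ∈ moves S' →
      0 ≤ (1 : ℝ) / 6 * (if outcome (graphEquiv d g).1 m = (graphEquiv d h).1 then (1 : ℝ) else 0) :=
    fun _ _ _ => by split_ifs <;> norm_num
  have h1 := single_le_sum (fun S' _ => sum_nonneg (h0 S')) hmem
  have h2 := single_le_sum (h0 T) hm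
  rw [if_pos hout] at h2
  have hc : (0 : ℝ) < (n.choose 4 : ℝ) := by exact_mod_cast Nat.choose_pos hn
  have hc4 : (n.choose 4 : ℝ) ≤ (n : ℝ) ^ 4 := by exact_mod_cast Nat.choose_le_pow n 4
  have hlow : 1 / (12 * (n.choose 4 : ℝ)) ≤
      switchP d (graphEquiv d g) (graphEquiv d h) := by
    rw [switchP]
    refine le_trans (le_trans (le_of_eq ?_) (mul_le_mul_of_nonneg_left (h2.trans h1)
      (show (0 : ℝ) ≤ 1 / 2 * (1 / (n.choose 4 : ℝ)) by positivity))) (le_add_of_nonneg_left ?_)
    · field_simp; norm_num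
    · split_ifs <;> norm_num
  rw [div_le_iff₀ (by positivity)] at hlow
  nlinarith [show 0 ≤ switchP d (graphEquiv d g) (graphEquiv d h) by
    rw [switchP_eq]; exact add_nonneg (by split_ifs <;> norm_num)
      (mul_nonneg (by norm_num) (propose_nonneg _ _))]

theorem trade_le_dirichlet (hn : 4 ≤ n) {a : Finset (Fin n)} (ha : a ∈ pairs (Fin n))
    (F : Graphs d → ℝ) :
    ip (F ∘ graphEquiv d) (tradeQ d a (F ∘ graphEquiv d)) ≤
      12 * (n : ℝ) ^ 8 * ∑ G, ∑ H, switchP d G H * (F G - F H) ^ 2 := by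
  classical
  obtain ⟨p, q, hpq, rfl⟩ := card_eq_two.1 (mem_powersetCard.1 ha).2
  set f := F ∘ graphEquiv d
  set rowD := fun g : Real' d =>
    ∑ h, switchP d (graphEquiv d g) (graphEquiv d h) * (f g - f h) ^ 2
  have hP0 : ∀ G H, 0 ≤ switchP d G H := fun G H => by
    rw [switchP_eq]
    exact add_nonneg (by split_ifs <;> norm_num) (mul_nonneg (by norm_num) (propose_nonneg _ _))
  have hrow : ∀ g, 0 ≤ rowD g := fun g => sum_nonneg fun h _ => mul_nonneg (hP0 _ _) (sq_nonneg _)
  have hD : ∑ g, rowD g = ∑ G, ∑ H, switchP d G H * (F G - F H) ^ 2 := by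
    rw [← Equiv.sum_comp (graphEquiv d)]
    refine sum_congr rfl fun g _ => ?_
    rw [← Equiv.sum_comp (graphEquiv d)]
    rfl
  rw [← hD, ip_tradeQ_self, ip, tradeQ_apply]
  set key : Real' d → Fin n → Fin n → Bool := tradeKey {p, q}
  have hJ : ∀ g, (f - avgOp key f) g * (f - avgOp key f) g ≤
      (∑ h ∈ univ.filter (fun h => key h = key g), (f g - f h) ^ 2) /
        ((univ.filter fun h => key h = key g).card : ℝ) := by
    intro g
    have hN := block_card_pos key g
    rw [Pi.sub_apply, avgOp_apply, le_div_iff₀ hN]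
    have hcs := sq_sum_le_card_mul_sum_sq (s := univ.filter fun h => key h = key g)
      (f := fun h => f g - f h)
    rw [sum_sub_distrib, sum_const, nsmul_eq_mul] at hcs
    set N := ((univ.filter fun h => key h = key g).card : ℝ)
    set s := ∑ h ∈ univ.filter (fun h => key h = key g), f h
    have e : (N * f g - s) ^ 2 = N * ((f g - s / N) * (f g - s / N) * N) := by field_simp
    rw [e] at hcs
    exact le_of_mul_le_mul_left hcs hN
  refine (sum_le_sum fun g _ => hJ g).trans ?_
  have hmaps : ∀ g ∈ (univ : Finset (Real' d)), key g ∈ (univ : Finset (Real' d)).image key :=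
    fun g hg => mem_image_of_mem _ hg
  rw [← sum_fiberwise_of_maps_to hmaps, ← sum_fiberwise_of_maps_to hmaps rowD, mul_sum]
  refine sum_le_sum fun κ hκ => ?_
  obtain ⟨g₀, -, rfl⟩ := mem_image.1 hκ
  set Φ := univ.filter fun g => key g = key g₀
  have e1 : ∀ g ∈ Φ, (univ.filter fun h => key h = key g) = Φ := fun g hg => by
    rw [(mem_filter.1 hg).2]
  rw [sum_congr rfl fun g hg => by rw [e1 g hg], ← sum_div]
  have hN : (0 : ℝ) < Φ.card := block_card_pos key g₀
  rw [div_le_iff₀ hN]
  set a := (toSet g₀ p q g₀).card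
  set α := {x // x ∈ excl g₀ p q}
  have hcard : (Φ.card : ℝ) = (slice α a).card := by
    have := sum_fibre (g₀ := g₀) hpq (fun _ => (1 : ℝ))
    simpa [Φ, key] using this
  have e2 : ∑ g ∈ Φ, ∑ h ∈ Φ, (f g - f h) ^ 2 =
      ∑ S ∈ slice α a, ∑ T ∈ slice α a, (f (ofSet g₀ p q S) - f (ofSet g₀ p q T)) ^ 2 := by
    rw [sum_fibre (g₀ := g₀) hpq fun g => ∑ h ∈ Φ, (f g - f h) ^ 2]
    exact sum_congr rfl fun S _ =>
      sum_fibre (g₀ := g₀) hpq fun h => (f (ofSet g₀ p q S) - f h) ^ 2
  rw [e2]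
  refine (slice_poincare a fun S => f (ofSet g₀ p q S)).trans ?_
  rw [← hcard]
  have hDn : (Fintype.card α : ℝ) ≤ n := by
    have := card_le_univ (excl g₀ p q)
    rw [Fintype.card_fin] at this
    simp only [α, Fintype.card_coe]
    exact_mod_cast this
  have e3 : ∑ z, ∑ w, ∑ S ∈ sepSets a z w,
      (f (ofSet g₀ p q S) - f (ofSet g₀ p q (insert w (S.erase z)))) ^ 2 ≤
      (Fintype.card α : ℝ) ^ 2 * (12 * (n : ℝ) ^ 4 * ∑ S ∈ slice α a, rowD (ofSet g₀ p q S)) := by
    calc _ ≤ ∑ _z : α, ∑ _w : α,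
          12 * (n : ℝ) ^ 4 * ∑ S ∈ slice α a, rowD (ofSet g₀ p q S) := by
          refine sum_le_sum fun z _ => sum_le_sum fun w _ => ?_
          rw [mul_sum]
          refine le_trans (sum_le_sum fun S hS => ?_) (sum_le_sum_of_subset_of_nonneg
            (filter_subset _ _) fun S _ _ => mul_nonneg (by positivity) (hrow _))
          obtain ⟨hc, hz, hw⟩ := mem_sepSets.1 hS
          have hp := switch_prob hn hpq hc hz hw
          have hle := single_le_sum
            (f := fun h => switchP d (graphEquiv d (ofSet g₀ p q S)) (graphEquiv d h) *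
              (f (ofSet g₀ p q S) - f h) ^ 2)
            (fun h _ => mul_nonneg (hP0 _ _) (sq_nonneg _))
            (mem_univ (ofSet g₀ p q (exch S z w)))
          refine le_trans ?_ (mul_le_mul_of_nonneg_left hle (by positivity))
          rw [← mul_assoc]
          exact le_mul_of_one_le_left (sq_nonneg _) hp
      _ = _ := by simp only [sum_const, card_univ, nsmul_eq_mul]; ring
  have e4 : ∑ S ∈ slice α a, rowD (ofSet g₀ p q S) = ∑ g ∈ Φ, rowD g :=
    (sum_fibre (g₀ := g₀) hpq rowD).symm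
  rw [e4] at e3
  have hR : 0 ≤ ∑ g ∈ Φ, rowD g := sum_nonneg fun g _ => hrow g
  calc (Φ.card : ℝ) * (Fintype.card α : ℝ) ^ 2 * ∑ z, ∑ w, ∑ S ∈ sepSets a z w,
        (f (ofSet g₀ p q S) - f (ofSet g₀ p q (insert w (S.erase z)))) ^ 2
      ≤ (Φ.card : ℝ) * (Fintype.card α : ℝ) ^ 2 *
          ((Fintype.card α : ℝ) ^ 2 * (12 * (n : ℝ) ^ 4 * ∑ g ∈ Φ, rowD g)) :=
        mul_le_mul_of_nonneg_left e3 (by positivity)
    _ ≤ (Φ.card : ℝ) * (n : ℝ) ^ 2 * ((n : ℝ) ^ 2 * (12 * (n : ℝ) ^ 4 * ∑ g ∈ Φ, rowD g)) := by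
        gcongr
    _ = 12 * (n : ℝ) ^ 8 * (∑ g ∈ Φ, rowD g) * (Φ.card : ℝ) := by ring

theorem card_graphs_le (d : Fin n → ℕ) : Fintype.card (Graphs d) ≤ 2 ^ n ^ 2 := by
  refine (Fintype.card_le_of_injective (fun G => ((graphEquiv d).symm G).1)
    (Subtype.val_injective.comp (graphEquiv d).symm.injective)).trans (le_of_eq ?_)
  simp [← pow_mul, sq]

theorem mixing_of_trade_gap : ∃ C k : ℕ, ∀ n : ℕ, 4 ≤ n → ∀ d : Fin n → ℕ,
    (∀ F : Real' d → ℝ, (∑ x, F x = 0) → ip F F ≤ ip F (tradeK d F)) →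
    ∀ t : ℕ, C * n ^ k ≤ t → ∀ G : Graphs d, distUniform d t G ≤ 1 / 4 := by
  refine ⟨72, 12, fun n hn d hgap t ht G => ?_⟩
  classical
  set m : ℕ := 24 * n ^ 10 with hm
  have hm1 : 1 ≤ m := by
    have : 0 < n ^ 10 := Nat.pow_pos (by omega)
    omega
  have hmR : (0 : ℝ) < m := by exact_mod_cast hm1
  set γ : ℝ := 1 / m with hγ
  have hγ1 : γ ≤ 1 := by
    rw [hγ, div_le_one hmR]; exact_mod_cast hm1
  have hgap' : ∀ f : Graphs d → ℝ, ∑ x, f x = 0 →
      γ * ip f f ≤ ip f f - ip f (chainMap d f) := by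
    intro f hf
    have h1 := hgap (f ∘ graphEquiv d) (by
      rw [← hf]; exact Equiv.sum_comp (graphEquiv d) f)
    rw [tradeK_apply, ip_sum_right] at h1
    have h2 : ∑ a ∈ pairs (Fin n), ip (f ∘ graphEquiv d) (tradeQ d a (f ∘ graphEquiv d)) ≤
        (n : ℝ) ^ 2 * (12 * (n : ℝ) ^ 8 * (2 * (ip f f - ip f (chainMap d f)))) := by
      refine (sum_le_sum fun a ha => trade_le_dirichlet hn ha f).trans ?_
      rw [sum_const, nsmul_eq_mul, dirichlet hn]
      refine mul_le_mul_of_nonneg_right ?_ ?_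
      · have : (pairs (Fin n)).card ≤ n ^ 2 := by
          simp only [pairs, card_powersetCard, card_univ, Fintype.card_fin]
          exact Nat.choose_le_pow n 2
        exact_mod_cast this
      · exact mul_nonneg (by positivity) (by linarith [(chainMap_pos hn f).2])
    have h3 : ip (f ∘ graphEquiv d) (f ∘ graphEquiv d) = ip f f :=
      Equiv.sum_comp (graphEquiv d) fun x => f x * f x
    rw [hγ, one_div_mul_eq_div, div_le_iff₀ hmR]
    rw [h3] at h1
    rw [hm]
    push_cast
    linarith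
  set N := Fintype.card (Graphs d)
  have hN : 0 < N := Fintype.card_pos_iff.2 ⟨G⟩
  set f : Graphs d → ℝ := fun H => (if H = G then 1 else 0) - 1 / (N : ℝ)
  have hf : ∑ H, f H = 0 := by
    simp only [f, sum_sub_distrib, sum_ite_eq', mem_univ, if_true, sum_const, card_univ,
      nsmul_eq_mul]
    rw [mul_one_div_cancel (by exact_mod_cast hN.ne'), sub_self]
  have hff : ip f f ≤ 1 := by
    have : ip f f = 1 - 1 / (N : ℝ) := by
      have e : ∀ H, f H * f H =
          (if H = G then 1 - 2 / (N : ℝ) else 0) + 1 / (N : ℝ) ^ 2 := fun H => by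
        simp only [f]; split_ifs <;> ring
      simp only [ip, e, sum_add_distrib, sum_ite_eq', mem_univ, if_true, sum_const, card_univ,
        nsmul_eq_mul]
      have : (N : ℝ) ≠ 0 := by exact_mod_cast hN.ne'
      field_simp
      ring
    rw [this]
    have : (0 : ℝ) ≤ 1 / (N : ℝ) := by positivity
    linarith
  have hdec := pow_decay (chainMap d) chainMap_sym (fun f => (chainMap_pos hn f).1)
    (fun f => (chainMap_pos hn f).2) (chainMap_sum hn) γ hγ1 hgap' f hf t
  have hrows : ∀ (s : ℕ) (H : Graphs d), ∑ K, (switchP d ^ s) H K = 1 := by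
    intro s
    induction s with
    | zero => simp [Matrix.one_apply]
    | succ s ih =>
      intro H
      rw [pow_succ]
      simp only [Matrix.mul_apply]
      rw [sum_comm]
      simp only [← mul_sum, switchP_row hn, mul_one]
      exact ih _
  have hrowt := hrows t
  have hsymt : (switchP d ^ t).transpose = switchP d ^ t := by
    rw [Matrix.transpose_pow, show (switchP d).transpose = switchP d from
      Matrix.ext fun i j => switchP_symm j i]
  have hval : ∀ H, (chainMap d ^ t) f H = (switchP d ^ t) G H - 1 / (N : ℝ) := by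
    intro H
    have e : (switchP d ^ t) H G = (switchP d ^ t) G H := congrFun (congrFun hsymt G) H
    rw [chainMap_pow]
    simp only [f, mul_sub, mul_ite, mul_one, mul_zero, sum_sub_distrib, sum_ite_eq', mem_univ,
      if_true, ← sum_mul, hrowt, one_mul, e]
  have hl1 : (∑ H, |(switchP d ^ t) G H - 1 / (N : ℝ)|) ^ 2 ≤
      (N : ℝ) * ip ((chainMap d ^ t) f) ((chainMap d ^ t) f) := by
    refine (sq_sum_le_card_mul_sum_sq (s := univ)
      (f := fun H => |(switchP d ^ t) G H - 1 / (N : ℝ)|)).trans ?_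
    rw [card_univ]
    refine mul_le_mul_of_nonneg_left (le_of_eq ?_) (Nat.cast_nonneg _)
    simp only [ip, hval, sq, abs_mul_abs_self]
  have hsmall : (N : ℝ) * (1 - γ) ^ t ≤ 1 / 4 := by
    have hbase : (0 : ℝ) ≤ 1 - γ := by linarith
    have hhalf : (1 - γ) ^ m ≤ 1 / 2 := by
      have hb : 2 ≤ (1 + γ) ^ m := by
        refine le_trans (le_of_eq ?_) (one_add_mul_le_pow (by
          have : 0 ≤ γ := by positivity
          linarith) m)
        rw [hγ, mul_one_div_cancel hmR.ne']; norm_num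
      have hmul : (1 - γ) ^ m * (1 + γ) ^ m ≤ 1 := by
        rw [← mul_pow]
        exact pow_le_one₀ (mul_nonneg hbase (by linarith [show 0 ≤ γ by positivity]))
          (by nlinarith [sq_nonneg γ])
      nlinarith [pow_nonneg hbase m]
    have hn2 : 2 ≤ 2 * n ^ 2 := by
      have : 0 < n ^ 2 := Nat.pow_pos (by omega)
      omega
    have ht' : m * (n ^ 2 + 2) ≤ t := by
      refine le_trans ?_ ht
      rw [hm, show 72 * n ^ 12 = 24 * n ^ 10 * (3 * n ^ 2) by ring]
      exact Nat.mul_le_mul_left _ (by omega)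
    calc (N : ℝ) * (1 - γ) ^ t ≤ (2 : ℝ) ^ n ^ 2 * (1 - γ) ^ (m * (n ^ 2 + 2)) := by
          refine mul_le_mul (by exact_mod_cast card_graphs_le d)
            (pow_le_pow_of_le_one hbase (by linarith [show 0 ≤ γ by positivity]) ht')
            (pow_nonneg hbase _) (by positivity)
      _ ≤ (2 : ℝ) ^ n ^ 2 * (1 / 2) ^ (n ^ 2 + 2) := by
          rw [pow_mul]
          exact mul_le_mul_of_nonneg_left (pow_le_pow_left₀ (pow_nonneg hbase _) hhalf _)
            (by positivity)
      _ = 1 / 4 := by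
          rw [pow_add, ← mul_assoc, ← mul_pow]; norm_num
  have h4 : (∑ H, |(switchP d ^ t) G H - 1 / (N : ℝ)|) ^ 2 ≤ 1 / 4 := by
    refine hl1.trans (le_trans ?_ hsmall)
    refine mul_le_mul_of_nonneg_left ?_ (Nat.cast_nonneg _)
    exact hdec.trans (mul_le_of_le_one_right (pow_nonneg (by linarith) _) hff)
  have hpos : 0 ≤ ∑ H, |(switchP d ^ t) G H - 1 / (N : ℝ)| := sum_nonneg fun _ _ => abs_nonneg _
  show 1 / 2 * _ ≤ _
  nlinarith

end Vale.Agent.P335
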