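import Vale.Agent.P335.Graph

/-! Two trades on disjoint pairs commute once the block between them is recorded. -/

namespace Vale.Agent.P335

open Finset

section Abstract

variable {Ω κ₁ κ₂ : Type*} [Fintype Ω] [DecidableEq κ₁] [DecidableEq κ₂]

/-- A criterion for two averaging maps to commute. -/
theorem avgOp_commute (k₁ : Ω → κ₁) (k₂ : Ω → κ₂) (C D : Ω → Ω → Ω)
    (hC : ∀ x y z, k₁ x = k₁ y → k₂ y = k₂ z →
      k₂ (C x z) = k₂ x ∧ k₁ (C x z) = k₁ z ∧ D x z = y ∧ C y (C x z) = z)
    (hD : ∀ x y z, k₂ x = k₂ y → k₁ y = k₁ z →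
      k₁ (D x z) = k₁ x ∧ k₂ (D x z) = k₂ z ∧ C x z = y ∧ D y (D x z) = z)
    (f : Ω → ℝ) : avgOp k₁ (avgOp k₂ f) = avgOp k₂ (avgOp k₁ f) := by
  classical
  funext x
  let c₁ : Ω → Finset Ω := fun u => Finset.univ.filter (fun y => k₁ y = k₁ u)
  let c₂ : Ω → Finset Ω := fun u => Finset.univ.filter (fun y => k₂ y = k₂ u)
  have e₂ : ∀ y ∈ c₁ x, (c₂ y).card = (c₂ x).card := by
    intro y hy
    have hxy : k₁ x = k₁ y := (Finset.mem_filter.1 hy).2.symm
    refine Finset.card_nbij' (fun z => C x z) (fun z => C y z) ?_ ?_ ?_ ?_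
    · intro z hz; simp [c₂] at hz ⊢; exact (hC x y z hxy hz.symm).1
    · intro z hz; simp [c₂] at hz ⊢; exact (hC y x z hxy.symm hz.symm).1
    · intro z hz; simp [c₂] at hz; exact (hC x y z hxy hz.symm).2.2.2
    · intro z hz; simp [c₂] at hz; exact (hC y x z hxy.symm hz.symm).2.2.2
  have e₁ : ∀ y ∈ c₂ x, (c₁ y).card = (c₁ x).card := by
    intro y hy
    have hxy : k₂ x = k₂ y := (Finset.mem_filter.1 hy).2.symm
    refine Finset.card_nbij' (fun z => D x z) (fun z => D y z) ?_ ?_ ?_ ?_
    · intro z hz; simp [c₁] at hz ⊢; exact (hD x y z hxy hz.symm).1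
    · intro z hz; simp [c₁] at hz ⊢; exact (hD y x z hxy.symm hz.symm).1
    · intro z hz; simp [c₁] at hz; exact (hD x y z hxy hz.symm).2.2.2
    · intro z hz; simp [c₁] at hz; exact (hD y x z hxy.symm hz.symm).2.2.2
  have hl : avgOp k₁ (avgOp k₂ f) x
      = (∑ y ∈ c₁ x, ∑ z ∈ c₂ y, f z) / ((c₂ x).card * (c₁ x).card : ℝ) := by
    rw [avgOp_apply, ← div_div, Finset.sum_div (c₁ x) (fun y => ∑ z ∈ c₂ y, f z)]
    refine congrArg (fun t : ℝ => t / ((c₁ x).card : ℝ)) (Finset.sum_congr rfl fun y hy => ?_)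
    rw [avgOp_apply, ← e₂ y hy]
  have hr : avgOp k₂ (avgOp k₁ f) x
      = (∑ y ∈ c₂ x, ∑ z ∈ c₁ y, f z) / ((c₁ x).card * (c₂ x).card : ℝ) := by
    rw [avgOp_apply, ← div_div, Finset.sum_div (c₂ x) (fun y => ∑ z ∈ c₁ y, f z)]
    refine congrArg (fun t : ℝ => t / ((c₂ x).card : ℝ)) (Finset.sum_congr rfl fun y hy => ?_)
    rw [avgOp_apply, ← e₁ y hy]
  rw [hl, hr, mul_comm ((c₂ x).card : ℝ)]
  congr 1
  rw [Finset.sum_sigma', Finset.sum_sigma']
  refine Finset.sum_nbij' (fun s => ⟨C x s.2, s.2⟩) (fun s => ⟨D x s.2, s.2⟩) ?_ ?_ ?_ ?_ ?_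
  · rintro ⟨y, z⟩ h; simp [c₁, c₂] at h ⊢
    have := hC x y z h.1.symm h.2.symm; exact ⟨this.1, this.2.1.symm⟩
  · rintro ⟨y, z⟩ h; simp [c₁, c₂] at h ⊢
    have := hD x y z h.1.symm h.2.symm; exact ⟨this.1, this.2.1.symm⟩
  · rintro ⟨y, z⟩ h; simp [c₁, c₂] at h ⊢
    exact (hC x y z h.1.symm h.2.symm).2.2.1
  · rintro ⟨y, z⟩ h; simp [c₁, c₂] at h ⊢
    exact (hD x y z h.1.symm h.2.symm).2.2.1
  · rintro ⟨y, z⟩ h; rfl

end Abstract

variable {V : Type*} [Fintype V] [DecidableEq V] {d : V → ℕ}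

/-- A two by two block. -/
abbrev Blk : Type := Bool × Bool × Bool × Bool

/-- The block between the pairs `p q` and `z w`. -/
def blk (p q z w : V) (g : V → V → Bool) : Blk := (g p z, g p w, g q z, g q w)

/-- Diagonal blocks. -/
def isX : Blk → Bool
  | (a, b, c, e) => (a && e && !b && !c) || (b && c && !a && !e)

/-- The block coordinate recorded in the refined key. -/
def tag (B : Blk) : Option Blk := if isX B then some B else none

/-- Transpose. -/
def blkT : Blk → Blk
  | (a, b, c, e) => (a, c, b, e)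

/-- One entry of the block with given row and column sums. -/
def cellU (r c tot : ℕ) : Bool := decide (r = 2 ∨ c = 2 ∨ (r = 1 ∧ c = 1 ∧ tot = 1))

/-- The block with the row sums of `x` and the column sums of `z`. -/
def glue : Blk → Blk → Blk
  | (a, b, c, e), (a', b', c', e') =>
    if isX (a, b, c, e) then (a, b, c, e) else
    (cellU (bn a + bn b) (bn a' + bn c') (bn a + bn b + bn c + bn e),
     cellU (bn a + bn b) (bn b' + bn e') (bn a + bn b + bn c + bn e),
     cellU (bn c + bn e) (bn a' + bn c') (bn a + bn b + bn c + bn e),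
     cellU (bn c + bn e) (bn b' + bn e') (bn a + bn b + bn c + bn e))

/-- Equal row sums. -/
def rowEq : Blk → Blk → Bool
  | (a, b, c, e), (a', b', c', e') =>
    decide (bn a + bn b = bn a' + bn b') && decide (bn c + bn e = bn c' + bn e')

/-- Equal column sums. -/
def colEq (x y : Blk) : Bool := rowEq (blkT x) (blkT y)

/-- Check of the forward gluing rule. -/
def checkF (x y z : Blk) : Bool :=
  !(colEq x y && rowEq y z && decide (tag y = tag z)) ||
    (rowEq (glue x z) x && colEq (glue x z) z && decide (tag (glue x z) = tag x)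
      && decide (glue z x = y) && decide (glue y (glue x z) = z)
      && (!decide (tag x = tag y) || decide (tag (glue x z) = tag z)))

/-- Check of the backward gluing rule. -/
def checkB (x y z : Blk) : Bool :=
  !(rowEq x y && colEq y z && decide (tag x = tag y)) ||
    (colEq (glue z x) x && rowEq (glue z x) z && decide (tag (glue z x) = tag z)
      && decide (glue x z = y) && decide (glue (glue z x) y = z)
      && (!decide (tag y = tag z) || decide (tag (glue z x) = tag x)))

/-- All blocks. -/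
def allBlk : List Blk :=
  [false, true].flatMap fun a => [false, true].flatMap fun b => [false, true].flatMap fun c =>
    [false, true].map fun e => (a, b, c, e)

theorem mem_allBlk : ∀ x : Blk, x ∈ allBlk := by
  rintro ⟨_ | _, _ | _, _ | _, _ | _⟩ <;> decide

theorem checkF_all :
    (allBlk.all fun x => allBlk.all fun y => allBlk.all fun z => checkF x y z) = true := by
  decide +kernel

theorem checkB_all :
    (allBlk.all fun x => allBlk.all fun y => allBlk.all fun z => checkB x y z) = true := by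
  decide +kernel

theorem glue_spec (x y z : Blk) (h1 : colEq x y = true) (h2 : rowEq y z = true)
    (h3 : tag y = tag z) :
    rowEq (glue x z) x = true ∧ colEq (glue x z) z = true ∧ tag (glue x z) = tag x ∧
      glue z x = y ∧ glue y (glue x z) = z ∧ (tag x = tag y → tag (glue x z) = tag z) := by
  have h := checkF_all
  simp only [List.all_eq_true] at h
  have h' := h x (mem_allBlk x) y (mem_allBlk y) z (mem_allBlk z)
  simp only [checkF, h1, h2, h3, decide_true, Bool.and_true, Bool.not_true, Bool.false_or,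
    Bool.and_eq_true, decide_eq_true_eq, Bool.or_eq_true, Bool.not_eq_true',
    decide_eq_false_iff_not] at h'
  obtain ⟨⟨⟨⟨⟨a, b⟩, c⟩, e⟩, f⟩, g⟩ := h'
  refine ⟨a, b, c, e, f, fun hxy => ?_⟩
  rcases g with g | g
  · exact absurd (hxy.trans h3) (by simpa [h3] using g)
  · exact g

theorem glue_spec_rev (x y z : Blk) (h1 : rowEq x y = true) (h2 : colEq y z = true)
    (h3 : tag x = tag y) :
    colEq (glue z x) x = true ∧ rowEq (glue z x) z = true ∧ tag (glue z x) = tag z ∧
      glue x z = y ∧ glue (glue z x) y = z ∧ (tag y = tag z → tag (glue z x) = tag x) := by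
  have h := checkB_all
  simp only [List.all_eq_true] at h
  have h' := h x (mem_allBlk x) y (mem_allBlk y) z (mem_allBlk z)
  simp only [checkB, h1, h2, h3, decide_true, Bool.and_true, Bool.not_true, Bool.false_or,
    Bool.and_eq_true, decide_eq_true_eq, Bool.or_eq_true, Bool.not_eq_true',
    decide_eq_false_iff_not] at h'
  obtain ⟨⟨⟨⟨⟨a, b⟩, c⟩, e⟩, f⟩, g⟩ := h'
  refine ⟨a, b, c, e, f, fun hyz => ?_⟩
  rcases g with g | g
  · exact absurd hyz (by simpa [h3] using g)
  · exact g.trans h3.symm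

end Vale.Agent.P335
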