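import Vale.Agent.P335.Fibre

/-! Trades connect all realisations of a degree vector. -/

namespace Vale.Agent.P335

open Finset

variable {V : Type*} [Fintype V] [DecidableEq V] {d : V → ℕ}

/-- An exchange inside a fibre changes only four entries. -/
theorem ofSet_exch_apply {g₀ : Real' d} {p q : V} (hpq : p ≠ q)
    {S : Finset {x // x ∈ excl g₀ p q}} (hS : S.card = (toSet g₀ p q g₀).card)
    {z w : {x // x ∈ excl g₀ p q}} (hz : z ∈ S) (hw : w ∉ S) :
    (exch S z w).card = (toSet g₀ p q g₀).card ∧
      tradeKey {p, q} (ofSet g₀ p q (exch S z w)) = tradeKey {p, q} (ofSet g₀ p q S) ∧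
      (∀ i j, ¬((i = p ∨ i = q) ∧ (j = z.1 ∨ j = w.1)) →
        ¬((j = p ∨ j = q) ∧ (i = z.1 ∨ i = w.1)) →
        (ofSet g₀ p q (exch S z w)).1 i j = (ofSet g₀ p q S).1 i j) ∧
      ((ofSet g₀ p q S).1 p z.1 = true ∧ (ofSet g₀ p q S).1 q z.1 = false ∧
        (ofSet g₀ p q S).1 p w.1 = false ∧ (ofSet g₀ p q S).1 q w.1 = true) ∧
      ((ofSet g₀ p q (exch S z w)).1 p z.1 = false ∧ (ofSet g₀ p q (exch S z w)).1 q z.1 = true ∧
        (ofSet g₀ p q (exch S z w)).1 p w.1 = true ∧
        (ofSet g₀ p q (exch S z w)).1 q w.1 = false) := by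
  have hS' : (exch S z w).card = (toSet g₀ p q g₀).card := by
    rw [exch, card_insert_of_notMem (fun e => hw (mem_erase.1 e).2), card_erase_of_mem hz, ← hS]
    have := card_pos.2 ⟨z, hz⟩
    omega
  have hzw : z ≠ w := fun e => hw (e ▸ hz)
  have m1 : z ∉ exch S z w := by simp [exch, hzw]
  have m2 : w ∈ exch S z w := mem_insert_self _ _
  refine ⟨hS', by rw [ofSet_key hpq _ hS', ofSet_key hpq S hS], ?_, ?_, ?_⟩
  · intro i j h1 h2
    rw [ofSet_val hpq _ hS', ofSet_val hpq S hS]
    have mem : ∀ x : {x // x ∈ excl g₀ p q}, x.1 ≠ z.1 → x.1 ≠ w.1 →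
        (x ∈ exch S z w ↔ x ∈ S) := by
      intro x hx1 hx2
      simp [exch, show x ≠ z from fun e => hx1 (e ▸ rfl), show x ≠ w from fun e => hx2 (e ▸ rfl)]
    have key : ∀ i j, (i = p ∨ i = q) → ¬(j = z.1 ∨ j = w.1) →
        ofSetTable g₀ p q (exch S z w) i j = ofSetTable g₀ p q S i j := by
      intro i j hi hj
      push Not at hj
      by_cases hje : j ∈ excl g₀ p q
      · have hm := mem ⟨j, hje⟩ hj.1 hj.2
        have hd : decide ((⟨j, hje⟩ : {x // x ∈ excl g₀ p q}) ∈ exch S z w) =
            decide ((⟨j, hje⟩ : {x // x ∈ excl g₀ p q}) ∈ S) := decide_eq_decide.2 hm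
        rcases hi with rfl | rfl
        · rw [(table_p hpq _ ⟨j, hje⟩).1, (table_p hpq _ ⟨j, hje⟩).1, hd]
        · rw [(table_p hpq _ ⟨j, hje⟩).2, (table_p hpq _ ⟨j, hje⟩).2, hd]
      · have : ¬((j = p ∨ j = q) ∧ i ∈ excl g₀ p q) := fun h => by
          rcases hi with rfl | rfl
          · exact (excl_ne h.2).1 rfl
          · exact (excl_ne h.2).2 rfl
        rw [table_other _ ⟨fun h => hje h.2, this⟩, table_other _ ⟨fun h => hje h.2, this⟩]
    by_cases hi : i = p ∨ i = q
    · exact key i j hi fun h => h1 ⟨hi, h⟩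
    by_cases hj : j = p ∨ j = q
    · rw [table_symm hpq _ i j, table_symm hpq S i j]
      exact key j i hj fun h => h2 ⟨hj, h⟩
    rw [table_other _ ⟨fun h => hi h.1, fun h => hj h.1⟩,
      table_other _ ⟨fun h => hi h.1, fun h => hj h.1⟩]
  · rw [ofSet_val hpq S hS]
    simp [(table_p hpq S z).1, (table_p hpq S z).2, (table_p hpq S w).1, (table_p hpq S w).2, hz, hw]
  · rw [ofSet_val hpq _ hS']
    simp [(table_p hpq (exch S z w) z).1, (table_p hpq (exch S z w) z).2,
      (table_p hpq (exch S z w) w).1, (table_p hpq (exch S z w) w).2, m1, m2]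

/-- The neighbours in a table. -/
def nbrs (x : Real' d) (v : V) : Finset V := univ.filter fun j => x.1 v j = true

theorem card_nbrs (x : Real' d) (v : V) : (nbrs x v).card = d v := by
  rw [← x.degree v, deg, nbrs, card_filter]
  exact sum_congr rfl fun j _ => by cases x.1 v j <;> simp [bn]

/-- The switch of Havel and Hakimi. -/
theorem hakimi_step {x : Real' d} {W : Finset V} {v a b : V} (hv : v ∉ W) (ha : a ∉ W)
    (hb : b ∉ W) (hva : a ≠ v) (hxb : x.1 v b = true) (hxa : x.1 v a = false)
    (hd : (nbrs x b \ W).card ≤ (nbrs x a \ W).card) :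
    ∃ g : Real' d, ∃ p q : V, p ≠ q ∧ tradeKey {p, q} g = tradeKey {p, q} x ∧
      (∀ i ∈ W, ∀ j, g.1 i j = x.1 i j) ∧ nbrs g v = insert a ((nbrs x v).erase b) := by
  have hab : a ≠ b := fun e => by rw [e, hxb] at hxa; exact Bool.noConfusion hxa
  obtain ⟨z, hzW, hza, hzb, hzne⟩ :
      ∃ z, z ∉ W ∧ x.1 a z = true ∧ x.1 b z = false ∧ z ≠ b := by
    by_contra hne
    push Not at hne
    set A := nbrs x a \ W
    set B := nbrs x b \ W
    have hvB : v ∈ B := by simp [B, nbrs, hv, x.symm b v, hxb]
    have hmap : Set.MapsTo (fun z => if z = b then a else z) A (B.erase v) := by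
      intro z hz
      simp only [A, nbrs, mem_coe, mem_sdiff, mem_filter, mem_univ, true_and] at hz
      simp only [B, nbrs, mem_coe, mem_erase, mem_sdiff, mem_filter, mem_univ, true_and]
      split_ifs with h
      · subst h
        exact ⟨hva, by rw [x.symm]; exact hz.1, ha⟩
      · refine ⟨fun e => ?_, ?_, hz.2⟩
        · rw [e, x.symm, hxa] at hz; exact Bool.noConfusion hz.1
        · by_contra hb'
          exact h (hne z hz.2 hz.1 (by simpa using hb'))
    have hinj : Set.InjOn (fun z => if z = b then a else z) (A : Set V) := by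
      intro s hs t ht hst
      simp only [A, nbrs, mem_coe, mem_sdiff, mem_filter, mem_univ, true_and] at hs ht
      have haa : ∀ u, x.1 a u = true → u ≠ a := fun u hu e => by
        rw [e, x.irrefl] at hu; exact Bool.noConfusion hu
      simp only at hst
      split_ifs at hst with h1 h2 h2
      · rw [h1, h2]
      · exact absurd hst.symm (haa t ht.1)
      · exact absurd hst (haa s hs.1)
      · exact hst
    have h1 := card_le_card_of_injOn _ hmap hinj
    rw [card_erase_of_mem hvB] at h1
    have := card_pos.2 ⟨v, hvB⟩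
    omega
  have hvz : v ≠ z := fun e => by rw [← e, x.symm, hxa] at hza; exact Bool.noConfusion hza
  have hzaa : z ≠ a := fun e => by rw [e, x.irrefl] at hza; exact Bool.noConfusion hza
  have hbv : b ≠ v := fun e => by rw [e, x.irrefl] at hxb; exact Bool.noConfusion hxb
  have hae : a ∈ excl x v z := by
    simp [excl, hva, hzaa.symm, hxa, x.symm z a, hza]
  have hbe : b ∈ excl x v z := by
    simp [excl, hbv, hzne.symm, hxb, x.symm z b, hzb]
  set S := toSet x v z x
  have hbS : (⟨b, hbe⟩ : {y // y ∈ excl x v z}) ∈ S := by simp [S, toSet, hxb]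
  have haS : (⟨a, hae⟩ : {y // y ∈ excl x v z}) ∉ S := by simp [S, toSet, hxa]
  obtain ⟨-, hk, hsame, ⟨-, -, -, -⟩, ⟨e1, -, e3, -⟩⟩ := ofSet_exch_apply hvz (S := S) rfl hbS haS
  have hx : ofSet x v z S = x := ofSet_toSet hvz rfl
  rw [hx] at hk hsame
  refine ⟨_, v, z, hvz, hk, fun i hi j => hsame i j ?_ ?_, ?_⟩
  · rintro ⟨h | h, -⟩
    · exact hv (h ▸ hi)
    · exact hzW (h ▸ hi)
  · rintro ⟨-, h | h⟩
    · exact hb ((show i = b from h) ▸ hi)
    · exact ha ((show i = a from h) ▸ hi)
  · ext j
    simp only [nbrs, mem_filter, mem_univ, true_and, mem_insert, mem_erase]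
    rcases eq_or_ne j a with rfl | hja
    · simp [e3]
    rcases eq_or_ne j b with rfl | hjb
    · simp [e1, hab.symm]
    rw [hsame v j (fun h => h.2.elim hjb hja) (fun h => h.2.elim hbv.symm hva.symm)]
    simp [hja, hjb]

/-- A function invariant under all trades is constant. -/
theorem const_of_trade_invariant (F : Real' d → ℝ)
    (hF : ∀ (p q : V), p ≠ q → ∀ g h : Real' d, tradeKey {p, q} g = tradeKey {p, q} h → F g = F h) :
    ∀ x y, F x = F y := by
  suffices h : ∀ (k : ℕ) (W : Finset V), Wᶜ.card = k → ∀ x y : Real' d,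
      (∀ i ∈ W, ∀ j, x.1 i j = y.1 i j) → F x = F y from
    fun x y => h _ ∅ rfl x y (by simp)
  intro k
  induction k with
  | zero =>
    intro W hW x y hxy
    rw [card_eq_zero, compl_eq_empty_iff] at hW
    subst hW
    exact congrArg F (Real'.ext' fun i j => hxy i (mem_univ i) j)
  | succ k ih =>
    intro W hW
    obtain ⟨v, hv⟩ := card_pos.1 (by omega : 0 < Wᶜ.card)
    rw [mem_compl] at hv
    suffices h : ∀ (m : ℕ) (x y : Real' d), (nbrs x v \ nbrs y v).card = m →
        (∀ i ∈ W, ∀ j, x.1 i j = y.1 i j) → F x = F y from fun x y h' => h _ x y rfl h'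
    intro m
    induction m using Nat.strong_induction_on with
    | _ m ihm =>
      intro x y hm hxy
      rcases Nat.eq_zero_or_pos m with h0 | h0
      · refine ih (insert v W) ?_ x y ?_
        · rw [card_compl, card_insert_of_notMem hv]
          rw [card_compl] at hW
          omega
        · intro i hi j
          rcases mem_insert.1 hi with rfl | hi
          · have hsub : nbrs x i ⊆ nbrs y i := by
              rw [← Finset.sdiff_eq_empty_iff_subset, ← card_eq_zero, hm, h0]
            have he := eq_of_subset_of_card_le hsub (by rw [card_nbrs, card_nbrs])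
            have hj : (j ∈ nbrs x i ↔ j ∈ nbrs y i) := by rw [he]
            simp only [nbrs, mem_filter, mem_univ, true_and] at hj
            exact Bool.eq_iff_iff.2 hj
          · exact hxy i hi j
      · obtain ⟨b, hb⟩ := card_pos.1 (by omega : 0 < (nbrs x v \ nbrs y v).card)
        have hcard : (nbrs y v \ nbrs x v).card = m := by
          rw [← hm]
          have h1 := card_sdiff_add_card_inter (nbrs x v) (nbrs y v)
          have h2 := card_sdiff_add_card_inter (nbrs y v) (nbrs x v)
          rw [inter_comm] at h2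
          rw [card_nbrs] at h1 h2
          omega
        obtain ⟨a, ha⟩ := card_pos.1 (by omega : 0 < (nbrs y v \ nbrs x v).card)
        have hb' := hb; have ha' := ha
        simp only [nbrs, mem_sdiff, mem_filter, mem_univ, true_and, Bool.not_eq_true] at hb' ha'
        have hbW : b ∉ W := fun h => by
          have := hxy b h v
          rw [x.symm, y.symm, hb'.1, hb'.2] at this; exact Bool.noConfusion this
        have haW : a ∉ W := fun h => by
          have := hxy a h v
          rw [x.symm, y.symm, ha'.1, ha'.2] at this; exact Bool.noConfusion this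
        have hva : a ≠ v := fun e => by
          rw [e, y.irrefl] at ha'; exact Bool.noConfusion ha'.1
        have hvb : b ≠ v := fun e => by
          rw [e, x.irrefl] at hb'; exact Bool.noConfusion hb'.1
        have hdeg : ∀ u, (nbrs x u \ W).card = (nbrs y u \ W).card := by
          intro u
          have h1 := card_sdiff_add_card_inter (nbrs x u) W
          have h2 := card_sdiff_add_card_inter (nbrs y u) W
          have h3 : nbrs x u ∩ W = nbrs y u ∩ W := by
            ext i
            simp only [nbrs, mem_inter, mem_filter, mem_univ, true_and, and_congr_left_iff]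
            intro hi
            rw [x.symm, hxy i hi u, y.symm]
          rw [card_nbrs, h3] at h1
          rw [card_nbrs] at h2
          omega
        rcases le_total ((nbrs x b \ W).card) ((nbrs x a \ W).card) with hle | hle
        · obtain ⟨g, p, q, hpq, hk, hW', hN⟩ := hakimi_step hv haW hbW hva hb'.1 ha'.2 hle
          rw [← hF p q hpq g x hk]
          refine ihm _ ?_ g y rfl fun i hi j => by rw [hW' i hi j, hxy i hi j]
          rw [hN, insert_sdiff_of_mem _ (mem_sdiff.1 ha).1, erase_sdiff_comm,
            card_erase_of_mem hb, hm]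
          omega
        · obtain ⟨g, p, q, hpq, hk, hW', hN⟩ := hakimi_step hv hbW haW hvb ha'.1 hb'.2
            (by rw [← hdeg, ← hdeg]; exact hle)
          rw [← hF p q hpq g y hk]
          refine ihm _ ?_ x g rfl fun i hi j => by rw [hW' i hi j, hxy i hi j]
          rw [hN, ← hm]
          refine card_lt_card (Finset.ssubset_iff_subset_ne.2 ⟨fun u hu => ?_, fun e => ?_⟩)
          · simp only [mem_sdiff, mem_insert, mem_erase, not_or, not_and] at hu ⊢
            refine ⟨hu.1, hu.2.2 fun e => ?_⟩
            have := hu.1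
            rw [e] at this
            exact (mem_sdiff.1 ha).2 this
          · have : b ∈ nbrs x v \ insert b ((nbrs y v).erase a) := e.symm ▸ hb
            simp at this

theorem tradeK_ker {V : Type*} [Fintype V] [DecidableEq V] {d : V → ℕ} (F : Real' d → ℝ)
    (h : tradeK d F = 0) : ∀ x y, F x = F y := by
  have h1 : ∑ a ∈ pairs V, ip F (tradeQ d a F) = 0 := by
    rw [← ip_sum_right, ← tradeK_apply, h]
    simp [ip]
  have h2 : ∀ a ∈ pairs V, ip F (tradeQ d a F) = 0 :=
    (sum_eq_zero_iff_of_nonneg fun a _ => by rw [ip_tradeQ_self]; exact ip_self_nonneg _).1 h1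
  refine const_of_trade_invariant F fun p q hpq g g' hk => ?_
  have ha : ({p, q} : Finset V) ∈ pairs V := by
    simp [pairs, mem_powersetCard, card_pair hpq]
  have h3 := h2 _ ha
  rw [ip_tradeQ_self] at h3
  have h4 := ip_self_eq_zero h3
  rw [tradeQ_apply, sub_eq_zero] at h4
  rw [h4]
  exact avgOp_congr _ F hk

end Vale.Agent.P335
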