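import Mathlib

/-!
Variance of sums of one-coordinate functions of three log-concave counts with a fixed total.
-/

namespace Vale.Agent.P335.CountVar

open Finset

/-- A nonnegative sequence on the integers, zero on negative arguments, that is log-concave. -/
def LC (φ : ℤ → ℝ) : Prop :=
  (∀ a, 0 ≤ φ a) ∧ (∀ a, a < 0 → φ a = 0) ∧
    ∀ a b δ : ℤ, a ≤ b → 0 ≤ δ → φ a * φ (b + δ) ≤ φ (a + δ) * φ b

/-- Monotonicity in the total of the split law between two independent coordinates. -/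
theorem split_mono {φ ψ : ℤ → ℝ} (hφ : ∀ a, 0 ≤ φ a) (hψ : LC ψ) (R : Finset ℤ) {t t' : ℤ}
    (ht : t ≤ t') (h : ℤ → ℝ)
    (hh : ∀ i ∈ R, ∀ k ∈ R, k ≤ i → 0 < φ i * ψ (t' - i) → 0 < φ k * ψ (t - k) → h k ≤ h i) :
    (∑ i ∈ R, φ i * ψ (t - i) * h i) * (∑ i ∈ R, φ i * ψ (t' - i)) ≤
      (∑ i ∈ R, φ i * ψ (t' - i) * h i) * (∑ i ∈ R, φ i * ψ (t - i)) := by
  set p := fun i => φ i * ψ (t - i) with hp
  set q := fun i => φ i * ψ (t' - i) with hq
  have key : ∀ i ∈ R, ∀ k ∈ R, k ≤ i → 0 ≤ (h i - h k) * (q i * p k - p i * q k) := by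
    intro i hi k hk hki
    have h1 : ψ (t - i) * ψ (t' - k) ≤ ψ (t' - i) * ψ (t - k) := by
      have := hψ.2.2 (t - i) (t - k) (t' - t) (by omega) (by omega)
      rwa [show t - k + (t' - t) = t' - k by ring, show t - i + (t' - t) = t' - i by ring] at this
    have h2 : p i * q k ≤ q i * p k := by
      have := mul_le_mul_of_nonneg_left h1 (mul_nonneg (hφ i) (hφ k))
      simp only [hp, hq]; nlinarith
    have hqi : 0 ≤ q i := mul_nonneg (hφ i) (hψ.1 _)
    have hpk : 0 ≤ p k := mul_nonneg (hφ k) (hψ.1 _)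
    rcases hqi.eq_or_lt with h0 | h0
    · have hz : p i * q k = 0 := le_antisymm (by simpa [← h0] using h2)
        (mul_nonneg (mul_nonneg (hφ _) (hψ.1 _)) (mul_nonneg (hφ _) (hψ.1 _)))
      simp [← h0, hz]
    rcases hpk.eq_or_lt with h3 | h3
    · have hz : p i * q k = 0 := le_antisymm (by simpa [← h3] using h2)
        (mul_nonneg (mul_nonneg (hφ _) (hψ.1 _)) (mul_nonneg (hφ _) (hψ.1 _)))
      simp [← h3, hz]
    exact mul_nonneg (sub_nonneg.2 (hh i hi k hk hki h0 h3)) (sub_nonneg.2 h2)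
  have hsum : 0 ≤ ∑ i ∈ R, ∑ k ∈ R, (h i - h k) * (q i * p k - p i * q k) := by
    refine sum_nonneg fun i hi => sum_nonneg fun k hk => ?_
    rcases le_total k i with hki | hki
    · exact key i hi k hk hki
    · have := key k hk i hi hki
      linarith [this, show (h i - h k) * (q i * p k - p i * q k) =
        (h k - h i) * (q k * p i - p k * q i) by ring]
  have e : ∑ i ∈ R, ∑ k ∈ R, (h i - h k) * (q i * p k - p i * q k) =
      2 * ((∑ i ∈ R, q i * h i) * (∑ i ∈ R, p i) - (∑ i ∈ R, p i * h i) * (∑ i ∈ R, q i)) := by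
    have : ∀ i k, (h i - h k) * (q i * p k - p i * q k) =
        q i * h i * p k - p i * h i * q k - q i * (p k * h k) + p i * (q k * h k) := fun i k => by ring
    simp only [this, sum_add_distrib, sum_sub_distrib, ← mul_sum, ← sum_mul]
    ring
  rw [e] at hsum
  linarith

variable (φ : Fin 3 → ℤ → ℝ) (n : ℕ)

/-- The triples of counts with total `n`. -/
noncomputable def states : Finset (Fin 3 → ℤ) :=
  (Fintype.piFinset fun _ => Icc (0 : ℤ) n).filter fun w => ∑ j, w j = (n : ℤ)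

/-- The weight of a triple of counts. -/
def wt (w : Fin 3 → ℤ) : ℝ := ∏ j, φ j (w j)

/-- The triples whose coordinate `j` is `s`. -/
noncomputable def line (j : Fin 3) (s : ℤ) : Finset (Fin 3 → ℤ) := (states n).filter fun w => w j = s

/-- The marginal weight. -/
noncomputable def mass (j : Fin 3) (s : ℤ) : ℝ := ∑ w ∈ line n j s, wt φ w

/-- Minus the sum of the conditional means of the other two coordinates. -/
noncomputable def op (g : Fin 3 → ℤ → ℝ) (j : Fin 3) (s : ℤ) : ℝ :=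
  -(∑ w ∈ line n j s, wt φ w * ∑ k ∈ univ.erase j, g k (w k)) / mass φ n j s

/-- The weighted inner product of triples of functions. -/
noncomputable def ip (g h : Fin 3 → ℤ → ℝ) : ℝ := ∑ w ∈ states n, wt φ w * ∑ j, g j (w j) * h j (w j)

variable {φ n}

theorem wt_nonneg (hφ : ∀ j, LC (φ j)) (w : Fin 3 → ℤ) : 0 ≤ wt φ w :=
  prod_nonneg fun j _ => (hφ j).1 _

theorem mem_states {w : Fin 3 → ℤ} :
    w ∈ states n ↔ (∀ j, 0 ≤ w j ∧ w j ≤ n) ∧ ∑ j, w j = (n : ℤ) := by
  simp [states, Fintype.mem_piFinset]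

theorem line_sum {j k : Fin 3} (hjk : j ≠ k) (hφ : ∀ j, LC (φ j)) {s : ℤ} (hs : 0 ≤ s)
    (hs' : s ≤ n) {l : Fin 3} (hjl : j ≠ l) (hkl : k ≠ l) (G : ℤ → ℝ) :
    ∑ w ∈ line n j s, wt φ w * G (w k) =
      φ j s * ∑ i ∈ Icc (0 : ℤ) n, φ k i * φ l (n - s - i) * G i := by
  have hu : (univ : Finset (Fin 3)) = {j, k, l} := by
    revert hjk hjl hkl; revert j k l; decide
  have hsum : ∀ w : Fin 3 → ℤ, ∑ i, w i = w j + (w k + w l) := fun w => by
    rw [hu, sum_insert (by simp [hjk, hjl]), sum_insert (by simp [hkl]), sum_singleton]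
  have hprod : ∀ w : Fin 3 → ℤ, wt φ w = φ j (w j) * (φ k (w k) * φ l (w l)) := fun w => by
    rw [wt, hu, prod_insert (by simp [hjk, hjl]), prod_insert (by simp [hkl]), prod_singleton]
  rw [mul_sum]
  rw [← sum_filter_of_ne (s := Icc (0 : ℤ) n) (p := fun i => 0 ≤ (n : ℤ) - s - i)]
  · refine sum_nbij' (fun w => w k) (fun i m => if m = j then s else if m = k then i else n - s - i)
      ?_ ?_ ?_ ?_ ?_
    · intro w hw
      simp only [line, mem_coe, mem_filter, mem_states] at hw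
      have := hsum w; have := hw.1.1 l; have := hw.1.1 k
      simp only [mem_coe, mem_filter, mem_Icc]; omega
    · intro i hi
      simp only [mem_coe, mem_filter, mem_Icc] at hi
      simp only [line, mem_coe, mem_filter, mem_states, hsum, if_true, if_neg hjk.symm,
        if_neg hjl.symm, if_neg hkl.symm]
      refine ⟨⟨fun m => ?_, by ring⟩, trivial⟩
      split_ifs <;> omega
    · intro w hw
      simp only [line, mem_coe, mem_filter, mem_states, hsum] at hw
      funext m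
      have hm : m = j ∨ m = k ∨ m = l := by
        have := mem_univ m; rw [hu] at this; simpa using this
      rcases hm with rfl | rfl | rfl <;> simp [hw.2, hjk.symm, hjl.symm, hkl.symm] <;> omega
    · intro i _; simp [hjk.symm]
    · intro w hw
      simp only [line, mem_filter, mem_states, hsum] at hw
      have e : (n : ℤ) - s - w k = w l := by omega
      rw [e, hprod, hw.2]; ring
  · intro i _ hne
    by_contra hneg
    simp [(hφ l).2.1 _ (not_le.1 hneg)] at hne

theorem mass_nonneg (hφ : ∀ j, LC (φ j)) (j : Fin 3) (s : ℤ) : 0 ≤ mass φ n j s :=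
  sum_nonneg fun w _ => wt_nonneg hφ w

theorem mass_pos_bounds {j : Fin 3} {s : ℤ} (h : 0 < mass φ n j s) : 0 ≤ s ∧ s ≤ n := by
  obtain ⟨w, hw, -⟩ := exists_ne_zero_of_sum_ne_zero h.ne'
  simp only [line, mem_filter, mem_states] at hw
  rw [← hw.2]; exact hw.1.1 j

/-- A conditional mean. -/
noncomputable def cmean (φ : Fin 3 → ℤ → ℝ) (n : ℕ) (j k : Fin 3) (G : ℤ → ℝ) (s : ℤ) : ℝ :=
  (∑ w ∈ line n j s, wt φ w * G (w k)) / mass φ n j s

theorem exists_third (j k : Fin 3) (h : j ≠ k) : ∃ l, j ≠ l ∧ k ≠ l := by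
  revert j k h; decide

theorem cmean_anti (hφ : ∀ j, LC (φ j)) {j k : Fin 3} (hjk : j ≠ k) {s s' : ℤ} (hss : s ≤ s')
    (hm : 0 < mass φ n j s) (hm' : 0 < mass φ n j s') (h : ℤ → ℝ)
    (hh : ∀ i i', i' ≤ i → 0 < mass φ n k i → 0 < mass φ n k i' → h i' ≤ h i) :
    cmean φ n j k h s' ≤ cmean φ n j k h s := by
  obtain ⟨l, hjl, hkl⟩ := exists_third j k hjk
  have b := mass_pos_bounds hm
  have b' := mass_pos_bounds hm'
  have e : ∀ (u : ℤ), 0 ≤ u → u ≤ n → mass φ n j u =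
      φ j u * ∑ i ∈ Icc (0 : ℤ) n, φ k i * φ l (n - u - i) := fun u h0 h1 => by
    simpa [mass] using line_sum hjk hφ h0 h1 hjl hkl (fun _ => 1)
  rw [cmean, cmean, line_sum hjk hφ b.1 b.2 hjl hkl h, line_sum hjk hφ b'.1 b'.2 hjl hkl h,
    e s b.1 b.2, e s' b'.1 b'.2]
  rw [e s b.1 b.2] at hm
  rw [e s' b'.1 b'.2] at hm'
  have q0 : ∀ u, 0 ≤ ∑ i ∈ Icc (0 : ℤ) n, φ k i * φ l (n - u - i) :=
    fun u => sum_nonneg fun i _ => mul_nonneg ((hφ k).1 _) ((hφ l).1 _)
  have pj := pos_of_mul_pos_left hm (q0 s)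
  have pj' := pos_of_mul_pos_left hm' (q0 s')
  have Q := pos_of_mul_pos_right hm pj.le
  have Q' := pos_of_mul_pos_right hm' pj'.le
  rw [mul_div_mul_left _ _ pj.ne', mul_div_mul_left _ _ pj'.ne', div_le_div_iff₀ Q' Q]
  refine split_mono (hφ k).1 (hφ l) _ (by omega) h fun i hi i' hi' hle hp hp' => ?_
  have supp : ∀ {u i : ℤ}, 0 ≤ u → u ≤ n → 0 < φ j u → i ∈ Icc (0 : ℤ) n →
      0 < φ k i * φ l (n - u - i) → 0 < mass φ n k i := by
    intro u i hu hu' hpu hi hp
    rw [mem_Icc] at hi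
    have e2 : mass φ n k i = φ k i * ∑ x ∈ Icc (0 : ℤ) n, φ j x * φ l (n - i - x) := by
      simpa [mass] using line_sum hjk.symm hφ hi.1 hi.2 hkl hjl (fun _ => 1)
    have pk := pos_of_mul_pos_left hp ((hφ l).1 _)
    have pl := pos_of_mul_pos_right hp pk.le
    rw [e2]
    refine mul_pos pk (sum_pos' (fun x _ => mul_nonneg ((hφ j).1 _) ((hφ l).1 _))
      ⟨u, mem_Icc.2 ⟨hu, hu'⟩, mul_pos hpu ?_⟩)
    rwa [show (n : ℤ) - i - u = n - u - i by ring]
  exact hh i i' hle (supp b.1 b.2 pj hi hp) (supp b'.1 b'.2 pj' hi' hp')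

/-- A common Lipschitz bound on the supports of the marginals. -/
def Lip (φ : Fin 3 → ℤ → ℝ) (n : ℕ) (K : ℝ) (g : Fin 3 → ℤ → ℝ) : Prop :=
  ∀ j i i', i' ≤ i → 0 < mass φ n j i → 0 < mass φ n j i' → |g j i - g j i'| ≤ K * (i - i' : ℤ)

theorem op_eq (g : Fin 3 → ℤ → ℝ) (j : Fin 3) (s : ℤ) :
    op φ n g j s = -∑ k ∈ univ.erase j, cmean φ n j k (g k) s := by
  simp only [op, cmean, neg_div, ← sum_div]
  rw [sum_comm]
  simp only [mul_sum]

theorem Lip.op (hφ : ∀ j, LC (φ j)) {K : ℝ} {g : Fin 3 → ℤ → ℝ} (hg : Lip φ n K g) :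
    Lip φ n K (CountVar.op φ n g) := by
  intro j s' s hss hm' hm
  have hlin : ∀ u, 0 < mass φ n j u →
      ∑ k ∈ univ.erase j, cmean φ n j k (fun i => (i : ℝ)) u = n - u := by
    intro u hu
    simp only [cmean, ← sum_div]
    rw [sum_comm, div_eq_iff hu.ne', mass, mul_sum]
    refine sum_congr rfl fun w hw => ?_
    rw [← mul_sum, mul_comm]
    congr 1
    simp only [line, mem_filter, mem_states] at hw
    have := sum_erase_add univ w (mem_univ j)
    have h2 : ∑ k ∈ univ.erase j, w k = n - u := by omega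
    exact_mod_cast h2
  have comb : ∀ (c : ℝ) k, ∀ u, cmean φ n j k (fun i => K * i + c * g k i) u =
      K * cmean φ n j k (fun i => (i : ℝ)) u + c * cmean φ n j k (g k) u := by
    intro c k u
    simp only [cmean, mul_div_assoc', ← add_div, mul_sum, ← sum_add_distrib]
    congr 1
    exact sum_congr rfl fun w _ => by ring
  have main : ∀ c : ℝ, |c| ≤ 1 → c * (CountVar.op φ n g j s' - CountVar.op φ n g j s) ≤
      K * (s' - s : ℤ) := by
    intro c hc
    have h1 : ∑ k ∈ univ.erase j, cmean φ n j k (fun i => K * i + -c * g k i) s' ≤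
        ∑ k ∈ univ.erase j, cmean φ n j k (fun i => K * i + -c * g k i) s := by
      refine sum_le_sum fun k hk => cmean_anti hφ (ne_of_mem_erase hk).symm hss hm hm' _ ?_
      intro i i' hle hi hi'
      have h2 := hg k i i' hle hi hi'
      have h3 : |c * (g k i - g k i')| ≤ |g k i - g k i'| := by
        rw [abs_mul]
        exact mul_le_of_le_one_left (abs_nonneg _) hc
      push_cast at h2
      nlinarith [abs_le.1 (h3.trans h2)]
    simp only [comb, sum_add_distrib, ← mul_sum, hlin s hm, hlin s' hm'] at h1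
    simp only [op_eq, sub_neg_eq_add, mul_add, mul_neg]
    push_cast
    linarith
  rw [abs_le]
  exact ⟨by linarith [main (-1) (by simp)], by linarith [main 1 (by simp)]⟩

theorem ip_op (hφ : ∀ j, LC (φ j)) (g h : Fin 3 → ℤ → ℝ) :
    ip φ n h (op φ n g) =
      -∑ w ∈ states n, wt φ w * ∑ j, ∑ k ∈ univ.erase j, h j (w j) * g k (w k) := by
  have step : ∀ j, ∑ w ∈ states n, wt φ w * (h j (w j) * op φ n g j (w j)) =
      -∑ w ∈ states n, wt φ w * ∑ k ∈ univ.erase j, h j (w j) * g k (w k) := by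
    intro j
    have hm : ∀ w ∈ states n, w j ∈ Icc (0 : ℤ) n := fun w hw => mem_Icc.2 ((mem_states.1 hw).1 j)
    rw [← sum_neg_distrib, ← sum_fiberwise_of_maps_to hm, ← sum_fiberwise_of_maps_to hm]
    refine sum_congr rfl fun s _ => ?_
    change ∑ w ∈ line n j s, _ = ∑ w ∈ line n j s, _
    have e1 : ∀ w ∈ line n j s, wt φ w * (h j (w j) * op φ n g j (w j)) =
        wt φ w * (h j s * op φ n g j s) := fun w hw => by rw [(mem_filter.1 hw).2]
    have e2 : ∀ w ∈ line n j s, -(wt φ w * ∑ k ∈ univ.erase j, h j (w j) * g k (w k)) =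
        -(h j s * (wt φ w * ∑ k ∈ univ.erase j, g k (w k))) := fun w hw => by
      rw [(mem_filter.1 hw).2, ← mul_sum]; ring
    rw [sum_congr rfl e1, sum_congr rfl e2, ← sum_mul, sum_neg_distrib, ← mul_sum, op, ← mass]
    rcases eq_or_ne (mass φ n j s) 0 with h0 | h0
    · have : ∀ w ∈ line n j s, wt φ w = 0 :=
        (sum_eq_zero_iff_of_nonneg fun w _ => wt_nonneg hφ w).1 h0
      rw [h0, sum_eq_zero (s := line n j s) fun w hw => by rw [this w hw, zero_mul]]
      simp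
    · field_simp
  simp only [ip, mul_sum]
  rw [sum_comm, sum_congr rfl fun j _ => step j, sum_neg_distrib]
  simp only [mul_sum]
  rw [sum_comm]

theorem ip_comm (g h : Fin 3 → ℤ → ℝ) : ip φ n g h = ip φ n h g :=
  sum_congr rfl fun w _ => by simp only [mul_comm]

theorem op_symm (hφ : ∀ j, LC (φ j)) (g h : Fin 3 → ℤ → ℝ) :
    ip φ n h (op φ n g) = ip φ n (op φ n h) g := by
  rw [ip_comm (op φ n h) g, ip_op hφ, ip_op hφ]
  refine congrArg Neg.neg (sum_congr rfl fun w _ => ?_)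
  simp only [Fin.sum_univ_three]
  simp only [show (univ : Finset (Fin 3)).erase 0 = {1, 2} from rfl,
    show (univ : Finset (Fin 3)).erase 1 = {0, 2} from rfl,
    show (univ : Finset (Fin 3)).erase 2 = {0, 1} from rfl,
    sum_pair (show (1 : Fin 3) ≠ 2 by decide), sum_pair (show (0 : Fin 3) ≠ 2 by decide),
    sum_pair (show (0 : Fin 3) ≠ 1 by decide)]
  ring

theorem ip_self_nonneg (hφ : ∀ j, LC (φ j)) (g : Fin 3 → ℤ → ℝ) : 0 ≤ ip φ n g g :=
  sum_nonneg fun w _ => mul_nonneg (wt_nonneg hφ w) (sum_nonneg fun j _ => mul_self_nonneg _)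

theorem ip_sq_le (hφ : ∀ j, LC (φ j)) (g h : Fin 3 → ℤ → ℝ) :
    ip φ n g h ^ 2 ≤ ip φ n g g * ip φ n h h := by
  have e : ∀ u v, ip φ n u v =
      ∑ p ∈ states n ×ˢ (univ : Finset (Fin 3)), wt φ p.1 * (u p.2 (p.1 p.2) * v p.2 (p.1 p.2)) := by
    intro u v
    rw [ip, sum_product]
    simp only [mul_sum]
  rw [e, e, e]
  refine sum_sq_le_sum_mul_sum_of_sq_le_mul _ (fun p _ => mul_nonneg (wt_nonneg hφ _) (mul_self_nonneg _))
    (fun p _ => mul_nonneg (wt_nonneg hφ _) (mul_self_nonneg _)) fun p _ => le_of_eq ?_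
  ring

/-- Every component has mean zero. -/
def Mean0 (φ : Fin 3 → ℤ → ℝ) (n : ℕ) (g : Fin 3 → ℤ → ℝ) : Prop :=
  ∀ j, ∑ w ∈ states n, wt φ w * g j (w j) = 0

theorem Mean0.op (hφ : ∀ j, LC (φ j)) {g : Fin 3 → ℤ → ℝ} (hg : Mean0 φ n g) :
    Mean0 φ n (CountVar.op φ n g) := by
  intro j
  have h := ip_op (n := n) hφ g (fun i _ => if i = j then 1 else 0)
  simp only [ip, ite_mul, one_mul, zero_mul, sum_ite_eq', mem_univ, if_true,
    sum_ite_irrel, sum_const_zero] at h
  rw [h, neg_eq_zero]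
  simp only [mul_sum]
  rw [sum_comm]
  exact sum_eq_zero fun k _ => hg k

theorem norm_bound (hφ : ∀ j, LC (φ j)) {K : ℝ} (hK : 0 ≤ K) {g : Fin 3 → ℤ → ℝ}
    (hg : Lip φ n K g) (hg0 : Mean0 φ n g) :
    ip φ n g g ≤ (∑ w ∈ states n, wt φ w) * (3 * (K * n) ^ 2) := by
  set Z := ∑ w ∈ states n, wt φ w
  rw [ip, sum_mul]
  refine sum_le_sum fun w hw => ?_
  rcases (wt_nonneg hφ w).eq_or_lt with h0 | h0
  · simp [← h0]
  refine mul_le_mul_of_nonneg_left ?_ h0.le
  have hb : ∀ j, g j (w j) * g j (w j) ≤ (K * n) ^ 2 := by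
    intro j
    have hmem : ∀ v ∈ states n, 0 < wt φ v → 0 < mass φ n j (v j) := fun v hv hp =>
      sum_pos' (fun v _ => wt_nonneg hφ v) ⟨v, mem_filter.2 ⟨hv, rfl⟩, hp⟩
    have hZ : 0 < Z := sum_pos' (fun v _ => wt_nonneg hφ v) ⟨w, hw, h0⟩
    have h1 : |g j (w j) * Z| ≤ K * n * Z := by
      have e : g j (w j) * Z = ∑ v ∈ states n, wt φ v * (g j (w j) - g j (v j)) := by
        simp only [mul_sub, sum_sub_distrib, hg0 j, sub_zero, ← sum_mul]; ring
      rw [e, show K * n * Z = ∑ v ∈ states n, wt φ v * (K * n) by rw [← sum_mul]; ring]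
      refine (abs_sum_le_sum_abs _ _).trans (sum_le_sum fun v hv => ?_)
      rw [abs_mul, abs_of_nonneg (wt_nonneg hφ v)]
      rcases (wt_nonneg hφ v).eq_or_lt with h2 | h2
      · simp [← h2]
      refine mul_le_mul_of_nonneg_left ?_ h2.le
      have bv := (mem_states.1 hv).1 j
      have bw := (mem_states.1 hw).1 j
      rcases le_total (v j) (w j) with hle | hle
      · refine (hg j _ _ hle (hmem w hw h0) (hmem v hv h2)).trans (mul_le_mul_of_nonneg_left ?_ hK)
        exact_mod_cast (by omega : w j - v j ≤ (n : ℤ))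
      · rw [abs_sub_comm]
        refine (hg j _ _ hle (hmem v hv h2) (hmem w hw h0)).trans (mul_le_mul_of_nonneg_left ?_ hK)
        exact_mod_cast (by omega : v j - w j ≤ (n : ℤ))
    rw [abs_mul, abs_of_pos hZ] at h1
    have h3 := le_of_mul_le_mul_right h1 hZ
    nlinarith [abs_mul_abs_self (g j (w j)), abs_nonneg (g j (w j))]
  calc ∑ j, g j (w j) * g j (w j) ≤ ∑ _j : Fin 3, (K * n) ^ 2 := sum_le_sum fun j _ => hb j
    _ = 3 * (K * n) ^ 2 := by simp

theorem op_contraction (hφ : ∀ j, LC (φ j)) {g : Fin 3 → ℤ → ℝ} (hg : Mean0 φ n g) :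
    ip φ n (op φ n g) (op φ n g) ≤ ip φ n g g := by
  obtain ⟨K, hK, hL⟩ : ∃ K : ℝ, 0 ≤ K ∧ Lip φ n K g := by
    refine ⟨2 * ∑ j, ∑ i ∈ Icc (0 : ℤ) n, |g j i|, by positivity, fun j i i' hle hi hi' => ?_⟩
    rcases hle.eq_or_lt with rfl | hlt
    · simp
    have hb : ∀ u, 0 < mass φ n j u → |g j u| ≤ ∑ j, ∑ i ∈ Icc (0 : ℤ) n, |g j i| := fun u hu =>
      (single_le_sum (f := fun i => |g j i|) (fun _ _ => abs_nonneg _)
        (mem_Icc.2 (mass_pos_bounds hu))).trans
        (single_le_sum (f := fun j => ∑ i ∈ Icc (0 : ℤ) n, |g j i|)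
          (fun _ _ => sum_nonneg fun _ _ => abs_nonneg _) (mem_univ j))
    have h1 : (1 : ℝ) ≤ (i - i' : ℤ) := by exact_mod_cast (by omega : (1 : ℤ) ≤ i - i')
    refine (abs_sub _ _).trans ((add_le_add (hb i hi) (hb i' hi')).trans ?_)
    exact (le_of_eq (two_mul _).symm).trans (le_mul_of_one_le_right (by positivity) h1)
  let G : ℕ → Fin 3 → ℤ → ℝ := fun k => (op φ n)^[k] g
  let a : ℕ → ℝ := fun k => ip φ n (G k) (G k)
  have hG : ∀ k, G (k + 1) = op φ n (G k) := fun k => Function.iterate_succ_apply' _ _ _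
  have hGL : ∀ k, Lip φ n K (G k) ∧ Mean0 φ n (G k) := fun k => by
    induction k with
    | zero => exact ⟨hL, hg⟩
    | succ k ih => rw [hG]; exact ⟨ih.1.op hφ, ih.2.op hφ⟩
  have ha : ∀ k, a (k + 1) ^ 2 ≤ a k * a (k + 2) := fun k => by
    have : a (k + 1) = ip φ n (G k) (G (k + 2)) := by
      simp only [a, hG]; rw [op_symm hφ (op φ n (G k))]
    rw [this]; exact ip_sq_le hφ _ _
  change a 1 ≤ a 0
  by_contra hlt
  push Not at hlt
  have h0 : 0 < a 0 := by
    refine (ip_self_nonneg hφ _).lt_of_ne fun h => ?_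
    have := ha 0
    have ha1 : 0 < a 1 := lt_of_le_of_lt (ip_self_nonneg hφ _) hlt
    simp only [show a 0 = 0 from h.symm, zero_mul] at this
    nlinarith [mul_pos ha1 ha1]
  set r := a 1 / a 0 with hr
  have hr1 : 1 < r := (one_lt_div h0).2 hlt
  have grow : ∀ k, 0 < a k ∧ r * a k ≤ a (k + 1) ∧ r ^ k * a 0 ≤ a k := by
    intro k
    induction k with
    | zero => exact ⟨h0, by rw [hr]; simp [h0.ne'], by simp⟩
    | succ k ih =>
      obtain ⟨hp, hr2, hr3⟩ := ih
      have hp1 : 0 < a (k + 1) := lt_of_lt_of_le (mul_pos (by linarith) hp) hr2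
      refine ⟨hp1, ?_, ?_⟩
      · have := ha k
        refine le_of_mul_le_mul_left ?_ hp
        nlinarith [mul_le_mul_of_nonneg_left hr2 hp1.le]
      · rw [pow_succ]
        nlinarith
  set B := (∑ w ∈ states n, wt φ w) * (3 * (K * n) ^ 2)
  obtain ⟨k, hk⟩ := pow_unbounded_of_one_lt (B / a 0) hr1
  rw [div_lt_iff₀ h0] at hk
  linarith [(grow k).2.2, show a k ≤ B from norm_bound hφ hK (hGL k).1 (hGL k).2]

/-- The variance of a sum of functions of single coordinates is at most twice the sum of their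
variances. -/
theorem sum_sq_le (hφ : ∀ j, LC (φ j)) {g : Fin 3 → ℤ → ℝ}
    (hg : ∀ j, ∑ w ∈ states n, wt φ w * g j (w j) = 0) :
    ∑ w ∈ states n, wt φ w * (∑ j, g j (w j)) ^ 2 ≤
      2 * ∑ w ∈ states n, wt φ w * ∑ j, g j (w j) ^ 2 := by
  have h1 := op_contraction hφ (g := g) hg
  have h2 := ip_sq_le (n := n) hφ g (op φ n g)
  have h3 : |ip φ n g (op φ n g)| ≤ ip φ n g g := by
    have := ip_self_nonneg (n := n) hφ g
    rw [← sq_le_sq₀ (abs_nonneg _) this, sq_abs]
    nlinarith [mul_le_mul_of_nonneg_left h1 this]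
  have e : ∑ w ∈ states n, wt φ w * (∑ j, g j (w j)) ^ 2 =
      ip φ n g g - ip φ n g (op φ n g) := by
    rw [ip_op hφ, sub_neg_eq_add, ip, ← sum_add_distrib]
    refine sum_congr rfl fun w _ => ?_
    rw [← mul_add, ← sum_add_distrib, sq, sum_mul_sum]
    congr 1
    refine sum_congr rfl fun j _ => ?_
    rw [← sum_erase_add _ _ (mem_univ j)]; ring
  have e2 : ∑ w ∈ states n, wt φ w * ∑ j, g j (w j) ^ 2 = ip φ n g g := by simp only [ip, sq]
  rw [e, e2]
  linarith [(abs_le.1 h3).1]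

end Vale.Agent.P335.CountVar
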