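import Vale.Agent.P335.Commute

/-! The inner product of two trades on disjoint pairs. -/

namespace Vale.Agent.P335

open Finset

variable {V : Type*} [Fintype V] [DecidableEq V] {d : V → ℕ}

theorem avgOp_key_congr {Ω κ κ' : Type*} [Fintype Ω] [DecidableEq κ] [DecidableEq κ']
    (k : Ω → κ) (k' : Ω → κ') (h : ∀ x y, k x = k y ↔ k' x = k' y) : avgOp k = avgOp k' := by
  ext f x
  simp only [avgOp_apply, h]

theorem avgOp_comp_of_refines {Ω κ κ' : Type*} [Fintype Ω] [DecidableEq κ] [DecidableEq κ']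
    (k : Ω → κ) (k' : Ω → κ') (h : ∀ x y, k x = k y → k' x = k' y) (f : Ω → ℝ) :
    avgOp k (avgOp k' f) = avgOp k' f :=
  avgOp_eq_self k _ fun x y hxy => avgOp_congr k' f (h x y hxy)

theorem avgOp_comp_of_refines' {Ω κ κ' : Type*} [Fintype Ω] [DecidableEq κ] [DecidableEq κ']
    (k : Ω → κ) (k' : Ω → κ') (h : ∀ x y, k x = k y → k' x = k' y) (f : Ω → ℝ) :
    avgOp k' (avgOp k f) = avgOp k' f := by
  have e : ∀ u, ip (avgOp k' (avgOp k f) - avgOp k' f) u = 0 := fun u => by
    rw [ip_sub_left, avgOp_sym, avgOp_sym, avgOp_sym, avgOp_comp_of_refines k k' h]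
    ring
  exact sub_eq_zero.1 (ip_self_eq_zero (e _))

theorem avgOp_involution_zero {Ω κ : Type*} [Fintype Ω] [DecidableEq κ] (k : Ω → κ) (σ : Ω → Ω)
    (hσ : ∀ x, σ (σ x) = x) (hk : ∀ x, k (σ x) = k x) (f : Ω → ℝ) (hf : ∀ x, f (σ x) = -f x) :
    avgOp k f = 0 := by
  funext x
  rw [avgOp_apply]
  have h : ∑ y ∈ Finset.univ.filter (fun y => k y = k x), f y
      = ∑ y ∈ Finset.univ.filter (fun y => k y = k x), f (σ y) := by
    refine Finset.sum_nbij' σ σ ?_ ?_ ?_ ?_ ?_
    · intro y hy; simpa [hk] using hy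
    · intro y hy; simpa [hk] using hy
    · intro y _; exact hσ y
    · intro y _; exact hσ y
    · intro y _; rw [hσ]
  simp only [hf, Finset.sum_neg_distrib] at h
  have h0 : ∑ y ∈ Finset.univ.filter (fun y => k y = k x), f y = 0 := by linarith
  rw [h0, zero_div]; rfl

/-- Pointwise inequality used for the overlap of two defects. -/
theorem neg_half_sq_le (a b : ℝ) : -(a * a + b * b) / 2 ≤ a * b := by nlinarith [sq_nonneg (a + b)]

/-- Four distinct vertices. -/
structure Quad (V : Type*) where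
  p : V
  q : V
  z : V
  w : V
  pq : p ≠ q
  zw : z ≠ w
  pz : p ≠ z
  pw : p ≠ w
  qz : q ≠ z
  qw : q ≠ w

namespace Quad

variable (c : Quad V)

/-- Exchange the two pairs. -/
def swap : Quad V :=
  ⟨c.z, c.w, c.p, c.q, c.zw, c.pq, c.pz.symm, c.qz.symm, c.pw.symm, c.qw.symm⟩

/-- First pair. -/
def fst : Finset V := {c.p, c.q}

/-- Second pair. -/
def snd : Finset V := {c.z, c.w}

theorem swap_fst : c.swap.fst = c.snd := rfl
theorem swap_snd : c.swap.snd = c.fst := rfl

/-- Block of a realisation. -/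
def bl (g : Real' d) : Blk := blk c.p c.q c.z c.w g.1

/-- Refined key of the first pair. -/
def rkey (g : Real' d) : (V → V → Bool) × Option Blk := (tradeKey c.fst g, tag (c.bl g))

/-- Refined key of the second pair, with the block read from the first pair. -/
def skey (g : Real' d) : (V → V → Bool) × Option Blk := (tradeKey c.snd g, tag (c.bl g))

theorem swap_bl (g : Real' d) : c.swap.bl g = blkT (c.bl g) := by
  simp [bl, blk, swap, blkT, g.symm c.z, g.symm c.w]

theorem tag_blkT : ∀ x y : Blk, tag (blkT x) = tag (blkT y) ↔ tag x = tag y := by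
  rintro ⟨_ | _, _ | _, _ | _, _ | _⟩ ⟨_ | _, _ | _, _ | _, _ | _⟩ <;> decide

theorem isX_blkT : ∀ x : Blk, isX (blkT x) = isX x := by
  rintro ⟨_ | _, _ | _, _ | _, _ | _⟩ <;> decide

theorem swap_rkey_iff (g h : Real' d) : c.swap.rkey g = c.swap.rkey h ↔ c.skey g = c.skey h := by
  simp only [rkey, skey, Prod.ext_iff, swap_fst, swap_bl, tag_blkT]

theorem swap_skey_iff (g h : Real' d) : c.swap.skey g = c.swap.skey h ↔ c.rkey g = c.rkey h := by
  simp only [rkey, skey, Prod.ext_iff, swap_snd, swap_bl, tag_blkT]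

theorem mem_fst {i : V} : i ∈ c.fst ↔ i = c.p ∨ i = c.q := by simp [fst]
theorem mem_snd {i : V} : i ∈ c.snd ↔ i = c.z ∨ i = c.w := by simp [snd]

theorem not_snd_of_fst {i : V} (h : i ∈ c.fst) : i ∉ c.snd := by
  rw [mem_fst] at h; rw [mem_snd]
  rcases h with rfl | rfl
  · exact fun h => h.elim c.pz c.pw
  · exact fun h => h.elim c.qz c.qw

theorem not_fst_of_snd {i : V} (h : i ∈ c.snd) : i ∉ c.fst := fun h' => c.not_snd_of_fst h' h

theorem rowEq_of_key {g h : Real' d} (e : tradeKey c.snd g = tradeKey c.snd h) :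
    rowEq (c.bl g) (c.bl h) = true := by
  have h1 := tradeKey_col e (c.not_snd_of_fst (c.mem_fst.2 (Or.inl rfl)))
  have h2 := tradeKey_col e (c.not_snd_of_fst (c.mem_fst.2 (Or.inr rfl)))
  simp only [snd, Finset.sum_pair c.zw] at h1 h2
  simp [bl, blk, rowEq, h1, h2]

theorem colEq_of_key {g h : Real' d} (e : tradeKey c.fst g = tradeKey c.fst h) :
    colEq (c.bl g) (c.bl h) = true := by
  have h1 := tradeKey_col e (c.not_fst_of_snd (c.mem_snd.2 (Or.inl rfl)))
  have h2 := tradeKey_col e (c.not_fst_of_snd (c.mem_snd.2 (Or.inr rfl)))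
  simp only [fst, Finset.sum_pair c.pq] at h1 h2
  simp [bl, blk, colEq, blkT, rowEq, g.symm c.p, g.symm c.q, h.symm c.p, h.symm c.q, h1, h2]

/-- Entry of a block addressed by vertices. -/
def at' (B : Blk) (i j : V) : Bool :=
  if i = c.p then (if j = c.z then B.1 else B.2.1) else (if j = c.z then B.2.2.1 else B.2.2.2)

/-- Combine `x` on the first trade with `z` elsewhere; the block is glued. -/
def comb (B : Blk) (x z : V → V → Bool) (i j : V) : Bool :=
  if i ∈ c.fst ∧ j ∈ c.snd then c.at' B i j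
  else if j ∈ c.fst ∧ i ∈ c.snd then c.at' B j i
  else if (i ∈ c.fst ↔ j ∈ c.fst) then z i j else x i j

open Classical in
/-- Gluing of two realisations. -/
noncomputable def merge (x z : Real' d) : Real' d :=
  if h : IsReal d (c.comb (glue (c.bl x) (c.bl z)) x.1 z.1)
    then ⟨c.comb (glue (c.bl x) (c.bl z)) x.1 z.1, h⟩ else x

theorem comb_real {x y z : Real' d} (hxy : tradeKey c.fst x = tradeKey c.fst y)
    (hyz : tradeKey c.snd y = tradeKey c.snd z) {B : Blk}
    (hr : rowEq B (c.bl x) = true) (hc : colEq B (c.bl z) = true) :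
    IsReal d (c.comb B x.1 z.1) := by
  have hX := tradeKey_eq_iff.1 hxy
  have hZ := tradeKey_eq_iff.1 hyz
  refine ⟨fun i j => ?_, fun i => ?_, fun i => ?_⟩
  · by_cases hi : i ∈ c.fst <;> by_cases hj : j ∈ c.fst <;> by_cases hi' : i ∈ c.snd <;>
      by_cases hj' : j ∈ c.snd <;>
      simp [comb, hi, hj, hi', hj', x.symm i j, z.symm i j] <;>
      first
        | exact absurd hi' (c.not_snd_of_fst hi)
        | exact absurd hj' (c.not_snd_of_fst hj)
  · by_cases hi : i ∈ c.fst
    · simp [comb, hi, c.not_snd_of_fst hi, z.irrefl i]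
    · simp [comb, hi, z.irrefl i]
  by_cases hi : i ∈ c.fst
  · -- a vertex of the first pair keeps the row of `x`
    have hi' := c.not_snd_of_fst hi
    rw [← x.degree i, deg_split _ c.snd i, deg_split x.1 c.snd i]
    congr 1
    · simp only [bl, blk, rowEq, Bool.and_eq_true, decide_eq_true_eq] at hr
      obtain ⟨b1, b2, b3, b4⟩ := B
      simp only [decide_eq_true_iff] at hr
      rw [snd, Finset.sum_pair c.zw, Finset.sum_pair c.zw]
      rcases c.mem_fst.1 hi with rfl | rfl
      · simpa [comb, at', hi, c.mem_fst, c.mem_snd, c.zw.symm] using of_decide_eq_true hr.1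
      · simpa [comb, at', hi, c.mem_fst, c.mem_snd, c.zw.symm, c.pq.symm] using of_decide_eq_true hr.2
    · refine Finset.sum_congr rfl fun j hj => congrArg bn ?_
      have hj' : j ∉ c.snd := Finset.mem_compl.1 hj
      by_cases hjf : j ∈ c.fst
      · simp only [comb, hi, hjf, hj', hi', and_false, if_false, iff_self, if_true]
        exact (hX i j ⟨fun _ => hjf, fun _ => hi⟩).symm ▸ (hZ i j
          ⟨fun h => absurd h hi', fun h => absurd h hj'⟩).symm
      · simp [comb, hi, hjf, hj', hi']
  by_cases hi2 : i ∈ c.snd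
  · rw [← z.degree i, deg_split _ c.fst i, deg_split z.1 c.fst i]
    congr 1
    · simp only [bl, blk, colEq, blkT, rowEq, Bool.and_eq_true, decide_eq_true_eq] at hc
      obtain ⟨b1, b2, b3, b4⟩ := B
      simp only [decide_eq_true_iff] at hc
      rw [fst, Finset.sum_pair c.pq, Finset.sum_pair c.pq]
      rcases c.mem_snd.1 hi2 with rfl | rfl
      · simpa [comb, at', hi, c.mem_fst, c.mem_snd, c.pq.symm, z.symm c.z, c.pz.symm,
          c.qz.symm] using of_decide_eq_true hc.1
      · simpa [comb, at', hi, c.mem_fst, c.mem_snd, c.pq.symm, z.symm c.w, c.zw.symm, c.pw.symm,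
          c.qw.symm] using of_decide_eq_true hc.2
    · refine Finset.sum_congr rfl fun j hj => congrArg bn ?_
      have hj' : j ∉ c.fst := Finset.mem_compl.1 hj
      simp [comb, hi, hj']
  · -- any other vertex
    rw [← y.degree i, deg_split _ c.fst i, deg_split y.1 c.fst i]
    congr 1
    · rw [Finset.sum_congr rfl (fun j hj => congrArg bn (show c.comb B x.1 z.1 i j = x.1 i j by
        simp [comb, hi, hi2, hj]))]
      exact tradeKey_col hxy hi
    · rw [Finset.sum_congr rfl (fun j hj => congrArg bn (show c.comb B x.1 z.1 i j = z.1 i j by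
        simp [comb, hi, hi2, Finset.mem_compl.1 hj]))]
      rw [deg_split_compl_sum c hyz hi hi2]
where
  /-- Sums over the complement of the first pair agree along the second trade. -/
  deg_split_compl_sum (c : Quad V) {y z : Real' d} (hyz : tradeKey c.snd y = tradeKey c.snd z)
      {i : V} (hi : i ∉ c.fst) (hi2 : i ∉ c.snd) :
      ∑ j ∈ c.fstᶜ, bn (z.1 i j) = ∑ j ∈ c.fstᶜ, bn (y.1 i j) := by
    have h1 := deg_split z.1 c.fst i
    have h2 := deg_split y.1 c.fst i
    rw [z.degree] at h1
    rw [y.degree] at h2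
    have h3 : ∑ j ∈ c.fst, bn (z.1 i j) = ∑ j ∈ c.fst, bn (y.1 i j) :=
      Finset.sum_congr rfl fun j hj => congrArg bn (tradeKey_eq_iff.1 hyz i j
        ⟨fun h => absurd h hi2, fun h => absurd h (c.not_snd_of_fst hj)⟩).symm
    omega

theorem merge_val {x y z : Real' d} (hxy : tradeKey c.fst x = tradeKey c.fst y)
    (hyz : tradeKey c.snd y = tradeKey c.snd z)
    (hr : rowEq (glue (c.bl x) (c.bl z)) (c.bl x) = true)
    (hc : colEq (glue (c.bl x) (c.bl z)) (c.bl z) = true) :
    (c.merge x z).1 = c.comb (glue (c.bl x) (c.bl z)) x.1 z.1 := by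
  rw [merge, dif_pos (c.comb_real hxy hyz hr hc)]

theorem bl_comb (B : Blk) (x z : V → V → Bool) :
    blk c.p c.q c.z c.w (c.comb B x z) = B := by
  obtain ⟨b1, b2, b3, b4⟩ := B
  simp [blk, comb, at', mem_fst, mem_snd, c.zw.symm, c.pq.symm]

theorem comb_eq_of {x z g : Real' d} {B : Blk} (hB : B = c.bl g)
    (h1 : ∀ i j, ¬ (i ∈ c.fst ↔ j ∈ c.fst) → ¬(i ∈ c.fst ∧ j ∈ c.snd) →
      ¬(j ∈ c.fst ∧ i ∈ c.snd) → x.1 i j = g.1 i j)
    (h2 : ∀ i j, (i ∈ c.fst ↔ j ∈ c.fst) → z.1 i j = g.1 i j) :
    c.comb B x.1 z.1 = g.1 := by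
  funext i j
  unfold comb
  split_ifs with e1 e2 e3
  · subst hB
    rcases c.mem_fst.1 e1.1 with rfl | rfl <;> rcases c.mem_snd.1 e1.2 with rfl | rfl <;>
      simp [at', bl, blk, c.zw.symm, c.pq.symm]
  · subst hB
    rw [g.symm i j]
    rcases c.mem_fst.1 e2.1 with rfl | rfl <;> rcases c.mem_snd.1 e2.2 with rfl | rfl <;>
      simp [at', bl, blk, c.zw.symm, c.pq.symm]
  · exact h2 i j e3
  · exact h1 i j e3 e1 e2

/-- Properties of gluing along a forward path. -/
theorem merge_spec {x y z : Real' d} (hxy : tradeKey c.fst x = tradeKey c.fst y)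
    (hyz : c.skey y = c.skey z) :
    c.skey (c.merge x z) = c.skey x ∧ tradeKey c.fst (c.merge x z) = tradeKey c.fst z ∧
      c.merge z x = y ∧ c.merge y (c.merge x z) = z ∧
      (tag (c.bl x) = tag (c.bl y) → tag (c.bl (c.merge x z)) = tag (c.bl z)) := by
  obtain ⟨hyz1, hyz2⟩ := Prod.ext_iff.1 hyz
  obtain ⟨g1, g2, g3, g4, g5, g6⟩ :=
    glue_spec (c.bl x) (c.bl y) (c.bl z) (c.colEq_of_key hxy) (c.rowEq_of_key hyz1) hyz2
  have hv := c.merge_val hxy hyz1 g1 g2
  have hb : c.bl (c.merge x z) = glue (c.bl x) (c.bl z) := by rw [bl, hv, bl_comb]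
  have hX := tradeKey_eq_iff.1 hxy
  have hZ := tradeKey_eq_iff.1 hyz1
  have k1 : tradeKey c.snd (c.merge x z) = tradeKey c.snd x := by
    rw [tradeKey_eq_iff]
    intro i j hij
    rw [hv]; unfold comb
    split_ifs with e1 e2 e3
    · exact absurd (hij.2 e1.2) (c.not_snd_of_fst e1.1)
    · exact absurd (hij.1 e2.2) (c.not_snd_of_fst e2.1)
    · exact ((hX i j e3).trans (hZ i j hij)).symm
    · rfl
  have k2 : tradeKey c.fst (c.merge x z) = tradeKey c.fst z := by
    rw [tradeKey_eq_iff]
    intro i j hij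
    rw [hv]; unfold comb
    split_ifs with e1 e2
    · exact absurd e1.2 (fun h => c.not_fst_of_snd h (hij.1 e1.1))
    · exact absurd e2.2 (fun h => c.not_fst_of_snd h (hij.2 e2.1))
    · rfl
  have k3 : c.merge z x = y := by
    have r : rowEq (glue (c.bl z) (c.bl x)) (c.bl z) = true := by
      rw [g4]; exact c.rowEq_of_key hyz1
    have s : colEq (glue (c.bl z) (c.bl x)) (c.bl x) = true := by
      rw [g4]; exact c.colEq_of_key hxy.symm
    apply Subtype.ext
    rw [merge, dif_pos (c.comb_real (y := c.merge x z) k2.symm k1 r s)]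
    refine c.comb_eq_of g4 ?_ ?_
    · intro i j h e1 e2
      refine (hZ i j ⟨fun hi => ?_, fun hj => ?_⟩).symm
      · by_contra hj'
        exact e2 ⟨by_contra fun hj2 => h ⟨fun hi2 => absurd hi2 (c.not_fst_of_snd hi), fun h' => absurd h' hj2⟩, hi⟩
      · by_contra hi'
        exact e1 ⟨by_contra fun hi2 => h ⟨fun h' => absurd h' hi2, fun hj2 => absurd hj2 (c.not_fst_of_snd hj)⟩, hj⟩
    · intro i j h; exact hX i j h
  have k4 : c.merge y (c.merge x z) = z := by
    have e : c.bl (c.merge x z) = glue (c.bl x) (c.bl z) := hb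
    have r : rowEq (glue (c.bl y) (c.bl (c.merge x z))) (c.bl y) = true := by
      rw [e, g5]; exact c.rowEq_of_key hyz1.symm
    have s : colEq (glue (c.bl y) (c.bl (c.merge x z))) (c.bl (c.merge x z)) = true := by
      have := c.colEq_of_key k2.symm
      rw [e, g5]; rw [← e]; exact this
    apply Subtype.ext
    rw [merge, dif_pos (c.comb_real (y := x) hxy.symm k1.symm r s)]
    refine c.comb_eq_of (by rw [e, g5]) ?_ ?_
    · intro i j h e1 e2
      refine hZ i j ⟨fun hi => ?_, fun hj => ?_⟩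
      · by_contra hj'
        exact e2 ⟨by_contra fun hj2 => h ⟨fun hi2 => absurd hi2 (c.not_fst_of_snd hi), fun h' => absurd h' hj2⟩, hi⟩
      · by_contra hi'
        exact e1 ⟨by_contra fun hi2 => h ⟨fun h' => absurd h' hi2, fun hj2 => absurd hj2 (c.not_fst_of_snd hj)⟩, hj⟩
    · intro i j h; exact tradeKey_eq_iff.1 k2 i j h
  refine ⟨Prod.ext k1 (by show tag (c.bl (c.merge x z)) = tag (c.bl x); rw [hb, g3]), k2, k3, k4,
    fun h => ?_⟩
  rw [hb]; exact g6 h

/-- Properties of gluing along a backward path. -/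
theorem merge_spec_rev {x y z : Real' d} (hxy : c.skey x = c.skey y)
    (hyz : tradeKey c.fst y = tradeKey c.fst z) :
    tradeKey c.fst (c.merge z x) = tradeKey c.fst x ∧ c.skey (c.merge z x) = c.skey z ∧
      c.merge x z = y ∧ c.merge (c.merge z x) y = z ∧
      (tag (c.bl y) = tag (c.bl z) → tag (c.bl (c.merge z x)) = tag (c.bl x)) := by
  obtain ⟨h1, h2, h3, -, h5⟩ := c.merge_spec hyz.symm hxy.symm
  exact ⟨h2, h1, h3, (c.merge_spec hyz h1.symm).2.2.1, fun h => h5 h.symm⟩

theorem commute_skey (F : Real' d → ℝ) :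
    avgOp (tradeKey c.fst) (avgOp c.skey F) = avgOp c.skey (avgOp (tradeKey c.fst) F) := by
  refine avgOp_commute _ _ (fun x z => c.merge x z) (fun x z => c.merge z x) ?_ ?_ F
  · intro x y z h1 h2
    obtain ⟨a, b, e, f, -⟩ := c.merge_spec h1 h2
    exact ⟨a, b, e, f⟩
  · intro x y z h1 h2
    obtain ⟨a, b, e, f, -⟩ := c.merge_spec_rev h1 h2
    exact ⟨a, b, e, f⟩

theorem commute_rkey_skey (F : Real' d → ℝ) :
    avgOp c.rkey (avgOp c.skey F) = avgOp c.skey (avgOp c.rkey F) := by
  refine avgOp_commute _ _ (fun x z => c.merge x z) (fun x z => c.merge z x) ?_ ?_ F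
  · intro x y z h1 h2
    obtain ⟨h1a, h1b⟩ := Prod.ext_iff.1 h1
    obtain ⟨a, b, e, f, g⟩ := c.merge_spec h1a h2
    exact ⟨a, Prod.ext b (g h1b), e, f⟩
  · intro x y z h1 h2
    obtain ⟨h2a, h2b⟩ := Prod.ext_iff.1 h2
    obtain ⟨a, b, e, f, g⟩ := c.merge_spec_rev h1 h2a
    exact ⟨Prod.ext a (g h2b), b, e, f⟩

theorem commute_rkey (F : Real' d → ℝ) :
    avgOp c.rkey (avgOp (tradeKey c.snd) F) = avgOp (tradeKey c.snd) (avgOp c.rkey F) := by
  have h := c.swap.commute_skey F
  rw [swap_fst, avgOp_key_congr c.swap.skey c.rkey c.swap_skey_iff] at h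
  exact h.symm

/-- Flip the four entries of the block. -/
def flip (g : V → V → Bool) (i j : V) : Bool :=
  if (i ∈ c.fst ∧ j ∈ c.snd) ∨ (j ∈ c.fst ∧ i ∈ c.snd) then !g i j else g i j

theorem flip_real {g : Real' d} (h : isX (c.bl g) = true) : IsReal d (c.flip g.1) := by
  have hX : g.1 c.q c.z = !g.1 c.p c.z ∧ g.1 c.q c.w = g.1 c.p c.z ∧
      g.1 c.p c.w = !g.1 c.p c.z := by
    simp only [bl, blk, isX] at h
    revert h
    cases g.1 c.p c.z <;> cases g.1 c.p c.w <;> cases g.1 c.q c.z <;> cases g.1 c.q c.w <;> decide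
  obtain ⟨h1, h2, h3⟩ := hX
  refine ⟨fun i j => ?_, fun i => ?_, fun i => ?_⟩
  · simp only [flip, or_comm, g.symm i j]
  · have : ¬ (i ∈ c.fst ∧ i ∈ c.snd) := fun h => c.not_snd_of_fst h.1 h.2
    simp [flip, this, g.irrefl i]
  · rw [← g.degree i]
    by_cases hi : i ∈ c.fst
    · rw [deg_split _ c.snd i, deg_split g.1 c.snd i]
      congr 1
      · rw [snd, Finset.sum_pair c.zw, Finset.sum_pair c.zw]
        rcases c.mem_fst.1 hi with rfl | rfl <;>
          simp [flip, mem_fst, mem_snd, h1, h2, h3] <;> cases g.1 c.p c.z <;> rfl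
      · refine Finset.sum_congr rfl fun j hj => ?_
        simp [flip, Finset.mem_compl.1 hj, c.not_snd_of_fst hi]
    by_cases hi2 : i ∈ c.snd
    · rw [deg_split _ c.fst i, deg_split g.1 c.fst i]
      congr 1
      · rw [fst, Finset.sum_pair c.pq, Finset.sum_pair c.pq]
        rcases c.mem_snd.1 hi2 with rfl | rfl <;>
          simp [flip, mem_fst, mem_snd, g.symm c.z, g.symm c.w, h1, h2, h3] <;>
          cases g.1 c.p c.z <;> rfl
      · refine Finset.sum_congr rfl fun j hj => ?_
        simp [flip, Finset.mem_compl.1 hj, hi]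
    · refine Finset.sum_congr rfl fun j _ => ?_
      simp [flip, hi, hi2]

open Classical in
/-- The switch inside the block, acting on diagonal blocks. -/
noncomputable def tau (g : Real' d) : Real' d :=
  if h : isX (c.bl g) = true then ⟨c.flip g.1, c.flip_real h⟩ else g

theorem bl_tau {g : Real' d} (h : isX (c.bl g) = true) :
    c.bl (c.tau g) = (!(c.bl g).1, !(c.bl g).2.1, !(c.bl g).2.2.1, !(c.bl g).2.2.2) := by
  rw [tau, dif_pos h]
  simp [bl, blk, flip, mem_fst, mem_snd]

theorem isX_tau (g : Real' d) : isX (c.bl (c.tau g)) = isX (c.bl g) := by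
  by_cases h : isX (c.bl g) = true
  · rw [c.bl_tau h]
    revert h
    rcases c.bl g with ⟨a, b, e, f⟩
    cases a <;> cases b <;> cases e <;> cases f <;> decide
  · rw [tau, dif_neg h]

theorem tau_tau (g : Real' d) : c.tau (c.tau g) = g := by
  by_cases h : isX (c.bl g) = true
  · have h' : isX (c.bl (c.tau g)) = true := by rw [isX_tau, h]
    apply Subtype.ext
    rw [tau, dif_pos h']
    show c.flip (c.tau g).1 = g.1
    rw [tau, dif_pos h]
    funext i j
    by_cases hc : (i ∈ c.fst ∧ j ∈ c.snd) ∨ (j ∈ c.fst ∧ i ∈ c.snd) <;> simp [flip, hc]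
  · simp [tau, h]

theorem key_tau_fst (g : Real' d) : tradeKey c.fst (c.tau g) = tradeKey c.fst g := by
  by_cases h : isX (c.bl g) = true
  · rw [tradeKey_eq_iff]
    intro i j hij
    rw [tau, dif_pos h]
    simp only [flip]
    rw [if_neg]
    rintro (⟨a, b⟩ | ⟨a, b⟩)
    · exact c.not_snd_of_fst (hij.1 a) b
    · exact c.not_snd_of_fst (hij.2 a) b
  · rw [tau, dif_neg h]

theorem key_tau_snd (g : Real' d) : tradeKey c.snd (c.tau g) = tradeKey c.snd g := by
  by_cases h : isX (c.bl g) = true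
  · rw [tradeKey_eq_iff]
    intro i j hij
    rw [tau, dif_pos h]
    simp only [flip]
    rw [if_neg]
    rintro (⟨a, b⟩ | ⟨a, b⟩)
    · exact c.not_snd_of_fst a (hij.2 b)
    · exact c.not_snd_of_fst a (hij.1 b)
  · rw [tau, dif_neg h]

/-- Odd part on diagonal blocks. -/
noncomputable def odd (F : Real' d → ℝ) (g : Real' d) : ℝ := (F g - F (c.tau g)) / 2

/-- Even part. -/
noncomputable def even (F : Real' d → ℝ) (g : Real' d) : ℝ := (F g + F (c.tau g)) / 2

/-- The defect of the first pair. -/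
noncomputable def defect (F : Real' d → ℝ) (g : Real' d) : ℝ :=
  if isX (c.bl g) then avgOp c.rkey (c.even F) g - avgOp (tradeKey c.fst) F g else 0

theorem odd_tau (F : Real' d → ℝ) (g : Real' d) : c.odd F (c.tau g) = -c.odd F g := by
  simp only [odd, tau_tau]; ring

theorem even_tau (F : Real' d → ℝ) (g : Real' d) : c.even F (c.tau g) = c.even F g := by
  simp only [even, tau_tau]; ring

theorem odd_add_even (F : Real' d → ℝ) : F = c.odd F + c.even F := by
  funext g; simp only [Pi.add_apply, odd, even]; ring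

theorem avg_fst_even (F : Real' d → ℝ) :
    avgOp (tradeKey c.fst) (c.even F) = avgOp (tradeKey c.fst) F := by
  conv_rhs => rw [c.odd_add_even F, map_add,
    avgOp_involution_zero (tradeKey c.fst) c.tau c.tau_tau c.key_tau_fst _ (c.odd_tau F), zero_add]

theorem avg_snd_even (F : Real' d → ℝ) :
    avgOp (tradeKey c.snd) (c.even F) = avgOp (tradeKey c.snd) F := by
  conv_rhs => rw [c.odd_add_even F, map_add,
    avgOp_involution_zero (tradeKey c.snd) c.tau c.tau_tau c.key_tau_snd _ (c.odd_tau F), zero_add]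

theorem avg_tau (k : Finset V) (hk : ∀ g : Real' d, tradeKey k (c.tau g) = tradeKey k g) (G : Real' d → ℝ)
    (g : Real' d) : avgOp (tradeKey k) G (c.tau g) = avgOp (tradeKey k) G g :=
  avgOp_congr _ G (hk g)

theorem swap_isX (g : Real' d) : isX (c.swap.bl g) = isX (c.bl g) := by
  rw [swap_bl, isX_blkT]

theorem swap_tau (g : Real' d) : c.swap.tau g = c.tau g := by
  by_cases h : isX (c.bl g) = true
  · have h' : isX (c.swap.bl g) = true := by rw [swap_isX, h]
    apply Subtype.ext
    rw [tau, dif_pos h', tau, dif_pos h]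
    funext i j
    simp only [flip, swap_fst, swap_snd]
    by_cases h1 : i ∈ c.fst <;> by_cases h2 : j ∈ c.fst <;> by_cases h3 : i ∈ c.snd <;>
      by_cases h4 : j ∈ c.snd <;> simp [h1, h2, h3, h4]
  · rw [tau, dif_neg (by rw [swap_isX]; exact h), tau, dif_neg h]

theorem swap_even (F : Real' d → ℝ) : c.swap.even F = c.even F := by
  funext g; simp [even, swap_tau]

theorem swap_defect (F : Real' d → ℝ) (g : Real' d) :
    c.swap.defect F g
      = if isX (c.bl g) then avgOp c.skey (c.even F) g - avgOp (tradeKey c.snd) F g else 0 := by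
  rw [defect, swap_isX, swap_fst, swap_even, avgOp_key_congr c.swap.rkey c.skey c.swap_rkey_iff]

/-- Check that at most one of two trades can reach a diagonal block from another block. -/
def checkS (x y y' : Blk) : Bool :=
  !(!isX x && colEq y x && rowEq y' x) || decide (tag y = tag x) || decide (tag y' = tag x)

theorem checkS_all :
    (allBlk.all fun x => allBlk.all fun y => allBlk.all fun y' => checkS x y y') = true := by
  decide +kernel

theorem overlap_support (g : Real' d) (hg : isX (c.bl g) = false) :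
    (∀ h : Real' d, tradeKey c.fst h = tradeKey c.fst g → tag (c.bl h) = tag (c.bl g)) ∨
      (∀ h : Real' d, tradeKey c.snd h = tradeKey c.snd g → tag (c.bl h) = tag (c.bl g)) := by
  by_contra hcon
  simp only [not_or, not_forall] at hcon
  obtain ⟨⟨h, hk, ht⟩, ⟨h', hk', ht'⟩⟩ := hcon
  have e1 := c.colEq_of_key hk
  have e2 := c.rowEq_of_key hk'
  have hfin : ∀ x y y' : Blk, isX x = false → colEq y x = true → rowEq y' x = true →
      tag y = tag x ∨ tag y' = tag x := by
    intro x y y' hx hy hy'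
    have h := checkS_all
    simp only [List.all_eq_true] at h
    have h' := h x (mem_allBlk x) y (mem_allBlk y) y' (mem_allBlk y')
    simpa [checkS, hx, hy, hy'] using h'
  rcases hfin _ _ _ hg e1 e2 with h0 | h0
  · exact ht h0
  · exact ht' h0

/-- Lower bound for one ordered pair of disjoint trades. -/
theorem disjoint_bound (F : Real' d → ℝ) :
    ip (c.odd F) (c.odd F) - ip (c.defect F) (c.defect F) / 2
        - ip (c.swap.defect F) (c.swap.defect F) / 2
      ≤ ip (tradeQ d c.fst F) (tradeQ d c.snd F) := by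
  set t := c.odd F with ht
  set E := c.even F with hE
  have hQa : tradeQ d c.fst F = t + (E - avgOp (tradeKey c.fst) E) := by
    rw [tradeQ_apply, hE, c.avg_fst_even, ht]
    funext g; simp only [Pi.sub_apply, Pi.add_apply, odd, even]; ring
  have hQb : tradeQ d c.snd F = t + (E - avgOp (tradeKey c.snd) E) := by
    rw [tradeQ_apply, hE, c.avg_snd_even, ht]
    funext g; simp only [Pi.sub_apply, Pi.add_apply, odd, even]; ring
  have horth : ∀ U : Real' d → ℝ, (∀ g, U (c.tau g) = U g) → ip t U = 0 := by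
    intro U hU
    have h : ip t U = ∑ g, t (c.tau g) * U (c.tau g) :=
      (Equiv.sum_comp (Function.Involutive.toPerm c.tau c.tau_tau) (fun g => t g * U g)).symm
    have h' : ∑ g, t (c.tau g) * U (c.tau g) = -ip t U := by
      rw [ht] at *
      simp only [c.odd_tau, hU, neg_mul, Finset.sum_neg_distrib]
      rfl
    linarith
  set Sa : Real' d → ℝ := avgOp c.rkey E - avgOp (tradeKey c.fst) E with hSa
  set Sb : Real' d → ℝ := avgOp c.skey E - avgOp (tradeKey c.snd) E with hSb
  set Ua : Real' d → ℝ := E - avgOp c.rkey E with hUa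
  set Ub : Real' d → ℝ := E - avgOp c.skey E with hUb
  have ha : E - avgOp (tradeKey c.fst) E = Ua + Sa := by rw [hUa, hSa]; abel
  have hb : E - avgOp (tradeKey c.snd) E = Ub + Sb := by rw [hUb, hSb]; abel
  have refR : ∀ x y : Real' d, c.rkey x = c.rkey y → tradeKey c.fst x = tradeKey c.fst y :=
    fun x y h => (Prod.ext_iff.1 h).1
  have refS : ∀ x y : Real' d, c.skey x = c.skey y → tradeKey c.snd x = tradeKey c.snd y :=
    fun x y h => (Prod.ext_iff.1 h).1
  have p1 : 0 ≤ ip Ua Ub := by
    have e : ip Ua Ub = ip (Ub - avgOp c.rkey Ub) (Ub - avgOp c.rkey Ub)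
        + (ip Ua Ub - ip (Ub - avgOp c.rkey Ub) (Ub - avgOp c.rkey Ub)) := by ring
    have hid : ip Ua Ub = ip (Ub - avgOp c.rkey Ub) (Ub - avgOp c.rkey Ub) := by
      simp only [hUa, hUb, map_sub, ip_sub_left, ip_sub_right, avgOp_sym, avgOp_idem,
        c.commute_rkey_skey]
      ring
    rw [hid]; exact ip_self_nonneg _
  have p2 : 0 ≤ ip Sa Ub := by
    have hid : ip Sa Ub = ip (avgOp c.rkey Ub - avgOp (tradeKey c.fst) Ub)
        (avgOp c.rkey Ub - avgOp (tradeKey c.fst) Ub) := by
      simp only [hSa, hUb, map_sub, ip_sub_left, ip_sub_right, avgOp_sym, avgOp_idem,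
        avgOp_comp_of_refines _ _ refR, avgOp_comp_of_refines' _ _ refR, c.commute_rkey_skey,
        c.commute_skey]
      ring
    rw [hid]; exact ip_self_nonneg _
  have p3 : 0 ≤ ip Ua Sb := by
    have hid : ip Ua Sb = ip (avgOp c.skey Ua - avgOp (tradeKey c.snd) Ua)
        (avgOp c.skey Ua - avgOp (tradeKey c.snd) Ua) := by
      simp only [hSb, hUa, map_sub, ip_sub_left, ip_sub_right, avgOp_sym, avgOp_idem,
        avgOp_comp_of_refines _ _ refS, avgOp_comp_of_refines' _ _ refS, ← c.commute_rkey_skey,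
        ← c.commute_rkey]
      ring
    rw [hid]; exact ip_self_nonneg _
  have p4 : -(ip (c.defect F) (c.defect F) + ip (c.swap.defect F) (c.swap.defect F)) / 2
      ≤ ip Sa Sb := by
    unfold ip
    rw [← Finset.sum_add_distrib, ← Finset.sum_neg_distrib, Finset.sum_div]
    refine Finset.sum_le_sum fun g _ => ?_
    rw [swap_defect, defect]
    cases hg : isX (c.bl g)
    · simp only [Bool.false_eq_true, if_false]
      rcases c.overlap_support g hg with h | h
      · have h0 : Sa g = 0 := by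
          rw [hSa, Pi.sub_apply, avgOp_apply, avgOp_apply,
            Finset.filter_congr (p := fun y => c.rkey y = c.rkey g)
              (q := fun y => tradeKey c.fst y = tradeKey c.fst g) fun y _ =>
              ⟨fun e => refR _ _ e, fun e => Prod.ext e (h y e)⟩, sub_self]
        rw [h0]; simp
      · have h0 : Sb g = 0 := by
          rw [hSb, Pi.sub_apply, avgOp_apply, avgOp_apply,
            Finset.filter_congr (p := fun y => c.skey y = c.skey g)
              (q := fun y => tradeKey c.snd y = tradeKey c.snd g) fun y _ =>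
              ⟨fun e => refS _ _ e, fun e => Prod.ext e (h y e)⟩, sub_self]
        rw [h0]; simp
    · simp only [if_true]
      rw [hSa, hSb, hE, c.avg_fst_even, c.avg_snd_even, Pi.sub_apply, Pi.sub_apply]
      exact neg_half_sq_le _ _
  have hz1 : ip t (E - avgOp (tradeKey c.snd) E) = 0 :=
    horth _ fun g => by
      simp only [Pi.sub_apply, hE, c.even_tau, c.avg_tau _ c.key_tau_snd]
  have hz2 : ip (E - avgOp (tradeKey c.fst) E) t = 0 := by
    rw [ip_comm]
    exact horth _ fun g => by
      simp only [Pi.sub_apply, hE, c.even_tau, c.avg_tau _ c.key_tau_fst]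
  rw [hQa, hQb, ip_add_left, ip_add_right, ip_add_right, hz1, hz2, ha, hb, ip_add_left,
    ip_add_right, ip_add_right]
  linarith

end Quad

end Vale.Agent.P335
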