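import Mathlib

/-! Two inequalities on a slice of the cube. -/

namespace Vale.Agent.P335

open Finset

variable {α : Type*} [Fintype α] [DecidableEq α]

/-- Sets of size `a`. -/
def slice (α : Type*) [Fintype α] [DecidableEq α] (a : ℕ) : Finset (Finset α) :=
  (Finset.univ : Finset α).powersetCard a

/-- Sets of size `a` containing `z` and not `w`. -/
def sepSets (a : ℕ) (z w : α) : Finset (Finset α) :=
  (slice α a).filter fun S => z ∈ S ∧ w ∉ S

theorem mem_slice {a : ℕ} {S : Finset α} : S ∈ slice α a ↔ S.card = a := by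
  simp [slice, mem_powersetCard]

theorem mem_sepSets {a : ℕ} {z w : α} {S : Finset α} :
    S ∈ sepSets a z w ↔ S.card = a ∧ z ∈ S ∧ w ∉ S := by
  simp [sepSets, mem_slice]

/-- The move of `S` exchanging `z` for `w`. -/
def exch (S : Finset α) (z w : α) : Finset α := insert w (S.erase z)

/-- The points other than `x` and `y`. -/
def others (x y : α) : Finset α := (univ.erase x).erase y

theorem card_others {x y : α} (h : x ≠ y) : (others x y).card = Fintype.card α - 2 := by
  rw [others, card_erase_of_mem (by simp [h.symm]), card_erase_of_mem (mem_univ _), card_univ]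
  omega

theorem sum_sepSets {a : ℕ} {z w : α} (h : z ≠ w) (ha : 1 ≤ a) (G : Finset α → ℝ) :
    ∑ S ∈ sepSets a z w, G S =
      ∑ R ∈ (others z w).powersetCard (a - 1), G (insert z R) := by
  refine sum_nbij' (fun S => S.erase z) (fun R => insert z R) ?_ ?_ ?_ ?_ ?_
  · intro S hS
    simp only [mem_coe, mem_sepSets] at hS
    simp only [mem_coe, mem_powersetCard, card_erase_of_mem hS.2.1, hS.1, and_true]
    intro t ht
    simp only [mem_erase] at ht
    simp only [others, mem_erase, mem_univ, and_true]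
    exact ⟨fun e => hS.2.2 (e ▸ ht.2), ht.1⟩
  · intro R hR
    simp only [mem_coe, mem_powersetCard] at hR
    have hz : z ∉ R := fun e => by simpa [others] using hR.1 e
    have hw : w ∉ R := fun e => by simpa [others] using hR.1 e
    simp only [mem_coe, mem_sepSets, card_insert_of_notMem hz, mem_insert, true_or, true_and]
    exact ⟨by omega, by simp [h.symm, hw]⟩
  · intro S hS
    simp only [mem_coe, mem_sepSets] at hS
    exact insert_erase hS.2.1
  · intro R hR
    simp only [mem_coe, mem_powersetCard] at hR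
    exact erase_insert fun e => by simpa [others] using hR.1 e
  · intro S hS
    simp only [mem_sepSets] at hS
    rw [insert_erase hS.2.1]

theorem card_sepSets {a : ℕ} {z w : α} (h : z ≠ w) (ha : 1 ≤ a) :
    (sepSets a z w).card = (Fintype.card α - 2).choose (a - 1) := by
  have := sum_sepSets h ha (fun _ => (1 : ℝ))
  simp only [sum_const, nsmul_eq_mul, mul_one, card_powersetCard, card_others h] at this
  exact_mod_cast this

/-- Sets containing both points. -/
def bothSets (a : ℕ) (z w : α) : Finset (Finset α) :=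
  (slice α a).filter fun S => z ∈ S ∧ w ∈ S

/-- Sets containing neither point. -/
def noneSets (a : ℕ) (z w : α) : Finset (Finset α) :=
  (slice α a).filter fun S => z ∉ S ∧ w ∉ S

theorem sum_slice_split (a : ℕ) (z w : α) (F : Finset α → ℝ) :
    ∑ S ∈ slice α a, F S = ∑ S ∈ sepSets a z w, F S + ∑ S ∈ sepSets a w z, F S +
      (∑ S ∈ bothSets a z w, F S + ∑ S ∈ noneSets a z w, F S) := by
  simp only [sepSets, bothSets, noneSets, sum_filter, ← sum_add_distrib]
  refine sum_congr rfl fun S _ => ?_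
  by_cases h1 : z ∈ S <;> by_cases h2 : w ∈ S <;> simp [h1, h2]

theorem sum_both_move {a : ℕ} {z w : α} (h : z ≠ w) (F : Finset α → ℝ) :
    ∑ S ∈ bothSets a z w, ∑ v ∈ Sᶜ, F (exch S z v) =
      ((a : ℝ) - 1) * ∑ T ∈ sepSets a w z, F T := by
  have e : ∑ T ∈ sepSets a w z, ∑ _v ∈ T.erase w, F T =
      ((a : ℝ) - 1) * ∑ T ∈ sepSets a w z, F T := by
    rw [mul_sum]
    refine sum_congr rfl fun T hT => ?_
    rw [mem_sepSets] at hT
    rw [sum_const, card_erase_of_mem hT.2.1, hT.1, nsmul_eq_mul,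
      Nat.cast_sub (by rw [← hT.1]; exact card_pos.2 ⟨w, hT.2.1⟩), Nat.cast_one]
  rw [← e, sum_sigma', sum_sigma']
  refine sum_nbij' (fun p => ⟨exch p.1 z p.2, p.2⟩) (fun p => ⟨exch p.1 p.2 z, p.2⟩) ?_ ?_ ?_ ?_ ?_
  · rintro ⟨S, v⟩ hp
    simp only [mem_coe, mem_sigma, bothSets, mem_filter, mem_slice, mem_compl] at hp
    obtain ⟨⟨hc, hz, hw⟩, hv⟩ := hp
    simp only [mem_coe, mem_sigma, mem_sepSets, exch, mem_insert, mem_erase]
    have h1 : v ≠ z := fun e => hv (e ▸ hz)
    have h2 : v ≠ w := fun e => hv (e ▸ hw)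
    refine ⟨⟨?_, Or.inr ⟨h.symm, hw⟩, ?_⟩, h2, Or.inl trivial⟩
    · rw [card_insert_of_notMem (by simp [hv]), card_erase_of_mem hz, hc]
      have := card_pos.2 ⟨z, hz⟩
      omega
    · simp [h1.symm]
  · rintro ⟨T, v⟩ hp
    simp only [mem_coe, mem_sigma, mem_sepSets, mem_erase] at hp
    obtain ⟨⟨hc, hw, hz⟩, hvw, hv⟩ := hp
    simp only [mem_coe, mem_sigma, bothSets, mem_filter, mem_slice, mem_compl, exch, mem_insert,
      mem_erase]
    have h1 : v ≠ z := fun e => hz (e ▸ hv)
    refine ⟨⟨?_, Or.inl trivial, Or.inr ⟨hvw.symm, hw⟩⟩, by simp [h1]⟩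
    rw [card_insert_of_notMem (by simp [hz]), card_erase_of_mem hv, hc]
    have := card_pos.2 ⟨v, hv⟩
    omega
  · rintro ⟨S, v⟩ hp
    simp only [mem_coe, mem_sigma, bothSets, mem_filter, mem_slice, mem_compl] at hp
    have h1 : v ∉ S.erase z := fun e => hp.2 (mem_erase.1 e).2
    simp [exch, erase_insert h1, insert_erase hp.1.2.1]
  · rintro ⟨T, v⟩ hp
    simp only [mem_coe, mem_sigma, mem_sepSets, mem_erase] at hp
    have h1 : z ∉ T.erase v := fun e => hp.1.2.2 (mem_erase.1 e).2
    simp [exch, erase_insert h1, insert_erase hp.2.2]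
  · rintro ⟨S, v⟩ _
    rfl

theorem sum_none_move {a : ℕ} {z w : α} (h : z ≠ w) (F : Finset α → ℝ) :
    ∑ S ∈ noneSets a z w, ∑ v ∈ S, F (exch S v z) =
      ((Fintype.card α : ℝ) - a - 1) * ∑ T ∈ sepSets a z w, F T := by
  have e : ∑ T ∈ sepSets a z w, ∑ _v ∈ Tᶜ.erase w, F T =
      ((Fintype.card α : ℝ) - a - 1) * ∑ T ∈ sepSets a z w, F T := by
    rw [mul_sum]
    refine sum_congr rfl fun T hT => ?_
    rw [mem_sepSets] at hT
    have hw : w ∈ Tᶜ := mem_compl.2 hT.2.2
    have h0 := card_pos.2 ⟨w, hw⟩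
    rw [sum_const, card_erase_of_mem hw, nsmul_eq_mul, Nat.cast_sub (by omega), card_compl,
      Nat.cast_sub (card_le_univ T), hT.1, Nat.cast_one]
  rw [← e, sum_sigma', sum_sigma']
  refine sum_nbij' (fun p => ⟨exch p.1 p.2 z, p.2⟩) (fun p => ⟨exch p.1 z p.2, p.2⟩) ?_ ?_ ?_ ?_ ?_
  · rintro ⟨S, v⟩ hp
    simp only [mem_coe, mem_sigma, noneSets, mem_filter, mem_slice] at hp
    obtain ⟨⟨hc, hz, hw⟩, hv⟩ := hp
    simp only [mem_coe, mem_sigma, mem_sepSets, exch, mem_insert, mem_erase, mem_compl]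
    have h1 : v ≠ z := fun e => hz (e ▸ hv)
    have h2 : v ≠ w := fun e => hw (e ▸ hv)
    refine ⟨⟨?_, Or.inl trivial, ?_⟩, h2, ?_⟩
    · rw [card_insert_of_notMem (by simp [hz]), card_erase_of_mem hv, hc]
      have := card_pos.2 ⟨v, hv⟩
      omega
    · simp [h.symm, hw]
    · simp [h1]
  · rintro ⟨T, v⟩ hp
    simp only [mem_coe, mem_sigma, mem_sepSets, mem_erase, mem_compl] at hp
    obtain ⟨⟨hc, hz, hw⟩, hvw, hv⟩ := hp
    simp only [mem_coe, mem_sigma, noneSets, mem_filter, mem_slice, exch, mem_insert, mem_erase]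
    have h1 : v ≠ z := fun e => hv (e ▸ hz)
    refine ⟨⟨?_, by simp [h1.symm], by simp [hvw.symm, hw]⟩, Or.inl trivial⟩
    rw [card_insert_of_notMem (by simp [hv]), card_erase_of_mem hz, hc]
    have := card_pos.2 ⟨z, hz⟩
    omega
  · rintro ⟨S, v⟩ hp
    simp only [mem_coe, mem_sigma, noneSets, mem_filter, mem_slice] at hp
    have h1 : z ∉ S.erase v := fun e => hp.1.2.1 (mem_erase.1 e).2
    simp [exch, erase_insert h1, insert_erase hp.2]
  · rintro ⟨T, v⟩ hp
    simp only [mem_coe, mem_sigma, mem_sepSets, mem_erase, mem_compl] at hp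
    have h1 : v ∉ T.erase z := fun e => hp.2.2 (mem_erase.1 e).2
    simp [exch, erase_insert h1, insert_erase hp.1.2.1]
  · rintro ⟨S, v⟩ _
    rfl

theorem sum_subsets_ge (U A : Finset α) (k : ℕ) (hA : A ⊆ U) (hk : A.card ≤ k) :
    ((U.powersetCard k).filter fun R => A ⊆ R).card = (U.card - A.card).choose (k - A.card) := by
  rw [← card_sdiff_of_subset hA, ← card_powersetCard]
  refine card_nbij' (fun R => R \ A) (fun R => R ∪ A) ?_ ?_ ?_ ?_
  · intro R hR
    simp only [mem_coe, mem_filter, mem_powersetCard] at hR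
    simp only [mem_coe, mem_powersetCard]
    exact ⟨sdiff_subset_sdiff hR.1.1 subset_rfl, by rw [card_sdiff_of_subset hR.2, hR.1.2]⟩
  · intro R hR
    simp only [mem_coe, mem_powersetCard] at hR
    simp only [mem_coe, mem_filter, mem_powersetCard]
    have hd : Disjoint R A := disjoint_of_subset_left hR.1 sdiff_disjoint
    exact ⟨⟨union_subset (hR.1.trans sdiff_subset) hA,
      by rw [card_union_of_disjoint hd, hR.2]; omega⟩, subset_union_right⟩
  · intro R hR
    simp only [mem_coe, mem_filter] at hR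
    exact sdiff_union_of_subset hR.2
  · intro R hR
    simp only [mem_coe, mem_powersetCard] at hR
    exact union_sdiff_cancel_right (disjoint_of_subset_left hR.1 sdiff_disjoint)

theorem moment_one (U : Finset α) (k : ℕ) (y : α → ℝ) :
    (U.card : ℝ) * ∑ R ∈ U.powersetCard k, ∑ i ∈ R, y i =
      k * (U.card.choose k : ℝ) * ∑ i ∈ U, y i := by
  have hs : ∑ R ∈ U.powersetCard k, ∑ i ∈ R, y i =
      ∑ i ∈ U, (((U.powersetCard k).filter fun R => {i} ⊆ R).card : ℝ) * y i := by
    rw [sum_congr rfl fun R hR => (show ∑ i ∈ R, y i = ∑ i ∈ U, if i ∈ R then y i else 0 from by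
      rw [← sum_filter]; exact sum_congr
        (by rw [filter_mem_eq_inter, inter_eq_right.2 (mem_powersetCard.1 hR).1]) fun _ _ => rfl),
      sum_comm]
    refine sum_congr rfl fun i _ => ?_
    rw [← sum_filter, sum_const, nsmul_eq_mul]
    simp
  rw [hs, mul_sum, mul_sum]
  refine sum_congr rfl fun i hi => ?_
  rcases Nat.eq_zero_or_pos k with rfl | hk
  · rw [Nat.cast_zero, zero_mul, zero_mul, filter_eq_empty_iff.2]
    · simp
    · intro R hR hsub
      rw [mem_powersetCard, card_eq_zero] at hR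
      simp [hR.2] at hsub
  · rw [sum_subsets_ge U {i} k (by simpa) (by rw [card_singleton]; exact hk), card_singleton, ← mul_assoc]
    congr 1
    rcases le_or_gt k U.card with hkn | hkn
    · have := Nat.choose_mul (n := U.card) (k := k) (s := 1) hk
      simp only [Nat.choose_one_right] at this
      exact_mod_cast by rw [mul_comm k]; exact this.symm
    · have := card_pos.2 ⟨i, hi⟩
      rw [Nat.choose_eq_zero_of_lt hkn,
        Nat.choose_eq_zero_of_lt (show U.card - 1 < k - 1 by omega)]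
      simp

theorem moment_two (U : Finset α) (k : ℕ) (y : α → ℝ) :
    (U.card : ℝ) * ((U.card : ℝ) - 1) * ∑ R ∈ U.powersetCard k, (∑ i ∈ R, y i) ^ 2 =
      k * (U.card.choose k : ℝ) * ((U.card - k : ℝ) * ∑ i ∈ U, y i ^ 2 +
        ((k : ℝ) - 1) * (∑ i ∈ U, y i) ^ 2) := by
  have hs : ∀ R ∈ U.powersetCard k, (∑ i ∈ R, y i) ^ 2 =
      ∑ i ∈ R, y i ^ 2 + ∑ i ∈ U, ∑ j ∈ U.erase i, if {i, j} ⊆ R then y i * y j else 0 := by
    intro R hR
    have hRU := (mem_powersetCard.1 hR).1
    have : ∑ i ∈ U, ∑ j ∈ U.erase i, (if {i, j} ⊆ R then y i * y j else 0) =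
        ∑ i ∈ R, ∑ j ∈ R.erase i, y i * y j := by
      rw [← sum_subset hRU (fun i _ hi => sum_eq_zero fun j _ => if_neg fun h =>
        hi (h (mem_insert_self _ _)))]
      refine sum_congr rfl fun i hi => ?_
      rw [← sum_filter]
      refine sum_congr ?_ fun _ _ => rfl
      ext j
      simp only [mem_filter, mem_erase, insert_subset_iff, singleton_subset_iff, hi, true_and]
      exact ⟨fun h => ⟨h.1.1, h.2⟩, fun h => ⟨⟨h.1, hRU h.2⟩, h.2⟩⟩
    rw [this, sq, sum_mul_sum, ← sum_add_distrib]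
    refine sum_congr rfl fun i hi => ?_
    rw [← add_sum_erase R _ hi, sq]
  rw [sum_congr rfl hs, sum_add_distrib, mul_add]
  have h1 := moment_one U k (fun i => y i ^ 2)
  have hp : ∀ i ∈ U, ∀ j ∈ U.erase i,
      (U.card : ℝ) * ((U.card : ℝ) - 1) *
        (((U.powersetCard k).filter fun R => {i, j} ⊆ R).card : ℝ) =
      k * ((k : ℝ) - 1) * (U.card.choose k : ℝ) := by
    intro i hi j hj
    have hij : i ≠ j := fun e => by simp [e] at hj
    have hn : 2 ≤ U.card := by
      rw [← card_pair hij]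
      exact card_le_card (insert_subset hi (singleton_subset_iff.2 (mem_erase.1 hj).2))
    rcases le_or_gt 2 k with hk | hk
    · rw [sum_subsets_ge U {i, j} k (insert_subset hi (singleton_subset_iff.2 (mem_erase.1 hj).2))
        (by rw [card_pair hij]; omega), card_pair hij]
      rcases le_or_gt k U.card with hkn | hkn
      · have h := Nat.choose_mul (n := U.card) (k := k) (s := 2) hk
        have h' : (U.card.choose k : ℝ) * (k.choose 2 : ℝ) =
            (U.card.choose 2 : ℝ) * ((U.card - 2).choose (k - 2) : ℝ) := by exact_mod_cast h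
        rw [Nat.cast_choose_two, Nat.cast_choose_two] at h'
        linarith
      · rw [Nat.choose_eq_zero_of_lt hkn,
          Nat.choose_eq_zero_of_lt (show U.card - 2 < k - 2 by omega)]
        simp
    · rw [filter_eq_empty_iff.2 (fun R hR hsub => by
        have h2 := card_le_card hsub
        rw [card_pair hij, (mem_powersetCard.1 hR).2] at h2
        omega)]
      interval_cases k <;> simp
  have h2 : (U.card : ℝ) * ((U.card : ℝ) - 1) * ∑ R ∈ U.powersetCard k,
      ∑ i ∈ U, ∑ j ∈ U.erase i, (if {i, j} ⊆ R then y i * y j else 0) =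
      k * ((k : ℝ) - 1) * (U.card.choose k : ℝ) *
        ((∑ i ∈ U, y i) ^ 2 - ∑ i ∈ U, y i ^ 2) := by
    rw [sum_comm, sum_congr rfl fun i _ => sum_comm, sq, sum_mul_sum, ← sum_sub_distrib, mul_sum,
      mul_sum]
    refine sum_congr rfl fun i hi => ?_
    rw [← add_sum_erase U (fun j => y i * y j) hi, sq, add_sub_cancel_left, mul_sum, mul_sum]
    refine sum_congr rfl fun j hj => ?_
    rw [← sum_filter, sum_const, nsmul_eq_mul]
    linear_combination (y i * y j) * hp i hi j hj
  rw [h2]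
  linear_combination ((U.card : ℝ) - 1) * h1

theorem second_moment_le (U : Finset α) (k : ℕ) (hk : k ≤ U.card) (y : α → ℝ) (c J : ℝ) :
    ∑ R ∈ U.powersetCard k, (c * (∑ i ∈ U, y i) + J * ∑ i ∈ R, y i) ^ 2 ≤
      (U.card.choose k : ℝ) * ((c + J * k / U.card) ^ 2 * (∑ i ∈ U, y i) ^ 2 +
        J ^ 2 * (k * (U.card - k : ℝ) / (U.card * ((U.card : ℝ) - 1))) * ∑ i ∈ U, y i ^ 2) := by
  rcases le_or_gt U.card 1 with hn | hn
  · rcases Nat.le_one_iff_eq_zero_or_eq_one.1 hn with h0 | h1
    · rw [card_eq_zero] at h0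
      subst h0
      have : k = 0 := by simpa using hk
      subst this
      simp
    · obtain ⟨u, rfl⟩ := card_eq_one.1 h1
      rw [card_singleton] at hk
      interval_cases k
      · simp [mul_pow]
      · rw [show ({u} : Finset α).powersetCard 1 = {{u}} by
          simpa using powersetCard_self ({u} : Finset α)]
        simp; ring_nf; rfl
  have n1 : (1 : ℝ) < U.card := by exact_mod_cast hn
  have k1 : (k : ℝ) ≤ U.card := by exact_mod_cast hk
  have h1 := moment_one U k y
  have h2 := moment_two U k y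
  have m0 : (0 : ℝ) ≤ (U.card.choose k : ℝ) := by positivity
  have hc : ((U.powersetCard k).card : ℝ) = (U.card.choose k : ℝ) := by rw [card_powersetCard]
  set n : ℝ := (U.card : ℝ)
  set m : ℝ := (U.card.choose k : ℝ)
  set Y := ∑ i ∈ U, y i
  set Q := ∑ i ∈ U, y i ^ 2
  set S1 := ∑ R ∈ U.powersetCard k, ∑ i ∈ R, y i
  set S2 := ∑ R ∈ U.powersetCard k, (∑ i ∈ R, y i) ^ 2
  have e : ∑ R ∈ U.powersetCard k, (c * Y + J * ∑ i ∈ R, y i) ^ 2 =
      c ^ 2 * Y ^ 2 * m + 2 * c * J * Y * S1 + J ^ 2 * S2 := by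
    simp only [S1, S2, mul_sum, ← hc, add_sq, sum_add_distrib, sum_const, nsmul_eq_mul]
    simp only [← mul_sum, mul_pow]
    ring
  have en : n ≠ 0 := by linarith
  have en1 : n - 1 ≠ 0 := by linarith
  have key : ((k : ℝ) - 1) / (n - 1) ≤ k / n := by
    rw [div_le_div_iff₀ (by linarith) (by linarith)]; nlinarith
  have hS1 : S1 = k * m * Y / n := by
    rw [eq_div_iff en]; linarith
  have hS2 : S2 ≤ m * (k * (n - k) / (n * (n - 1)) * Q + (k / n) ^ 2 * Y ^ 2) := by
    have e2 : S2 = m * (k * (n - k) / (n * (n - 1)) * Q +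
        k / n * (((k : ℝ) - 1) / (n - 1)) * Y ^ 2) := by
      field_simp
      linarith
    rw [e2, sq ((k : ℝ) / n)]
    refine mul_le_mul_of_nonneg_left (add_le_add le_rfl (mul_le_mul_of_nonneg_right
      (mul_le_mul_of_nonneg_left key ?_) (sq_nonneg _))) m0
    exact div_nonneg (Nat.cast_nonneg k) (by linarith)
  rw [e, hS1]
  refine (add_le_add le_rfl (mul_le_mul_of_nonneg_left hS2 (sq_nonneg J))).trans (le_of_eq ?_)
  ring

theorem sum_pairs_sq (r : α → ℝ) :
    ∑ x, ∑ y, (r x - r y) ^ 2 =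
      2 * (Fintype.card α : ℝ) * ∑ x, r x ^ 2 - 2 * (∑ x, r x) ^ 2 := by
  simp only [sub_sq, sum_add_distrib, sum_sub_distrib, ← mul_sum, ← sum_mul, sum_const, card_univ,
    nsmul_eq_mul]
  ring

theorem row_bound (k : α → α → ℝ) (hs : ∀ x y, k x y = k y x) (h0 : ∀ x, k x x = 0)
    (hD : 2 ≤ Fintype.card α) :
    ∑ x, ∑ y, ((∑ w, k x w) - ∑ w, k y w) ^ 2 ≤
      (Fintype.card α : ℝ) * ((Fintype.card α : ℝ) - 2) * ∑ x, ∑ y, k x y ^ 2 := by
  set D : ℝ := (Fintype.card α : ℝ)
  have hD' : (2 : ℝ) ≤ D := by simpa [D] using (Nat.cast_le (α := ℝ)).2 hD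
  set r := fun x => ∑ w, k x w with hr
  set u := fun x => r x - (∑ t, r t) / D with hu
  set V := ∑ x, u x ^ 2
  set W := ∑ x, ∑ y, k x y ^ 2
  have hu0 : ∑ x, u x = 0 := by
    simp only [u, sum_sub_distrib, sum_const, card_univ, nsmul_eq_mul, D]
    field_simp; ring
  have e1 : ∑ x, ∑ y, (r x - r y) ^ 2 = 2 * D * V := by
    have : ∀ x y, r x - r y = u x - u y := fun x y => by simp [u]
    simp only [this, sum_pairs_sq, hu0]
    simp only [V, D]; ring
  have e2 : 2 * V = ∑ x, ∑ y, k x y * (u x + u y) := by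
    have a1 : ∑ x, ∑ y, k x y * u x = V := by
      have : ∑ x, u x * r x = V := by
        have h' : ∀ x, u x * r x = u x ^ 2 + u x * ((∑ t, r t) / D) := fun x => by
          simp only [u]; ring
        simp only [h', sum_add_distrib, ← sum_mul, hu0, V]; ring
      rw [← this]
      refine sum_congr rfl fun x _ => ?_
      rw [← sum_mul, mul_comm]
    have a2 : ∑ x, ∑ y, k x y * u y = V := by
      rw [sum_comm, ← a1]
      exact sum_congr rfl fun x _ => sum_congr rfl fun y _ => by rw [hs]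
    simp only [mul_add, sum_add_distrib, a1, a2]; ring
  have e3 : (∑ x, ∑ y, k x y * (u x + u y)) ^ 2 ≤
      W * ∑ x, ∑ y, if x = y then 0 else (u x + u y) ^ 2 := by
    simp only [W, ← sum_product']
    refine sum_sq_le_sum_mul_sum_of_sq_le_mul _ (fun _ _ => sq_nonneg _)
      (fun p _ => by split_ifs <;> positivity) fun p _ => le_of_eq ?_
    split_ifs with h
    · simp [h, h0]
    · ring
  have e4 : ∑ x, ∑ y, (if x = y then 0 else (u x + u y) ^ 2) = 2 * (D - 2) * V := by
    have : ∀ x y, (if x = y then 0 else (u x + u y) ^ 2) =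
        (u x + u y) ^ 2 - if x = y then 4 * u x ^ 2 else 0 := fun x y => by
      split_ifs with h
      · subst h; ring
      · ring
    rw [sum_congr rfl fun x _ => sum_congr rfl fun y _ => this x y]
    simp only [sum_sub_distrib, sum_ite_eq, mem_univ, if_true, add_sq, sum_add_distrib,
      ← mul_sum, ← sum_mul, sum_const, card_univ, nsmul_eq_mul, hu0, D, V]
    ring
  change ∑ x, ∑ y, (r x - r y) ^ 2 ≤ _
  rw [e1]
  rw [← e2, e4] at e3
  rcases (show 0 ≤ V from sum_nonneg fun _ _ => sq_nonneg _).eq_or_lt with hV | hV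
  · rw [← hV, mul_zero]
    exact mul_nonneg (mul_nonneg (by linarith) (by linarith))
      (sum_nonneg fun _ _ => sum_nonneg fun _ _ => sq_nonneg _)
  have : 2 * V ≤ (D - 2) * W := le_of_mul_le_mul_left (by nlinarith) hV
  nlinarith

theorem col_bound (k : α → α → ℝ) (hs : ∀ x y, k x y = k y x) (h0 : ∀ x, k x x = 0) :
    ∑ x, ∑ y, ∑ w ∈ others x y, (k x w - k y w) ^ 2 ≤
      2 * ((Fintype.card α : ℝ) - 1) * ∑ x, ∑ y, k x y ^ 2 := by
  have h1 : ∀ x y, ∑ w ∈ others x y, (k x w - k y w) ^ 2 =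
      ∑ w, if w = x ∨ w = y then 0 else (k x w - k y w) ^ 2 := by
    intro x y
    rw [show others x y = univ.filter fun w => ¬(w = x ∨ w = y) by ext; simp [others]; tauto,
      sum_filter]
    exact sum_congr rfl fun w _ => by split_ifs <;> first | rfl | tauto
  simp only [h1]
  have h2 : ∀ x y w, (if w = x ∨ w = y then (0 : ℝ) else (k x w - k y w) ^ 2) =
      (k x w - k y w) ^ 2 - (if w = x then k y w ^ 2 else 0) -
        (if w = y then k x w ^ 2 else 0) := by
    intro x y w
    by_cases hx : w = x <;> by_cases hy : w = y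
    · subst hx; subst hy; simp [h0]
    · subst hx; simp [h0, hy]
    · subst hy; simp [h0, hx]
    · simp [hx, hy]
  simp only [h2, sum_sub_distrib, sum_ite_eq', mem_univ, if_true]
  have h3 : ∑ x, ∑ y, ∑ w, (k x w - k y w) ^ 2 ≤
      2 * (Fintype.card α : ℝ) * ∑ x, ∑ y, k x y ^ 2 := by
    rw [sum_congr rfl fun x _ => sum_comm, sum_comm, mul_sum]
    refine sum_le_sum fun w _ => ?_
    rw [sum_pairs_sq]
    have : ∑ x, k x w ^ 2 = ∑ y, k w y ^ 2 := sum_congr rfl fun x _ => by rw [hs]
    rw [this]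
    nlinarith [sq_nonneg (∑ x, k x w)]
  have h4 : ∑ x, ∑ y, k y x ^ 2 = ∑ x, ∑ y, k x y ^ 2 :=
    sum_congr rfl fun x _ => sum_congr rfl fun y _ => by rw [hs]
  rw [h4]
  linarith

/-- The flow on the edge from `S` exchanging `x` for `y`. -/
noncomputable def load (a : ℕ) (k : α → α → ℝ) (x y : α) (R : Finset α) : ℝ :=
  (∑ w ∈ R, (k x w - k y w)) / (2 * ((Fintype.card α : ℝ) - a)) -
    (∑ w ∈ others x y \ R, (k x w - k y w)) / (2 * a)

theorem exch_back {a : ℕ} {x y : α} {S : Finset α} (hS : S ∈ sepSets a x y) :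
    exch S x y ∈ sepSets a y x ∧ exch (exch S x y) y x = S ∧
      (exch S x y).erase y = S.erase x := by
  obtain ⟨hc, hx, hy⟩ := mem_sepSets.1 hS
  have h1 : y ∉ S.erase x := fun e => hy (mem_erase.1 e).2
  have hxy : x ≠ y := fun e => hy (e ▸ hx)
  refine ⟨mem_sepSets.2 ⟨?_, mem_insert_self _ _, ?_⟩, ?_, erase_insert h1⟩
  · rw [exch, card_insert_of_notMem h1, card_erase_of_mem hx, hc]
    have := card_pos.2 ⟨x, hx⟩
    omega
  · simp [exch, hxy]
  · simp [exch, erase_insert h1, insert_erase hx]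

theorem reverse_edges (a : ℕ) (H : α → α → Finset α → ℝ) :
    ∑ x, ∑ y, ∑ S ∈ sepSets a x y, H x y S =
      ∑ x, ∑ y, ∑ S ∈ sepSets a x y, H y x (exch S x y) := by
  rw [sum_comm]
  refine sum_congr rfl fun x _ => sum_congr rfl fun y _ => ?_
  exact (sum_nbij' (fun S => exch S x y) (fun S => exch S y x) (fun S hS => (exch_back hS).1)
    (fun S hS => (exch_back hS).1) (fun S hS => (exch_back hS).2.1)
    (fun S hS => (exch_back hS).2.1) fun S _ => rfl).symm

theorem flow_identity (a : ℕ) (ha : 1 ≤ a) (hb : a < Fintype.card α) (F : Finset α → ℝ)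
    (k : α → α → ℝ) (hs : ∀ x y, k x y = k y x) (h0 : ∀ x, k x x = 0) :
    ∑ z, ∑ w, k z w * (((Fintype.card α : ℝ) * ((Fintype.card α : ℝ) - 1) /
        (2 * a * ((Fintype.card α : ℝ) - a))) *
        (∑ S ∈ sepSets a z w, F S + ∑ S ∈ sepSets a w z, F S) - ∑ S ∈ slice α a, F S) =
      ∑ x, ∑ y, ∑ S ∈ sepSets a x y, (F (exch S x y) - F S) * load a k x y (S.erase x) := by
  set D : ℝ := (Fintype.card α : ℝ) with hD
  set b : ℝ := D - a with hbdef
  have hb0 : 0 < b := by
    have : (a : ℝ) < D := by rw [hD]; exact_mod_cast hb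
    linarith
  have ha0 : (0 : ℝ) < a := by exact_mod_cast ha
  set P := fun z w => ∑ S ∈ bothSets a z w, ∑ v ∈ Sᶜ, (F (exch S z v) - F S)
  set M := fun z w => ∑ S ∈ noneSets a z w, ∑ v ∈ S, (F (exch S v z) - F S)
  have loc : ∀ z w, k z w * ((D * (D - 1) / (2 * a * b)) *
      (∑ S ∈ sepSets a z w, F S + ∑ S ∈ sepSets a w z, F S) - ∑ S ∈ slice α a, F S) =
      k z w * ((P z w + P w z) / (2 * b) + (M z w + M w z) / (2 * a)) := by
    intro z w
    rcases eq_or_ne z w with rfl | h
    · simp [h0]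
    congr 1
    have hcb : ∀ p q, ∑ S ∈ bothSets a p q, ∑ _v ∈ Sᶜ, F S = b * ∑ S ∈ bothSets a p q, F S := by
      intro p q
      rw [mul_sum]
      refine sum_congr rfl fun S hS => ?_
      rw [sum_const, card_compl, nsmul_eq_mul, Nat.cast_sub (card_le_univ S),
        mem_slice.1 (mem_filter.1 hS).1]
    have hcn : ∀ p q, ∑ S ∈ noneSets a p q, ∑ _v ∈ S, F S =
        (a : ℝ) * ∑ S ∈ noneSets a p q, F S := by
      intro p q
      rw [mul_sum]
      refine sum_congr rfl fun S hS => ?_
      rw [sum_const, nsmul_eq_mul, mem_slice.1 (mem_filter.1 hS).1]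
    have s1 : bothSets a w z = bothSets a z w := by
      simp only [bothSets, and_comm]
    have s2 : noneSets a w z = noneSets a z w := by
      simp only [noneSets, and_comm]
    simp only [P, M, sum_sub_distrib]
    rw [sum_both_move h, sum_both_move h.symm, sum_none_move h, sum_none_move h.symm, hcb z w,
      hcb w z, hcn z w, hcn w z, s1, s2, sum_slice_split a z w F, ← hD,
      show D = a + b by rw [hbdef]; ring]
    field_simp
    ring
  rw [sum_congr rfl fun z _ => sum_congr rfl fun w _ => loc z w]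
  have flip : ∀ Φ : α → α → ℝ, ∑ z, ∑ w, k z w * Φ w z = ∑ z, ∑ w, k z w * Φ z w := fun Φ => by
    rw [sum_comm]
    exact sum_congr rfl fun z _ => sum_congr rfl fun w _ => by rw [hs]
  have expand : ∑ z, ∑ w, k z w * ((P z w + P w z) / (2 * b) + (M z w + M w z) / (2 * a)) =
      (∑ z, ∑ w, k z w * P z w) / b + (∑ z, ∑ w, k z w * M z w) / a := by
    simp only [mul_add, add_div, sum_add_distrib, mul_div_assoc', ← sum_div]
    rw [flip P, flip M]
    ring
  rw [expand]
  have eP : ∑ z, ∑ w, k z w * P z w =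
      ∑ x, ∑ y, ∑ S ∈ sepSets a x y, (F (exch S x y) - F S) * ∑ w ∈ S.erase x, k x w := by
    refine sum_congr rfl fun z _ => ?_
    simp only [P, mul_sum, bothSets, sepSets, sum_filter, mul_ite, mul_zero]
    rw [sum_comm, sum_comm (γ := α) (t := slice α a)]
    refine sum_congr rfl fun S _ => ?_
    by_cases hz : z ∈ S
    · simp only [hz, true_and]
      rw [← sum_filter, filter_mem_eq_inter, univ_inter, sum_comm, ← sum_filter,
        show univ.filter (fun v => v ∉ S) = Sᶜ by ext; simp]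
      refine sum_congr rfl fun v _ => ?_
      rw [← add_sum_erase S _ hz, h0, zero_mul, zero_add]
      exact sum_congr rfl fun w _ => mul_comm _ _
    · simp [hz]
  have eM : ∑ z, ∑ w, k z w * M z w =
      ∑ x, ∑ y, ∑ S ∈ sepSets a x y,
        (F (exch S x y) - F S) * ∑ w ∈ others x y \ S.erase x, k y w := by
    rw [sum_comm (γ := α)]
    conv_rhs => rw [sum_comm]
    rw [sum_comm]
    refine sum_congr rfl fun z _ => ?_
    simp only [M, mul_sum, noneSets, sepSets, sum_filter, mul_ite, mul_zero]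
    rw [sum_comm, sum_comm (γ := α) (t := slice α a)]
    refine sum_congr rfl fun S _ => ?_
    by_cases hz : z ∈ S
    · simp [hz]
    · simp only [hz, not_false_eq_true, true_and, and_true]
      rw [← sum_filter, sum_comm, ← sum_filter, filter_mem_eq_inter, univ_inter]
      refine sum_congr rfl fun v hv => ?_
      have hs' : others v z \ S.erase v = (univ.filter fun w => w ∉ S).erase z := by
        ext w
        simp only [others, mem_sdiff, mem_erase, mem_univ, and_true, mem_filter, true_and]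
        constructor
        · rintro ⟨⟨h1, h2⟩, h3⟩
          exact ⟨h1, fun h => h3 ⟨h2, h⟩⟩
        · rintro ⟨h1, h2⟩
          exact ⟨⟨h1, fun e => h2 (e ▸ hv)⟩, fun h => h2 h.2⟩
      rw [hs', ← add_sum_erase (univ.filter fun w => w ∉ S) _ (by simp [hz] : z ∈ _), h0,
        zero_mul, zero_add]
      exact sum_congr rfl fun w _ => mul_comm _ _
  rw [eP, eM]
  set L1 := fun x y (S : Finset α) => (F (exch S x y) - F S) *
    ((∑ w ∈ S.erase x, k x w) / b + (∑ w ∈ others x y \ S.erase x, k y w) / a)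
  have hL : (∑ x, ∑ y, ∑ S ∈ sepSets a x y, (F (exch S x y) - F S) * ∑ w ∈ S.erase x, k x w) / b +
      (∑ x, ∑ y, ∑ S ∈ sepSets a x y,
        (F (exch S x y) - F S) * ∑ w ∈ others x y \ S.erase x, k y w) / a =
      ∑ x, ∑ y, ∑ S ∈ sepSets a x y, L1 x y S := by
    simp only [L1, mul_add, sum_add_distrib, mul_div_assoc', ← sum_div]
  rw [hL]
  have := reverse_edges a L1
  have avg : ∀ x y, ∀ S ∈ sepSets a x y, L1 x y S + L1 y x (exch S x y) =
      2 * ((F (exch S x y) - F S) * load a k x y (S.erase x)) := by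
    intro x y S hS
    obtain ⟨-, h2, h3⟩ := exch_back hS
    simp only [L1, h2, h3, load, sum_sub_distrib, ← hD, ← hbdef]
    rw [show others y x = others x y by simp only [others, erase_right_comm]]
    field_simp
    ring
  have h2 : 2 * ∑ x, ∑ y, ∑ S ∈ sepSets a x y, L1 x y S =
      2 * ∑ x, ∑ y, ∑ S ∈ sepSets a x y, (F (exch S x y) - F S) * load a k x y (S.erase x) := by
    rw [two_mul]
    nth_rewrite 2 [this]
    simp only [← sum_add_distrib, mul_sum]
    exact sum_congr rfl fun x _ => sum_congr rfl fun y _ => sum_congr rfl fun S hS => avg x y S hS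
  linarith

theorem load_sq_le (a : ℕ) (ha : 1 ≤ a) (hb : a < Fintype.card α) (k : α → α → ℝ)
    (hs : ∀ x y, k x y = k y x) (h0 : ∀ x, k x x = 0) :
    ∑ x, ∑ y, ∑ S ∈ sepSets a x y, load a k x y (S.erase x) ^ 2 ≤
      ((Fintype.card α - 2).choose (a - 1) : ℝ) *
        ((Fintype.card α : ℝ) * ((Fintype.card α : ℝ) - 1) /
          (2 * a * ((Fintype.card α : ℝ) - a))) ^ 2 * ∑ x, ∑ y, k x y ^ 2 := by
  have hD2 : 2 ≤ Fintype.card α := by omega
  set D : ℝ := (Fintype.card α : ℝ) with hD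
  set A : ℝ := (a : ℝ) with hA
  set b : ℝ := D - A with hbdef
  set m : ℝ := ((Fintype.card α - 2).choose (a - 1) : ℝ)
  set W := ∑ x, ∑ y, k x y ^ 2
  have hA1 : 1 ≤ A := by rw [hA]; exact_mod_cast ha
  have hb1 : 1 ≤ b := by
    have : (a : ℝ) + 1 ≤ D := by rw [hD]; exact_mod_cast hb
    linarith
  set J : ℝ := 1 / (2 * A) + 1 / (2 * b)
  set μ : ℝ := -(1 / (2 * A)) + J * (A - 1) / (D - 2)
  set P : ℝ := (A - 1) * (b - 1) / ((D - 2) * (D - 3))
  have per : ∀ x y, ∑ S ∈ sepSets a x y, load a k x y (S.erase x) ^ 2 ≤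
      m * (μ ^ 2 * ((∑ w, k x w) - ∑ w, k y w) ^ 2 +
        J ^ 2 * P * ∑ w ∈ others x y, (k x w - k y w) ^ 2) := by
    intro x y
    have hP : 0 ≤ P := by
      simp only [P]
      rcases Nat.lt_or_ge (Fintype.card α) 4 with h | h
      · rcases (show a = 1 ∨ a + 1 = Fintype.card α by omega) with h' | h'
        · simp [hA, h']
        · have : b = 1 := by
            rw [hbdef, hA, hD, ← h']; push_cast; ring
          simp [this]
      · have : (4 : ℝ) ≤ D := by rw [hD]; exact_mod_cast h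
        exact div_nonneg (mul_nonneg (by linarith) (by linarith))
          (mul_nonneg (by linarith) (by linarith))
    rcases eq_or_ne x y with rfl | hxy
    · have : sepSets a x x = ∅ := filter_eq_empty_iff.2 fun S _ h => h.2 h.1
      rw [this, sum_empty]
      positivity
    rw [sum_sepSets hxy ha]
    have e1 : ∀ R ∈ (others x y).powersetCard (a - 1),
        load a k x y ((insert x R).erase x) = -(1 / (2 * A)) * ∑ w ∈ others x y, (k x w - k y w) +
          J * ∑ w ∈ R, (k x w - k y w) := by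
      intro R hR
      rw [mem_powersetCard] at hR
      rw [erase_insert (fun e => by simpa [others] using hR.1 e), load, ← sum_sdiff hR.1]
      simp only [J, ← hD, ← hA, ← hbdef]
      field_simp
      ring
    rw [sum_congr rfl fun R hR => by rw [e1 R hR]]
    refine (second_moment_le _ _ (by rw [card_others hxy]; omega) _ _ _).trans (le_of_eq ?_)
    have eY : ∑ w ∈ others x y, (k x w - k y w) = (∑ w, k x w) - ∑ w, k y w := by
      rw [others, sum_erase_eq_sub (by simp [hxy.symm]), sum_erase_eq_sub (mem_univ _),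
        sum_sub_distrib, h0, h0, hs y x]
      ring
    rw [eY, card_others hxy]
    have c1 : ((a - 1 : ℕ) : ℝ) = A - 1 := by rw [Nat.cast_sub ha, Nat.cast_one]
    have c2 : ((Fintype.card α - 2 : ℕ) : ℝ) = D - 2 := by rw [Nat.cast_sub hD2, Nat.cast_ofNat]
    rw [c1, c2, show D - 2 - (A - 1) = b - 1 by simp only [b]; ring,
      show D - 2 - 1 = D - 3 by ring]
  refine (sum_le_sum fun x _ => sum_le_sum fun y _ => per x y).trans ?_
  simp only [← mul_sum, sum_add_distrib]
  rw [mul_assoc m]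
  refine mul_le_mul_of_nonneg_left ?_ (show (0 : ℝ) ≤ m from Nat.cast_nonneg _)
  have hW : 0 ≤ W := sum_nonneg fun _ _ => sum_nonneg fun _ _ => sq_nonneg _
  have r1 := row_bound k hs h0 hD2
  have r2 := col_bound k hs h0
  have hcoef : μ ^ 2 * (D * (D - 2)) + J ^ 2 * P * (2 * (D - 1)) ≤
      (D * (D - 1) / (2 * A * b)) ^ 2 ∧ 0 ≤ P := by
    have hJ : J = D / (2 * A * b) := by
      simp only [J]; field_simp; simp only [b]; ring
    rcases Nat.lt_or_ge (Fintype.card α) 4 with h | h
    · have hP : P = 0 := by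
        rcases (show a = 1 ∨ a + 1 = Fintype.card α by omega) with h' | h'
        · simp [P, hA, h']
        · have : b = 1 := by
            rw [hbdef, hA, hD, ← h']; push_cast; ring
          simp [P, this]
      rcases (show Fintype.card α = 2 ∨ Fintype.card α = 3 by omega) with h' | h'
      · have : D = 2 := by rw [hD, h']; norm_num
        rw [hP, this]
        refine ⟨?_, le_rfl⟩
        nlinarith [sq_nonneg (2 * (2 - 1) / (2 * A * b))]
      · have hD3 : D = 3 := by rw [hD, h']; norm_num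
        refine ⟨?_, hP.ge⟩
        rcases (show a = 1 ∨ a = 2 by omega) with h'' | h''
        · have : A = 1 := by rw [hA, h'']; norm_num
          rw [hP]; simp only [μ, J, b, this, hD3]; norm_num
        · have : A = 2 := by rw [hA, h'']; norm_num
          rw [hP]; simp only [μ, J, b, this, hD3]; norm_num
    · have h4 : (4 : ℝ) ≤ D := by rw [hD]; exact_mod_cast h
      have hμ : μ = (D - 1) * (A - b) / (2 * A * b * (D - 2)) := by
        have : D - 2 ≠ 0 := by linarith
        simp only [μ, hJ]; field_simp; simp only [b]; ring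
      have hP0 : 0 ≤ (A - 1) * (b - 1) := mul_nonneg (by linarith) (by linarith)
      refine ⟨?_, div_nonneg hP0 (mul_nonneg (by linarith) (by linarith))⟩
      rw [hμ, hJ]
      simp only [P]
      rw [show ((D - 1) * (A - b) / (2 * A * b * (D - 2))) ^ 2 * (D * (D - 2)) +
          (D / (2 * A * b)) ^ 2 * ((A - 1) * (b - 1) / ((D - 2) * (D - 3))) * (2 * (D - 1)) =
        D * (D - 1) / ((2 * A * b) ^ 2 * (D - 2)) *
          ((D - 1) * (A - b) ^ 2 + 2 * D * ((A - 1) * (b - 1)) / (D - 3)) by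
        have : D - 2 ≠ 0 := by linarith
        have : D - 3 ≠ 0 := by linarith
        field_simp]
      rw [show (D * (D - 1) / (2 * A * b)) ^ 2 =
        D * (D - 1) / ((2 * A * b) ^ 2 * (D - 2)) * (D * (D - 1) * (D - 2)) by
        have : D - 2 ≠ 0 := by linarith
        field_simp]
      refine mul_le_mul_of_nonneg_left ?_ ?_
      · have e : (A - b) ^ 2 = (D - 2) ^ 2 - 4 * ((A - 1) * (b - 1)) := by
          simp only [b]; ring
        have : 2 * D * ((A - 1) * (b - 1)) / (D - 3) ≤ 4 * (D - 1) * ((A - 1) * (b - 1)) := by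
          rw [div_le_iff₀ (by linarith)]
          nlinarith [mul_nonneg hP0 (show 0 ≤ 4 * (D - 1) * (D - 3) - 2 * D by nlinarith)]
        rw [e]
        nlinarith [mul_nonneg (show 0 ≤ D - 1 by linarith) (show 0 ≤ D - 2 by linarith)]
      · exact div_nonneg (mul_nonneg (by linarith) (by linarith))
          (mul_nonneg (sq_nonneg _) (by linarith))
  calc μ ^ 2 * ∑ x, ∑ y, ((∑ w, k x w) - ∑ w, k y w) ^ 2 +
      J ^ 2 * P * ∑ x, ∑ y, ∑ w ∈ others x y, (k x w - k y w) ^ 2
      ≤ μ ^ 2 * (D * (D - 2) * W) + J ^ 2 * P * (2 * (D - 1) * W) :=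
        add_le_add (mul_le_mul_of_nonneg_left r1 (sq_nonneg _))
          (mul_le_mul_of_nonneg_left r2 (mul_nonneg (sq_nonneg _) hcoef.2))
    _ ≤ (D * (D - 1) / (2 * A * b)) ^ 2 * W := by nlinarith [hcoef.1]

theorem choose_two_step {D a : ℕ} (ha : 1 ≤ a) (hb : a < D) :
    (D.choose a : ℝ) * (a * ((D : ℝ) - a)) = ((D - 2).choose (a - 1) : ℝ) * (D * ((D : ℝ) - 1)) := by
  obtain ⟨c, rfl⟩ : ∃ c, D = c + 2 := ⟨D - 2, by omega⟩
  obtain ⟨e, rfl⟩ : ∃ e, a = e + 1 := ⟨a - 1, by omega⟩
  have h1 := Nat.add_one_mul_choose_eq (c + 1) e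
  have h2 := Nat.choose_mul_succ_eq c e
  have h1' : ((c : ℝ) + 2) * ((c + 1).choose e : ℝ) =
      ((c + 2).choose (e + 1) : ℝ) * ((e : ℝ) + 1) := by
    have : ((c + 1 + 1) * (c + 1).choose e : ℕ) = (c + 1 + 1).choose (e + 1) * (e + 1) := h1
    have := congrArg (fun t : ℕ => (t : ℝ)) this
    push_cast at this
    linarith
  have h2' : (c.choose e : ℝ) * ((c : ℝ) + 1) = ((c + 1).choose e : ℝ) * ((c : ℝ) + 1 - e) := by
    have := congrArg (fun t : ℕ => (t : ℝ)) h2
    rw [Nat.cast_mul, Nat.cast_mul, Nat.cast_sub (by omega)] at this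
    push_cast at this
    linarith
  simp only [Nat.add_sub_cancel]
  push_cast
  linear_combination -((c : ℝ) + 1 - e) * h1' - ((c : ℝ) + 2) * h2'

theorem slice_pair_bound (a : ℕ) (F : Finset α → ℝ) :
    ∑ z, ∑ w, ((sepSets a z w).card : ℝ) *
        ((∑ S ∈ sepSets a z w, F S + ∑ S ∈ sepSets a w z, F S) / (2 * (sepSets a z w).card)
          - (∑ S ∈ slice α a, F S) / (slice α a).card) ^ 2
      ≤ ∑ z, ∑ w, ∑ S ∈ sepSets a z w, ((F S - F (insert w (S.erase z))) / 2) ^ 2 := by
  rcases Nat.eq_zero_or_pos a with rfl | ha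
  · have : ∀ z w : α, sepSets 0 z w = ∅ := fun z w => filter_eq_empty_iff.2 fun S hS h => by
      rw [mem_slice, card_eq_zero] at hS; simp [hS] at h
    simp [this]
  rcases Nat.lt_or_ge a (Fintype.card α) with hb | hb
  swap
  · have : ∀ z w : α, sepSets a z w = ∅ := fun z w => filter_eq_empty_iff.2 fun S hS h => by
      rw [mem_slice] at hS
      exact h.2 (by rw [(card_eq_iff_eq_univ S).1 (le_antisymm (card_le_univ S) (hS ▸ hb))]
                    exact mem_univ w)
    simp [this]
  set D : ℝ := (Fintype.card α : ℝ) with hD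
  set m : ℝ := ((Fintype.card α - 2).choose (a - 1) : ℝ) with hm
  have hbR : (a : ℝ) < D := by rw [hD]; exact_mod_cast hb
  have haR : (1 : ℝ) ≤ a := by exact_mod_cast ha
  have hm0 : 0 < m := by rw [hm]; exact_mod_cast Nat.choose_pos (by omega)
  have hN : ((slice α a).card : ℝ) = ((Fintype.card α).choose a : ℝ) := by
    simp [slice, card_powersetCard]
  set N : ℝ := ((slice α a).card : ℝ)
  have hN0 : 0 < N := by rw [hN]; exact_mod_cast Nat.choose_pos hb.le
  set C : ℝ := D * (D - 1) / (2 * a * (D - a))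
  have hC : N = 2 * m * C := by
    rw [hN]
    simp only [C]
    have := choose_two_step ha hb
    have : D - a ≠ 0 := by linarith
    field_simp
    rw [← hD] at *
    linarith
  set k : α → α → ℝ := fun z w => if z = w then 0 else
    (∑ S ∈ sepSets a z w, F S + ∑ S ∈ sepSets a w z, F S) / (2 * m) -
      (∑ S ∈ slice α a, F S) / N with hk
  have hs : ∀ z w, k z w = k w z := fun z w => by
    simp only [k, eq_comm (a := z), add_comm (∑ S ∈ sepSets a z w, F S)]
  have h0 : ∀ z, k z z = 0 := fun z => by simp [k]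
  have lhs : ∀ z w, ((sepSets a z w).card : ℝ) *
      ((∑ S ∈ sepSets a z w, F S + ∑ S ∈ sepSets a w z, F S) / (2 * (sepSets a z w).card)
        - (∑ S ∈ slice α a, F S) / N) ^ 2 = m * k z w ^ 2 := by
    intro z w
    rcases eq_or_ne z w with rfl | h
    · rw [show sepSets a z z = ∅ from filter_eq_empty_iff.2 fun S _ h => h.2 h.1]
      simp [h0]
    · simp only [k, if_neg h, card_sepSets h ha, ← hm]
  have fl := flow_identity a ha hb F k hs h0
  set W := ∑ z, ∑ w, k z w ^ 2
  have hfl : ∑ z, ∑ w, k z w * (C * (∑ S ∈ sepSets a z w, F S + ∑ S ∈ sepSets a w z, F S) -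
      ∑ S ∈ slice α a, F S) = N * W := by
    simp only [W, mul_sum]
    refine sum_congr rfl fun z _ => sum_congr rfl fun w _ => ?_
    rcases eq_or_ne z w with rfl | h
    · simp [h0]
    simp only [k, if_neg h]
    have e1 : ∀ T : ℝ, C * T = N * (T / (2 * m)) := fun T => by
      rw [hC]; field_simp
    rw [e1]
    field_simp
  rw [show (∑ z, ∑ w, ((sepSets a z w).card : ℝ) *
      ((∑ S ∈ sepSets a z w, F S + ∑ S ∈ sepSets a w z, F S) / (2 * (sepSets a z w).card)
        - (∑ S ∈ slice α a, F S) / N) ^ 2) = m * W by simp only [lhs, W, mul_sum]]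
  set E := ∑ z, ∑ w, ∑ S ∈ sepSets a z w, ((F S - F (insert w (S.erase z))) / 2) ^ 2
  set L := ∑ x, ∑ y, ∑ S ∈ sepSets a x y, load a k x y (S.erase x) ^ 2
  have hcs : (N * W) ^ 2 ≤ (4 * E) * L := by
    have hE4 : 4 * E = ∑ x, ∑ y, ∑ S ∈ sepSets a x y, (F (exch S x y) - F S) ^ 2 := by
      simp only [E, mul_sum, exch]
      exact sum_congr rfl fun x _ => sum_congr rfl fun y _ => sum_congr rfl fun S _ => by ring
    rw [← hfl, fl, hE4]
    have flat : ∀ G : α → α → Finset α → ℝ, ∑ x, ∑ y, ∑ S ∈ sepSets a x y, G x y S =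
        ∑ p ∈ (univ : Finset α).sigma fun x => (univ : Finset α).sigma (sepSets a x),
          G p.1 p.2.1 p.2.2 := fun G => by simp only [sum_sigma]
    simp only [L]
    rw [flat, flat, flat]
    exact sum_mul_sq_le_sq_mul_sq (R := ℝ) _ _ _
  have hL : L ≤ m * C ^ 2 * W := load_sq_le a ha hb k hs h0
  have hE : 0 ≤ E := sum_nonneg fun _ _ => sum_nonneg fun _ _ => sum_nonneg fun _ _ => sq_nonneg _
  have hW : 0 ≤ W := sum_nonneg fun _ _ => sum_nonneg fun _ _ => sq_nonneg _
  rcases hW.eq_or_lt with h | h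
  · rw [← h, mul_zero]; exact hE
  have hC0 : C ≠ 0 := fun e => by rw [e, mul_zero] at hC; linarith
  have key : (N * W) ^ 2 ≤ 4 * E * (m * C ^ 2 * W) :=
    hcs.trans (mul_le_mul_of_nonneg_left hL (by positivity))
  rw [hC] at key
  refine le_of_mul_le_mul_left (a := 4 * (m * C ^ 2 * W)) ?_ (by positivity)
  nlinarith [key]

theorem exists_perm_map {a : ℕ} {S T : Finset α} (hS : S ∈ slice α a) (hT : T ∈ slice α a) :
    ∃ π : Equiv.Perm α, S.image π = T := by
  rw [mem_slice] at hS hT
  have e : {x // x ∈ S} ≃ {x // x ∈ T} :=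
    Fintype.equivOfCardEq (by simp [hS, hT])
  refine ⟨e.extendSubtype, eq_of_subset_of_card_le ?_ ?_⟩
  · intro x hx
    obtain ⟨y, hy, rfl⟩ := mem_image.1 hx
    exact e.extendSubtype_mem y hy
  · rw [card_image_of_injective _ e.extendSubtype.injective, hS, hT]

theorem swap_path (f : Equiv.Perm α → ℝ) (B : ℝ) (hB0 : 0 ≤ B)
    (hB : ∀ i j, i ≠ j → ∑ σ, (f (σ * Equiv.swap i j) - f σ) ^ 2 ≤ B) :
    ∀ (k : ℕ) (τ : Equiv.Perm α), τ.support.card ≤ k →
      ∑ σ, (f (σ * τ) - f σ) ^ 2 ≤ (k : ℝ) ^ 2 * B := by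
  intro k
  induction k with
  | zero =>
    intro τ hτ
    rw [Nat.le_zero, card_eq_zero, Equiv.Perm.support_eq_empty_iff] at hτ
    simp [hτ]
  | succ k ih =>
    intro τ hτ
    by_cases h1 : τ = 1
    · subst h1; simp; positivity
    obtain ⟨x, hx⟩ : ∃ x, τ x ≠ x := by
      by_contra h; push Not at h; exact h1 (Equiv.ext fun x => h x)
    set s := Equiv.swap x (τ x)
    set τ' := s * τ
    have hlt : τ'.support.card < τ.support.card := Equiv.Perm.card_support_swap_mul hx
    have hτ' := ih τ' (by omega)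
    have he : τ = s * τ' := (Equiv.swap_mul_self_mul x (τ x) τ).symm
    have hr : ∑ σ, (f (σ * s * τ') - f (σ * s)) ^ 2 = ∑ σ, (f (σ * τ') - f σ) ^ 2 :=
      Equiv.sum_comp (Equiv.mulRight s) fun σ => (f (σ * τ') - f σ) ^ 2
    have hs' := hB x (τ x) (Ne.symm hx)
    rcases Nat.eq_zero_or_pos k with rfl | hk
    · have : τ' = 1 := Equiv.Perm.support_eq_empty_iff.1 (card_eq_zero.1 (by omega))
      rw [he, this, mul_one]
      simpa using hs'
    have hkR : (1 : ℝ) ≤ k := by exact_mod_cast hk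
    calc ∑ σ, (f (σ * τ) - f σ) ^ 2
        ≤ ∑ σ, (((k : ℝ) + 1) * (f (σ * s) - f σ) ^ 2 +
            ((k : ℝ) + 1) / k * (f (σ * s * τ') - f (σ * s)) ^ 2) := by
          refine sum_le_sum fun σ _ => ?_
          rw [he, ← mul_assoc, div_mul_eq_mul_div]
          set u := f (σ * s) - f σ
          set v := f (σ * s * τ') - f (σ * s)
          rw [show f (σ * s * τ') - f σ = v + u by simp only [u, v]; ring]
          have h2 : 0 ≤ ((k : ℝ) * u - v) ^ 2 / k := by positivity
          have e : ((k : ℝ) + 1) * u ^ 2 + ((k : ℝ) + 1) * v ^ 2 / k - (v + u) ^ 2 =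
              ((k : ℝ) * u - v) ^ 2 / k := by
            field_simp
            ring
          linarith
      _ ≤ ((k : ℝ) + 1) * B + ((k : ℝ) + 1) / k * ((k : ℝ) ^ 2 * B) := by
          rw [sum_add_distrib, ← mul_sum, ← mul_sum, hr]
          exact add_le_add (mul_le_mul_of_nonneg_left hs' (by positivity))
            (mul_le_mul_of_nonneg_left hτ' (by positivity))
      _ = ((k + 1 : ℕ) : ℝ) ^ 2 * B := by
          push_cast
          field_simp
          ring

theorem slice_poincare (a : ℕ) (F : Finset α → ℝ) :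
    ∑ S ∈ slice α a, ∑ T ∈ slice α a, (F S - F T) ^ 2
      ≤ ((slice α a).card : ℝ) * ((Fintype.card α : ℝ) ^ 2) *
        ∑ z, ∑ w, ∑ S ∈ sepSets a z w, (F S - F (insert w (S.erase z))) ^ 2 := by
  rcases (slice α a).eq_empty_or_nonempty with he | ⟨S₀, hS₀⟩
  · simp [he]
  set img : Equiv.Perm α → Finset α := fun σ => S₀.image σ
  set E := ∑ z, ∑ w, ∑ S ∈ sepSets a z w, (F S - F (insert w (S.erase z))) ^ 2
  set K : ℕ := (univ.filter fun σ => img σ = S₀).card
  have hmem : ∀ σ, img σ ∈ slice α a := fun σ => by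
    rw [mem_slice, card_image_of_injective _ σ.injective, ← mem_slice]; exact hS₀
  have hfib : ∀ S ∈ slice α a, (univ.filter fun σ => img σ = S).card = K := by
    intro S hS
    obtain ⟨π, hπ⟩ := exists_perm_map hS₀ hS
    refine card_nbij' (fun σ => π⁻¹ * σ) (fun σ => π * σ) ?_ ?_ ?_ ?_
    · intro σ hσ
      simp only [mem_coe, mem_filter, mem_univ, true_and, img] at hσ ⊢
      rw [Equiv.Perm.coe_mul, ← image_image, hσ, ← hπ, image_image]
      simp
    · intro σ hσ
      simp only [mem_coe, mem_filter, mem_univ, true_and, img] at hσ ⊢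
      rw [Equiv.Perm.coe_mul, ← image_image, hσ, hπ]
    · intro σ _; simp
    · intro σ _; simp
  have hK : 0 < K := card_pos.2 ⟨1, by simp [img]⟩
  have hsum : ∀ G : Finset α → ℝ, ∑ σ, G (img σ) = (K : ℝ) * ∑ S ∈ slice α a, G S := by
    intro G
    rw [← sum_fiberwise_of_maps_to (fun σ _ => hmem σ), mul_sum]
    refine sum_congr rfl fun S hS => ?_
    rw [sum_congr rfl fun σ hσ => congrArg G (mem_filter.1 hσ).2, sum_const, hfib S hS,
      nsmul_eq_mul]
  set f : Equiv.Perm α → ℝ := fun σ => F (img σ)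
  set q := fun i j => ∑ σ, (f (σ * Equiv.swap i j) - f σ) ^ 2
  have hq0 : ∀ i j, 0 ≤ q i j := fun i j => sum_nonneg fun _ _ => sq_nonneg _
  have hq : ∑ i, ∑ j, q i j = 2 * (K : ℝ) * E := by
    have e1 : ∑ i, ∑ j, q i j =
        ∑ σ : Equiv.Perm α, ∑ z, ∑ w, (F ((img σ).image (Equiv.swap z w)) - F (img σ)) ^ 2 := by
      simp only [q, f, img]
      rw [sum_congr rfl fun i _ => sum_comm, sum_comm]
      refine sum_congr rfl fun σ _ => ?_
      conv_rhs => rw [← Equiv.sum_comp σ]
      refine sum_congr rfl fun i _ => ?_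
      conv_rhs => rw [← Equiv.sum_comp σ]
      refine sum_congr rfl fun j _ => ?_
      rw [image_image, ← Equiv.Perm.coe_mul, Equiv.mul_swap_eq_swap_mul]
    rw [e1, hsum fun S => ∑ z, ∑ w, (F (S.image (Equiv.swap z w)) - F S) ^ 2]
    rw [mul_comm 2 (K : ℝ), mul_assoc]
    congr 1
    have himg : ∀ (S : Finset α) z w, z ∈ S → w ∉ S →
        S.image (Equiv.swap z w) = insert w (S.erase z) := by
      intro S z w hz hw
      conv_lhs => rw [← insert_erase hz]
      rw [image_insert, Equiv.swap_apply_left]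
      congr 1
      conv_rhs => rw [← image_id (s := S.erase z)]
      refine image_congr fun t ht => ?_
      simp only [mem_coe, mem_erase] at ht
      exact Equiv.swap_apply_of_ne_of_ne ht.1 fun e => hw (e ▸ ht.2)
    have hsame : ∀ (S : Finset α) z w, (z ∈ S ↔ w ∈ S) → S.image (Equiv.swap z w) = S := by
      intro S z w h
      refine eq_of_subset_of_card_le (fun t ht => ?_)
        (card_image_of_injective _ (Equiv.swap z w).injective).ge
      obtain ⟨u, hu, rfl⟩ := mem_image.1 ht
      rw [Equiv.swap_apply_def]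
      split_ifs with h1 h2
      · exact h.1 (h1 ▸ hu)
      · exact h.2 (h2 ▸ hu)
      · exact hu
    have pt : ∀ (S : Finset α) z w, (F (S.image (Equiv.swap z w)) - F S) ^ 2 =
        (if z ∈ S ∧ w ∉ S then (F S - F (insert w (S.erase z))) ^ 2 else 0) +
          (if w ∈ S ∧ z ∉ S then (F S - F (insert z (S.erase w))) ^ 2 else 0) := by
      intro S z w
      by_cases hz : z ∈ S <;> by_cases hw : w ∈ S
      · simp [hsame S z w (by tauto), hz, hw]
      · simp [hz, hw, himg S z w hz hw]; ring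
      · simp [hz, hw, Equiv.swap_comm z w, himg S w z hw hz]; ring
      · simp [hsame S z w (by tauto), hz, hw]
    simp only [pt, sum_add_distrib]
    rw [two_mul]
    congr 1
    · rw [sum_comm]
      refine sum_congr rfl fun z _ => ?_
      rw [sum_comm]
      exact sum_congr rfl fun w _ => (sum_filter _ _).symm
    · rw [sum_congr rfl fun S _ => sum_comm, sum_comm]
      refine sum_congr rfl fun z _ => ?_
      rw [sum_comm]
      exact sum_congr rfl fun w _ => (sum_filter _ _).symm
  have hB : ∀ i j, i ≠ j → q i j ≤ (K : ℝ) * E := by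
    intro i j hij
    have h1 : q i j + q j i ≤ ∑ i, ∑ j, q i j := by
      have hs : q j i = q i j := by simp only [q, Equiv.swap_comm]
      calc q i j + q j i ≤ ∑ b, q i b + ∑ b, q j b :=
            add_le_add (single_le_sum (fun b _ => hq0 i b) (mem_univ j))
              (single_le_sum (fun b _ => hq0 j b) (mem_univ i))
        _ = ∑ x ∈ {i, j}, ∑ b, q x b := (sum_pair (f := fun x => ∑ b, q x b) hij).symm
        _ ≤ ∑ x, ∑ b, q x b :=
            sum_le_sum_of_subset_of_nonneg (subset_univ _) fun x _ _ =>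
              sum_nonneg fun b _ => hq0 x b
    have hs : q j i = q i j := by simp only [q, Equiv.swap_comm]
    rw [hq, hs] at h1
    linarith
  have hE : 0 ≤ E := sum_nonneg fun _ _ => sum_nonneg fun _ _ => sum_nonneg fun _ _ => sq_nonneg _
  have hpath := swap_path f ((K : ℝ) * E) (by positivity) hB (Fintype.card α)
  have htot : ∑ σ, ∑ τ, (f τ - f σ) ^ 2 ≤
      (Fintype.card (Equiv.Perm α) : ℝ) * ((Fintype.card α : ℝ) ^ 2 * ((K : ℝ) * E)) := by
    rw [sum_congr rfl fun σ _ => (Equiv.sum_comp (Equiv.mulLeft σ) fun τ => (f τ - f σ) ^ 2).symm,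
      sum_comm, ← card_univ, ← nsmul_eq_mul, ← sum_const]
    exact sum_le_sum fun τ _ => hpath τ (card_le_univ _)
  have hcard : (Fintype.card (Equiv.Perm α) : ℝ) = (K : ℝ) * (slice α a).card := by
    simpa using hsum fun _ => 1
  have hlhs : ∑ σ, ∑ τ, (f τ - f σ) ^ 2 =
      (K : ℝ) * ((K : ℝ) * ∑ S ∈ slice α a, ∑ T ∈ slice α a, (F S - F T) ^ 2) := by
    simp only [f]
    rw [hsum fun S => ∑ τ, (F (img τ) - F S) ^ 2, mul_sum (a := (K : ℝ))
      (f := fun S => ∑ T ∈ slice α a, (F S - F T) ^ 2)]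
    congr 1
    refine sum_congr rfl fun S _ => ?_
    rw [hsum fun T => (F T - F S) ^ 2]
    congr 1
    exact sum_congr rfl fun T _ => by ring
  rw [hlhs, hcard] at htot
  have hK' : (0 : ℝ) < (K : ℝ) * K := by positivity
  refine le_of_mul_le_mul_left ?_ hK'
  linarith

end Vale.Agent.P335
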