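import Vale.Agent.P335.Graph
import Vale.Agent.P335.Slice

/-! A fibre of a trade is a slice. -/

namespace Vale.Agent.P335

open Finset

variable {V : Type*} [Fintype V] [DecidableEq V] {d : V → ℕ}

/-- Vertices outside `p, q` adjacent to exactly one of them. -/
def excl (g : Real' d) (p q : V) : Finset V :=
  Finset.univ.filter fun x => x ≠ p ∧ x ≠ q ∧ g.1 p x ≠ g.1 q x

/-- The exclusive neighbours of `p`. -/
def toSet (g₀ : Real' d) (p q : V) (g : Real' d) : Finset {x // x ∈ excl g₀ p q} :=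
  Finset.univ.filter fun x => g.1 p x.1 = true

/-- The table with prescribed exclusive neighbours of `p`. -/
def ofSetTable (g₀ : Real' d) (p q : V) (S : Finset {x // x ∈ excl g₀ p q}) (i j : V) : Bool :=
  if hj : j ∈ excl g₀ p q then
    (if i = p then decide ((⟨j, hj⟩ : {x // x ∈ excl g₀ p q}) ∈ S)
     else if i = q then !decide ((⟨j, hj⟩ : {x // x ∈ excl g₀ p q}) ∈ S)
     else if hi : i ∈ excl g₀ p q then
      (if j = p then decide ((⟨i, hi⟩ : {x // x ∈ excl g₀ p q}) ∈ S)
       else if j = q then !decide ((⟨i, hi⟩ : {x // x ∈ excl g₀ p q}) ∈ S)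
       else g₀.1 i j)
     else g₀.1 i j)
  else if hi : i ∈ excl g₀ p q then
    (if j = p then decide ((⟨i, hi⟩ : {x // x ∈ excl g₀ p q}) ∈ S)
     else if j = q then !decide ((⟨i, hi⟩ : {x // x ∈ excl g₀ p q}) ∈ S)
     else g₀.1 i j)
  else g₀.1 i j

open Classical in
/-- The realisation with prescribed exclusive neighbours. -/
noncomputable def ofSet (g₀ : Real' d) (p q : V) (S : Finset {x // x ∈ excl g₀ p q}) : Real' d :=
  if h : IsReal d (ofSetTable g₀ p q S) then ⟨_, h⟩ else g₀

variable {g₀ : Real' d} {p q : V}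

theorem excl_ne {x : V} (h : x ∈ excl g₀ p q) : x ≠ p ∧ x ≠ q :=
  ⟨(Finset.mem_filter.1 h).2.1, (Finset.mem_filter.1 h).2.2.1⟩

theorem table_p (hpq : p ≠ q) (S : Finset {x // x ∈ excl g₀ p q}) (x : {x // x ∈ excl g₀ p q}) :
    ofSetTable g₀ p q S p x.1 = decide (x ∈ S) ∧ ofSetTable g₀ p q S q x.1 = !decide (x ∈ S) := by
  simp [ofSetTable, x.2, hpq.symm]

theorem table_other (S : Finset {x // x ∈ excl g₀ p q}) {i j : V}
    (h : ¬ ((i = p ∨ i = q) ∧ j ∈ excl g₀ p q) ∧ ¬ ((j = p ∨ j = q) ∧ i ∈ excl g₀ p q)) :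
    ofSetTable g₀ p q S i j = g₀.1 i j := by
  unfold ofSetTable
  obtain ⟨h1, h2⟩ := h
  split_ifs with a b c e f g k l m n <;> first | rfl | (exfalso; simp_all)

theorem table_symm (hpq : p ≠ q) (S : Finset {x // x ∈ excl g₀ p q}) (i j : V) :
    ofSetTable g₀ p q S i j = ofSetTable g₀ p q S j i := by
  by_cases hi : i ∈ excl g₀ p q <;> by_cases hj : j ∈ excl g₀ p q
  · simp [ofSetTable, hi, hj, (excl_ne hi).1, (excl_ne hi).2, (excl_ne hj).1, (excl_ne hj).2,
      g₀.symm i j]
  · rcases eq_or_ne j p with rfl | hjp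
    · simp [ofSetTable, hi, hj]
    rcases eq_or_ne j q with rfl | hjq
    · simp [ofSetTable, hi, hj, hjp]
    · simp [ofSetTable, hi, hj, hjp, hjq, g₀.symm i j]
  · rcases eq_or_ne i p with rfl | hip
    · simp [ofSetTable, hi, hj]
    rcases eq_or_ne i q with rfl | hiq
    · simp [ofSetTable, hi, hj, hip]
    · simp [ofSetTable, hi, hj, hip, hiq, g₀.symm i j]
  · simp [ofSetTable, hi, hj, g₀.symm i j]

theorem ofSetTable_real (hpq : p ≠ q) (S : Finset {x // x ∈ excl g₀ p q})
    (hS : S.card = (toSet g₀ p q g₀).card) : IsReal d (ofSetTable g₀ p q S) := by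
  classical
  refine ⟨table_symm hpq S, fun i => ?_, fun i => ?_⟩
  · rw [table_other S ⟨fun h => ?_, fun h => ?_⟩, g₀.irrefl]
    all_goals
      rcases h.1 with e | e
      · exact (excl_ne h.2).1 e
      · exact (excl_ne h.2).2 e
  rw [← g₀.degree i]
  by_cases hi : i = p ∨ i = q
  · rw [deg_split _ (excl g₀ p q) i, deg_split g₀.1 (excl g₀ p q) i]
    congr 1
    · rw [← Finset.sum_coe_sort (excl g₀ p q), ← Finset.sum_coe_sort (excl g₀ p q)
        (fun j => bn (g₀.1 i j))]
      rcases hi with rfl | rfl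
      · have e1 : ∑ x : {x // x ∈ excl g₀ i q}, bn (ofSetTable g₀ i q S i x.1) = S.card := by
          simp [table_p hpq S, bn] <;> (congr 1; ext; simp)
        have e2 : ∑ x : {x // x ∈ excl g₀ i q}, bn (g₀.1 i x.1) = (toSet g₀ i q g₀).card := by
          simp [toSet, bn]
        omega
      · have e1 : ∑ x : {x // x ∈ excl g₀ p i}, bn (ofSetTable g₀ p i S i x.1)
            + S.card = Fintype.card {x // x ∈ excl g₀ p i} := by
          have : ∀ x : {x // x ∈ excl g₀ p i},
              bn (ofSetTable g₀ p i S i x.1) + (if x ∈ S then 1 else 0) = 1 := by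
            intro x; rw [(table_p hpq S x).2]; by_cases h : x ∈ S <;> simp [h, bn]
          calc _ = ∑ x : {x // x ∈ excl g₀ p i},
                (bn (ofSetTable g₀ p i S i x.1) + (if x ∈ S then 1 else 0)) := by
                rw [Finset.sum_add_distrib, Finset.sum_boole]; simp <;> (congr 1; ext; simp)
            _ = _ := by simp [this]
        have e2 : ∑ x : {x // x ∈ excl g₀ p i}, bn (g₀.1 i x.1)
            + (toSet g₀ p i g₀).card = Fintype.card {x // x ∈ excl g₀ p i} := by
          have : ∀ x : {x // x ∈ excl g₀ p i}, bn (g₀.1 i x.1) + bn (g₀.1 p x.1) = 1 := by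
            intro x
            have h := (Finset.mem_filter.1 x.2).2.2.2
            revert h
            cases g₀.1 p x.1 <;> cases g₀.1 i x.1 <;> simp [bn]
          calc _ = ∑ x : {x // x ∈ excl g₀ p i}, (bn (g₀.1 i x.1) + bn (g₀.1 p x.1)) := by
                rw [Finset.sum_add_distrib]; simp [toSet, bn]
            _ = _ := by simp [this]
        omega
    · refine Finset.sum_congr rfl fun j hj => ?_
      rw [table_other S ⟨fun h => Finset.mem_compl.1 hj h.2, fun h => ?_⟩]
      rcases hi with rfl | rfl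
      · exact (excl_ne h.2).1 rfl
      · exact (excl_ne h.2).2 rfl
  · by_cases hx : i ∈ excl g₀ p q
    · rw [deg_split _ ({p, q} : Finset V) i, deg_split g₀.1 ({p, q} : Finset V) i]
      congr 1
      · rw [Finset.sum_pair hpq, Finset.sum_pair hpq, table_symm hpq S i p, table_symm hpq S i q,
          (table_p hpq S ⟨i, hx⟩).1, (table_p hpq S ⟨i, hx⟩).2, g₀.symm i p, g₀.symm i q]
        have h := (Finset.mem_filter.1 hx).2.2.2
        revert h
        by_cases hm : (⟨i, hx⟩ : {x // x ∈ excl g₀ p q}) ∈ S <;>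
          cases g₀.1 p i <;> cases g₀.1 q i <;> simp [hm, bn]
      · refine Finset.sum_congr rfl fun j hj => ?_
        rw [table_other S ⟨fun h => hi h.1, fun h => ?_⟩]
        exact Finset.mem_compl.1 hj (by simpa using h.1)
    · refine Finset.sum_congr rfl fun j _ => ?_
      rw [table_other S ⟨fun h => hi h.1, fun h => hx h.2⟩]

theorem ofSet_val (hpq : p ≠ q) (S : Finset {x // x ∈ excl g₀ p q})
    (hS : S.card = (toSet g₀ p q g₀).card) : (ofSet g₀ p q S).1 = ofSetTable g₀ p q S := by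
  rw [ofSet, dif_pos (ofSetTable_real hpq S hS)]

theorem ofSet_key (hpq : p ≠ q) (S : Finset {x // x ∈ excl g₀ p q})
    (hS : S.card = (toSet g₀ p q g₀).card) :
    tradeKey {p, q} (ofSet g₀ p q S) = tradeKey {p, q} g₀ := by
  rw [tradeKey_eq_iff]
  intro i j hij
  rw [ofSet_val hpq S hS, table_other S ⟨fun h => ?_, fun h => ?_⟩]
  · have := hij.1 (by simpa using h.1)
    rcases (by simpa using this : j = p ∨ j = q) with e | e
    · exact (excl_ne h.2).1 e
    · exact (excl_ne h.2).2 e
  · have := hij.2 (by simpa using h.1)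
    rcases (by simpa using this : i = p ∨ i = q) with e | e
    · exact (excl_ne h.2).1 e
    · exact (excl_ne h.2).2 e

theorem toSet_ofSet (hpq : p ≠ q) (S : Finset {x // x ∈ excl g₀ p q})
    (hS : S.card = (toSet g₀ p q g₀).card) : toSet g₀ p q (ofSet g₀ p q S) = S := by
  ext x
  simp [toSet, ofSet_val hpq S hS, (table_p hpq S x).1]

theorem q_eq_not (hpq : p ≠ q) {g : Real' d} (hg : tradeKey {p, q} g = tradeKey {p, q} g₀) {x : V}
    (hx : x ∈ excl g₀ p q) : g.1 q x = !g.1 p x := by
  have hne := excl_ne hx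
  have h := tradeKey_col hg (v := x) (by simp [hne.1, hne.2])
  rw [Finset.sum_pair hpq, Finset.sum_pair hpq] at h
  simp only [g.symm x, g₀.symm x] at h
  have h' := (Finset.mem_filter.1 hx).2.2.2
  revert h h'
  cases g.1 p x <;> cases g.1 q x <;> cases g₀.1 p x <;> cases g₀.1 q x <;> simp [bn]

theorem same_outside (hpq : p ≠ q) {g : Real' d} (hg : tradeKey {p, q} g = tradeKey {p, q} g₀)
    {x : V} (hx : x ∉ excl g₀ p q) : g.1 p x = g₀.1 p x ∧ g.1 q x = g₀.1 q x := by
  by_cases h1 : x = p ∨ x = q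
  · have hm : x ∈ ({p, q} : Finset V) := by simpa using h1
    exact ⟨tradeKey_eq_iff.1 hg p x (by simp [hm]), tradeKey_eq_iff.1 hg q x (by simp [hm])⟩
  · push_neg at h1
    have h := tradeKey_col hg (v := x) (by simp [h1.1, h1.2])
    rw [Finset.sum_pair hpq, Finset.sum_pair hpq] at h
    simp only [g.symm x, g₀.symm x] at h
    have h' : g₀.1 p x = g₀.1 q x := by
      by_contra h'
      exact hx (Finset.mem_filter.2 ⟨Finset.mem_univ _, h1.1, h1.2, h'⟩)
    revert h h'
    cases g.1 p x <;> cases g.1 q x <;> cases g₀.1 p x <;> cases g₀.1 q x <;> simp [bn]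

theorem toSet_card (hpq : p ≠ q) {g : Real' d} (hg : tradeKey {p, q} g = tradeKey {p, q} g₀) :
    (toSet g₀ p q g).card = (toSet g₀ p q g₀).card := by
  have h1 := deg_split g.1 (excl g₀ p q) p
  have h2 := deg_split g₀.1 (excl g₀ p q) p
  rw [g.degree] at h1
  rw [g₀.degree] at h2
  have h3 : ∑ j ∈ (excl g₀ p q)ᶜ, bn (g.1 p j) = ∑ j ∈ (excl g₀ p q)ᶜ, bn (g₀.1 p j) :=
    Finset.sum_congr rfl fun j hj => by rw [(same_outside hpq hg (Finset.mem_compl.1 hj)).1]
  have e : ∀ f : Real' d, ∑ j ∈ excl g₀ p q, bn (f.1 p j) = (toSet g₀ p q f).card := fun f => by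
    rw [← Finset.sum_coe_sort (excl g₀ p q)]; simp [toSet, bn]
  rw [e] at h1 h2
  omega

theorem ofSet_toSet (hpq : p ≠ q) {g : Real' d} (hg : tradeKey {p, q} g = tradeKey {p, q} g₀) :
    ofSet g₀ p q (toSet g₀ p q g) = g := by
  apply Real'.ext'
  intro i j
  rw [ofSet_val hpq _ (toSet_card hpq hg)]
  have main : ∀ i j : V, (i = p ∨ i = q) → ofSetTable g₀ p q (toSet g₀ p q g) i j = g.1 i j := by
    intro i j hi
    by_cases hj : j ∈ excl g₀ p q
    · rcases hi with rfl | rfl
      · rw [(table_p hpq _ ⟨j, hj⟩).1]; simp [toSet]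
      · rw [(table_p hpq _ ⟨j, hj⟩).2, q_eq_not hpq hg hj]; simp [toSet]
    · rw [table_other _ ⟨fun h => hj h.2, fun h => ?_⟩]
      · rcases hi with rfl | rfl
        · exact (same_outside hpq hg hj).1.symm
        · exact (same_outside hpq hg hj).2.symm
      · rcases hi with rfl | rfl
        · exact (excl_ne h.2).1 rfl
        · exact (excl_ne h.2).2 rfl
  by_cases hi : i = p ∨ i = q
  · exact main i j hi
  by_cases hj : j = p ∨ j = q
  · rw [table_symm hpq, main j i hj, g.symm]
  rw [table_other _ ⟨fun h => hi h.1, fun h => hj h.1⟩]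
  exact (tradeKey_eq_iff.1 hg i j (by simp [hi, hj])).symm

/-- Summation over a fibre. -/
theorem sum_fibre (hpq : p ≠ q) (G : Real' d → ℝ) :
    ∑ g ∈ Finset.univ.filter (fun g => tradeKey {p, q} g = tradeKey {p, q} g₀), G g
      = ∑ S ∈ slice {x // x ∈ excl g₀ p q} (toSet g₀ p q g₀).card, G (ofSet g₀ p q S) := by
  refine Finset.sum_nbij' (toSet g₀ p q) (ofSet g₀ p q) ?_ ?_ ?_ ?_ ?_
  · intro g hg
    simp only [Finset.mem_coe, Finset.mem_filter, Finset.mem_univ, true_and] at hg
    simp [mem_slice, toSet_card hpq hg]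
  · intro S hS
    simp only [Finset.mem_coe, mem_slice] at hS
    simp [ofSet_key hpq S hS]
  · intro g hg
    simp only [Finset.mem_coe, Finset.mem_filter, Finset.mem_univ, true_and] at hg
    exact ofSet_toSet hpq hg
  · intro S hS
    simp only [Finset.mem_coe, mem_slice] at hS
    exact toSet_ofSet hpq S hS
  · intro g hg
    simp only [Finset.mem_filter, Finset.mem_univ, true_and] at hg
    rw [ofSet_toSet hpq hg]

end Vale.Agent.P335
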