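import Vale.Agent.P335.Disjoint
import Vale.Agent.P335.Fibre

/-! The disjoint part of the squared trade generator is nonnegative. -/

namespace Vale.Agent.P335

open Finset

variable {V : Type*} [Fintype V] [DecidableEq V] {d : V → ℕ}

theorem two_mul_sum_pairs {M : Type*} [AddCommMonoid M] (f : Finset V → M) :
    2 • ∑ a ∈ pairs V, f a = ∑ p, ∑ q, if p = q then 0 else f {p, q} := by
  have h : ∀ a ∈ pairs V, 2 • f a
      = ∑ p, ∑ q, if p ≠ q ∧ ({p, q} : Finset V) = a then f a else 0 := by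
    intro a ha
    obtain ⟨x, y, hxy, rfl⟩ := Finset.card_eq_two.1 (Finset.mem_powersetCard.1 ha).2
    rw [← Fintype.sum_prod_type']
    rw [Finset.sum_ite, Finset.sum_const_zero, add_zero, Finset.sum_const]
    congr 1
    have : (Finset.univ.filter fun z : V × V => z.1 ≠ z.2 ∧ ({z.1, z.2} : Finset V) = {x, y})
        = {(x, y), (y, x)} := by
      ext ⟨u, v⟩
      simp only [Finset.mem_filter, Finset.mem_univ, true_and, Finset.mem_insert,
        Finset.mem_singleton, Prod.mk.injEq]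
      constructor
      · rintro ⟨huv, e⟩
        have hu : u ∈ ({x, y} : Finset V) := e ▸ Finset.mem_insert_self u {v}
        have hv : v ∈ ({x, y} : Finset V) := e ▸ Finset.mem_insert_of_mem (Finset.mem_singleton_self v)
        simp only [Finset.mem_insert, Finset.mem_singleton] at hu hv
        rcases hu with rfl | rfl <;> rcases hv with rfl | rfl <;> simp_all
      · rintro (⟨rfl, rfl⟩ | ⟨rfl, rfl⟩)
        · exact ⟨hxy, rfl⟩
        · exact ⟨hxy.symm, Finset.pair_comm _ _⟩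
    rw [this, Finset.card_pair (by simp [hxy])]
  rw [← Finset.sum_nsmul, Finset.sum_congr rfl h, Finset.sum_comm]
  refine Finset.sum_congr rfl fun p _ => ?_
  rw [Finset.sum_comm]
  refine Finset.sum_congr rfl fun q _ => ?_
  by_cases hpq : p = q
  · simp [hpq]
  · simp only [ne_eq, hpq, not_false_iff, true_and, if_false]
    rw [Finset.sum_ite_eq, if_pos]
    exact Finset.mem_powersetCard.2 ⟨Finset.subset_univ _, Finset.card_pair hpq⟩

theorem sum_nonneg_of_fibres {Ω κ : Type*} [Fintype Ω] [DecidableEq κ] (k : Ω → κ) (h : Ω → ℝ)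
    (hh : ∀ g₀, 0 ≤ ∑ g ∈ Finset.univ.filter (fun g => k g = k g₀), h g) : 0 ≤ ∑ g, h g := by
  classical
  rw [← Finset.sum_fiberwise_of_maps_to (fun g _ => Finset.mem_image_of_mem k (Finset.mem_univ g))]
  refine Finset.sum_nonneg fun u hu => ?_
  obtain ⟨g₀, -, rfl⟩ := Finset.mem_image.1 hu
  exact hh g₀

open Classical in
/-- Summand attached to an ordered quadruple. -/
noncomputable def quadTerm (h : Quad V → ℝ) (p q z w : V) : ℝ :=
  if hd : p ≠ q ∧ z ≠ w ∧ p ≠ z ∧ p ≠ w ∧ q ≠ z ∧ q ≠ w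
    then h ⟨p, q, z, w, hd.1, hd.2.1, hd.2.2.1, hd.2.2.2.1, hd.2.2.2.2.1, hd.2.2.2.2.2⟩
    else 0

variable {g₀ : Real' d} {p q : V}

theorem bl_ofSet (c : Quad V) (hp : c.p = p) (hq : c.q = q)
    (S : Finset {x // x ∈ excl g₀ p q}) (hS : S.card = (toSet g₀ p q g₀).card)
    (hz : c.z ∈ excl g₀ p q) (hw : c.w ∈ excl g₀ p q) :
    c.bl (ofSet g₀ p q S) = (decide (⟨c.z, hz⟩ ∈ S), decide (⟨c.w, hw⟩ ∈ S),
      !decide (⟨c.z, hz⟩ ∈ S), !decide (⟨c.w, hw⟩ ∈ S)) := by
  have hpq : p ≠ q := hp ▸ hq ▸ c.pq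
  simp only [Quad.bl, blk, hp, hq, ofSet_val hpq S hS, (table_p hpq S ⟨c.z, hz⟩).1,
    (table_p hpq S ⟨c.z, hz⟩).2, (table_p hpq S ⟨c.w, hw⟩).1, (table_p hpq S ⟨c.w, hw⟩).2]

theorem isX_outside (c : Quad V) (hp : c.p = p) (hq : c.q = q) {g : Real' d}
    (hg : tradeKey {p, q} g = tradeKey {p, q} g₀)
    (h : c.z ∉ excl g₀ p q ∨ c.w ∉ excl g₀ p q) : isX (c.bl g) = false := by
  have hpq : p ≠ q := hp ▸ hq ▸ c.pq
  have e : ∀ x, x ∉ excl g₀ p q → x ≠ p → x ≠ q → g.1 p x = g.1 q x := by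
    intro x hx h1 h2
    rw [(same_outside hpq hg hx).1, (same_outside hpq hg hx).2]
    by_contra hne
    exact hx (Finset.mem_filter.2 ⟨Finset.mem_univ _, h1, h2, hne⟩)
  rcases h with h | h
  · have := e c.z h (hp ▸ c.pz.symm) (hq ▸ c.qz.symm)
    simp only [Quad.bl, blk, hp, hq, this, isX]
    cases g.1 q c.z <;> simp
  · have := e c.w h (hp ▸ c.pw.symm) (hq ▸ c.qw.symm)
    simp only [Quad.bl, blk, hp, hq, this, isX]
    cases g.1 q c.w <;> simp

theorem tau_ofSet (c : Quad V) (hp : c.p = p) (hq : c.q = q)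
    (hz : c.z ∈ excl g₀ p q) (hw : c.w ∈ excl g₀ p q)
    (S : Finset {x // x ∈ excl g₀ p q})
    (hS : S ∈ sepSets (toSet g₀ p q g₀).card (⟨c.z, hz⟩ : {x // x ∈ excl g₀ p q}) ⟨c.w, hw⟩) :
    c.tau (ofSet g₀ p q S)
      = ofSet g₀ p q (insert ⟨c.w, hw⟩ (S.erase ⟨c.z, hz⟩)) := by
  classical
  have hpq : p ≠ q := hp ▸ hq ▸ c.pq
  obtain ⟨hc, h1, h2⟩ := mem_sepSets.1 hS
  set S' := insert (⟨c.w, hw⟩ : {x // x ∈ excl g₀ p q}) (S.erase ⟨c.z, hz⟩) with hS'
  have hzw : (⟨c.z, hz⟩ : {x // x ∈ excl g₀ p q}) ≠ ⟨c.w, hw⟩ := fun e => c.zw (congrArg Subtype.val e)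
  have hc' : S'.card = (toSet g₀ p q g₀).card := by
    rw [hS', Finset.card_insert_of_notMem (fun h => h2 (Finset.mem_of_mem_erase h)),
      Finset.card_erase_of_mem h1]
    have : 0 < S.card := Finset.card_pos.2 ⟨_, h1⟩
    omega
  have hX : isX (c.bl (ofSet g₀ p q S)) = true := by
    rw [bl_ofSet c hp hq S hc hz hw]; simp [h1, h2, isX]
  have hk := c.key_tau_fst (ofSet g₀ p q S)
  have hfst : c.fst = {p, q} := by simp [Quad.fst, hp, hq]
  rw [hfst, ofSet_key hpq S hc] at hk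
  rw [← ofSet_toSet hpq hk]
  congr 1
  ext x
  simp only [toSet, Finset.mem_filter, Finset.mem_univ, true_and]
  rw [Quad.tau, dif_pos hX]
  show c.flip (ofSet g₀ p q S).1 p x.1 = true ↔ x ∈ S'
  have hxp := (excl_ne x.2).1
  have hxq := (excl_ne x.2).2
  simp only [Quad.flip, ofSet_val hpq S hc, (table_p hpq S x).1, c.mem_fst, c.mem_snd, hp, hq,
    true_or, true_and, hxp, hxq, false_or, false_and, or_false]
  by_cases hxz : x.1 = c.z
  · have : x = ⟨c.z, hz⟩ := Subtype.ext hxz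
    subst this
    simp [h1, hS', hzw]
  by_cases hxw : x.1 = c.w
  · have : x = ⟨c.w, hw⟩ := Subtype.ext hxw
    subst this
    simp [h2, hS', hzw.symm]
  · have e1 : x ≠ ⟨c.z, hz⟩ := fun e => hxz (congrArg Subtype.val e)
    have e2 : x ≠ ⟨c.w, hw⟩ := fun e => hxw (congrArg Subtype.val e)
    simp [hxz, hxw, hS', e1, e2]

/-- One fibre: values of the odd part and of the defect. -/
theorem fibre_values (c : Quad V) (hp : c.p = p) (hq : c.q = q)
    (hz : c.z ∈ excl g₀ p q) (hw : c.w ∈ excl g₀ p q) (F : Real' d → ℝ)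
    (S : Finset {x // x ∈ excl g₀ p q})
    (hS : S ∈ sepSets (toSet g₀ p q g₀).card (⟨c.z, hz⟩ : {x // x ∈ excl g₀ p q}) ⟨c.w, hw⟩) :
    c.odd F (ofSet g₀ p q S)
        = (F (ofSet g₀ p q S) - F (ofSet g₀ p q (insert ⟨c.w, hw⟩ (S.erase ⟨c.z, hz⟩)))) / 2 ∧
      c.defect F (ofSet g₀ p q S)
        = (∑ T ∈ sepSets (toSet g₀ p q g₀).card (⟨c.z, hz⟩ : {x // x ∈ excl g₀ p q}) ⟨c.w, hw⟩,
              F (ofSet g₀ p q T)
            + ∑ T ∈ sepSets (toSet g₀ p q g₀).card (⟨c.w, hw⟩ : {x // x ∈ excl g₀ p q}) ⟨c.z, hz⟩,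
              F (ofSet g₀ p q T))
          / (2 * ((sepSets (toSet g₀ p q g₀).card (⟨c.z, hz⟩ : {x // x ∈ excl g₀ p q})
              ⟨c.w, hw⟩).card : ℝ))
          - (∑ T ∈ slice {x // x ∈ excl g₀ p q} (toSet g₀ p q g₀).card, F (ofSet g₀ p q T))
            / ((slice {x // x ∈ excl g₀ p q} (toSet g₀ p q g₀).card).card : ℝ) := by
  classical
  have hpq : p ≠ q := hp ▸ hq ▸ c.pq
  obtain ⟨hc, h1, h2⟩ := mem_sepSets.1 hS
  set a := (toSet g₀ p q g₀).card with ha
  set zz : {x // x ∈ excl g₀ p q} := ⟨c.z, hz⟩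
  set ww : {x // x ∈ excl g₀ p q} := ⟨c.w, hw⟩
  refine ⟨by rw [Quad.odd, tau_ofSet c hp hq hz hw S hS], ?_⟩
  have hX : isX (c.bl (ofSet g₀ p q S)) = true := by
    rw [bl_ofSet c hp hq S hc hz hw]; simp [zz, ww] at h1 h2 ⊢; simp [h1, h2, isX]
  have hfst : c.fst = {p, q} := by simp [Quad.fst, hp, hq]
  have hblock : ∀ G : Real' d → ℝ,
      ∑ y ∈ Finset.univ.filter (fun y => c.rkey y = c.rkey (ofSet g₀ p q S)), G y
        = ∑ T ∈ sepSets a zz ww, G (ofSet g₀ p q T) := by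
    intro G
    have e : ∀ y : Real' d, c.rkey y = c.rkey (ofSet g₀ p q S) ↔
        tradeKey {p, q} y = tradeKey {p, q} g₀ ∧ tag (c.bl y) = tag (c.bl (ofSet g₀ p q S)) := by
      intro y; simp only [Quad.rkey, Prod.ext_iff, hfst, ofSet_key hpq S hc]
    simp only [e]
    rw [← Finset.filter_filter, Finset.sum_filter,
      sum_fibre hpq (fun g => if tag (c.bl g) = tag (c.bl (ofSet g₀ p q S)) then G g else 0),
      ← Finset.sum_filter]
    refine Finset.sum_congr ?_ fun _ _ => rfl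
    unfold sepSets
    refine Finset.filter_congr fun T hT => ?_
    rw [bl_ofSet c hp hq T (mem_slice.1 hT) hz hw, bl_ofSet c hp hq S hc hz hw]
    simp only [zz, ww] at h1 h2 ⊢
    by_cases a1 : (⟨c.z, hz⟩ : {x // x ∈ excl g₀ p q}) ∈ T <;>
      by_cases a2 : (⟨c.w, hw⟩ : {x // x ∈ excl g₀ p q}) ∈ T <;> simp [tag, isX, a1, a2, h1, h2]
  have hcard : ((Finset.univ.filter (fun y : Real' d => c.rkey y = c.rkey (ofSet g₀ p q S))).card : ℝ)
      = ((sepSets a zz ww).card : ℝ) := by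
    have := hblock (fun _ => 1); simpa using this
  have hswap : ∑ T ∈ sepSets a zz ww, F (c.tau (ofSet g₀ p q T))
      = ∑ T ∈ sepSets a ww zz, F (ofSet g₀ p q T) := by
    rw [Finset.sum_congr rfl (fun T hT => by rw [tau_ofSet c hp hq hz hw T hT])]
    refine Finset.sum_nbij' (fun T => insert ww (T.erase zz)) (fun T => insert zz (T.erase ww))
      ?_ ?_ ?_ ?_ ?_
    · intro T hT; exact (exch_back (Finset.mem_coe.1 hT)).1
    · intro T hT; exact (exch_back (Finset.mem_coe.1 hT)).1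
    · intro T hT; exact (exch_back (Finset.mem_coe.1 hT)).2.1
    · intro T hT; exact (exch_back (Finset.mem_coe.1 hT)).2.1
    · intro T _; rfl
  have hmean : avgOp (tradeKey c.fst) F (ofSet g₀ p q S)
      = (∑ T ∈ slice {x // x ∈ excl g₀ p q} a, F (ofSet g₀ p q T))
        / ((slice {x // x ∈ excl g₀ p q} a).card : ℝ) := by
    rw [avgOp_apply, hfst, ofSet_key hpq S hc, sum_fibre hpq]
    congr 1
    have := sum_fibre (g₀ := g₀) hpq (fun _ => (1 : ℝ))
    simpa using this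
  rw [Quad.defect, if_pos hX, hmean, avgOp_apply, hblock, hcard]
  simp only [Quad.even]
  rw [← Finset.sum_div, Finset.sum_add_distrib, hswap, div_div]

theorem fibre_nonneg (hpq : p ≠ q) (F : Real' d → ℝ) (g₀ : Real' d) :
    0 ≤ ∑ g ∈ Finset.univ.filter (fun g => tradeKey {p, q} g = tradeKey {p, q} g₀),
      ∑ z, ∑ w, quadTerm (fun c => if isX (c.bl g) then c.odd F g ^ 2 - c.defect F g ^ 2 else 0)
        p q z w := by
  classical
  rw [sum_fibre hpq]
  set a := (toSet g₀ p q g₀).card with ha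
  set D := {x // x ∈ excl g₀ p q}
  set f : Finset D → ℝ := fun T => F (ofSet g₀ p q T)
  set M : D → D → ℝ := fun z w => (∑ T ∈ sepSets a z w, f T + ∑ T ∈ sepSets a w z, f T)
      / (2 * ((sepSets a z w).card : ℝ)) - (∑ T ∈ slice D a, f T) / ((slice D a).card : ℝ)
  set R : D → D → Finset D → ℝ := fun z w S =>
    ((f S - f (insert w (S.erase z))) / 2) ^ 2 - M z w ^ 2
  have key : ∀ S ∈ slice D a, ∑ z, ∑ w, quadTerm (fun c => if isX (c.bl (ofSet g₀ p q S)) then
        c.odd F (ofSet g₀ p q S) ^ 2 - c.defect F (ofSet g₀ p q S) ^ 2 else 0) p q z w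
      = ∑ z : D, ∑ w : D, ((if z ∈ S ∧ w ∉ S then R z w S else 0)
          + (if w ∈ S ∧ z ∉ S then R w z S else 0)) := by
    intro S hS
    have hc := mem_slice.1 hS
    have hzero : ∀ z w, (z ∉ excl g₀ p q ∨ w ∉ excl g₀ p q) →
        quadTerm (fun c => if isX (c.bl (ofSet g₀ p q S)) then
          c.odd F (ofSet g₀ p q S) ^ 2 - c.defect F (ofSet g₀ p q S) ^ 2 else 0) p q z w = 0 := by
      intro z w h
      by_cases hd : p ≠ q ∧ z ≠ w ∧ p ≠ z ∧ p ≠ w ∧ q ≠ z ∧ q ≠ w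
      · rw [quadTerm, dif_pos hd, if_neg]
        rw [isX_outside (g₀ := g₀) ⟨p, q, z, w, hd.1, hd.2.1, hd.2.2.1, hd.2.2.2.1,
          hd.2.2.2.2.1, hd.2.2.2.2.2⟩ rfl rfl (ofSet_key hpq S hc) h]
        simp
      · rw [quadTerm, dif_neg hd]
    rw [← Finset.sum_subset (Finset.subset_univ (excl g₀ p q))
      (fun z _ hz => Finset.sum_eq_zero fun w _ => hzero z w (Or.inl hz)), ← Finset.sum_coe_sort]
    refine Finset.sum_congr rfl fun z _ => ?_
    rw [← Finset.sum_subset (Finset.subset_univ (excl g₀ p q))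
      (fun w _ hw => hzero z w (Or.inr hw)), ← Finset.sum_coe_sort]
    refine Finset.sum_congr rfl fun w _ => ?_
    by_cases hzw : z = w
    · subst hzw; simp [quadTerm]
    have hzw' : z.1 ≠ w.1 := fun e => hzw (Subtype.ext e)
    have hd : p ≠ q ∧ z.1 ≠ w.1 ∧ p ≠ z.1 ∧ p ≠ w.1 ∧ q ≠ z.1 ∧ q ≠ w.1 :=
      ⟨hpq, hzw', (excl_ne z.2).1.symm, (excl_ne w.2).1.symm, (excl_ne z.2).2.symm,
        (excl_ne w.2).2.symm⟩
    rw [quadTerm, dif_pos hd]
    set c : Quad V := ⟨p, q, z.1, w.1, hd.1, hd.2.1, hd.2.2.1, hd.2.2.2.1, hd.2.2.2.2.1,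
      hd.2.2.2.2.2⟩
    have hb := bl_ofSet c rfl rfl S hc z.2 w.2
    by_cases a1 : z ∈ S <;> by_cases a2 : w ∈ S
    · rw [if_neg (by rw [hb]; simp [isX, a1, a2, c])]; simp [a1, a2]
    · have hv := fibre_values c rfl rfl z.2 w.2 F S (mem_sepSets.2 ⟨hc, a1, a2⟩)
      rw [if_pos (by rw [hb]; simp [isX, a1, a2, c]), hv.1, hv.2]
      simp [a1, a2, R, M, f, c] <;> rfl
    · -- the mirrored orientation
      set c' : Quad V := ⟨p, q, w.1, z.1, hd.1, hzw'.symm, hd.2.2.2.1, hd.2.2.1, hd.2.2.2.2.2,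
        hd.2.2.2.2.1⟩
      have hv := fibre_values c' rfl rfl w.2 z.2 F S (mem_sepSets.2 ⟨hc, a2, a1⟩)
      have hfst : c'.fst = c.fst := rfl
      have hsnd : c'.snd = c.snd := Finset.pair_comm _ _
      have hbl : ∀ g : Real' d, c'.bl g = ((c.bl g).2.1, (c.bl g).1, (c.bl g).2.2.2, (c.bl g).2.2.1) :=
        fun g => rfl
      have hX : ∀ g : Real' d, isX (c'.bl g) = isX (c.bl g) := by
        intro g; rw [hbl]; rcases c.bl g with ⟨_ | _, _ | _, _ | _, _ | _⟩ <;> rfl
      have htau : ∀ g : Real' d, c'.tau g = c.tau g := by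
        intro g
        by_cases h : isX (c.bl g) = true
        · apply Subtype.ext
          rw [Quad.tau, dif_pos ((hX g).trans h), Quad.tau, dif_pos h]
          funext i j; simp only [Quad.flip, hfst, hsnd]
        · rw [Quad.tau, dif_neg (by rw [hX]; exact h), Quad.tau, dif_neg h]
      have hev : c'.even F = c.even F := by funext g; simp [Quad.even, htau]
      have hk : ∀ x y : Real' d, c'.rkey x = c'.rkey y ↔ c.rkey x = c.rkey y := by
        intro x y
        simp only [Quad.rkey, Prod.ext_iff, hfst, hbl]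
        refine and_congr_right fun _ => ?_
        rcases c.bl x with ⟨_ | _, _ | _, _ | _, _ | _⟩ <;>
          rcases c.bl y with ⟨_ | _, _ | _, _ | _, _ | _⟩ <;> decide
      have hdef : c'.defect F (ofSet g₀ p q S) = c.defect F (ofSet g₀ p q S) := by
        rw [Quad.defect, Quad.defect, hX, hev, avgOp_key_congr c'.rkey c.rkey hk, hfst]
      have hodd : c'.odd F (ofSet g₀ p q S) = c.odd F (ofSet g₀ p q S) := by
        simp [Quad.odd, htau]
      rw [if_pos (by rw [hb]; simp [isX, a1, a2, c]), ← hodd, ← hdef, hv.1, hv.2]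
      simp [a1, a2, R, M, f, c'] <;> rfl
    · rw [if_neg (by rw [hb]; simp [isX, a1, a2, c])]; simp [a1, a2]
  rw [Finset.sum_congr rfl key]
  have hflip : ∀ z w : D, ∑ S ∈ slice D a, (if z ∈ S ∧ w ∉ S then R z w S else 0)
      = ∑ S ∈ sepSets a z w, R z w S := by
    intro z w; rw [sepSets, Finset.sum_filter]
  rw [Finset.sum_comm]
  simp_rw [Finset.sum_comm (s := slice D a), Finset.sum_add_distrib, hflip]
  rw [Finset.sum_comm (f := fun z w => ∑ S ∈ sepSets a w z, R w z S)]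
  have hmain := slice_pair_bound a f
  have : 0 ≤ ∑ z : D, ∑ w : D, ∑ S ∈ sepSets a z w, R z w S := by
    simp only [R, Finset.sum_sub_distrib, Finset.sum_const, nsmul_eq_mul]
    exact sub_nonneg.2 hmain
  linarith

theorem fixed_pair_nonneg (hpq : p ≠ q) (F : Real' d → ℝ) :
    0 ≤ ∑ z, ∑ w, quadTerm (fun c => ip (c.odd F) (c.odd F) - ip (c.defect F) (c.defect F))
      p q z w := by
  classical
  have e : ∀ z w, quadTerm (fun c => ip (c.odd F) (c.odd F) - ip (c.defect F) (c.defect F))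
        p q z w
      = ∑ g, quadTerm (fun c => if isX (c.bl g) then c.odd F g ^ 2 - c.defect F g ^ 2 else 0)
          p q z w := by
    intro z w
    by_cases hd : p ≠ q ∧ z ≠ w ∧ p ≠ z ∧ p ≠ w ∧ q ≠ z ∧ q ≠ w
    · simp only [quadTerm, dif_pos hd, ip, ← Finset.sum_sub_distrib]
      refine Finset.sum_congr rfl fun g _ => ?_
      split_ifs with h
      · ring
      · simp [Quad.odd, Quad.defect, Quad.tau, h]
    · simp only [quadTerm, dif_neg hd]; simp
  simp only [e]
  simp only [Finset.sum_comm (t := (Finset.univ : Finset (Real' d)))]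
  exact sum_nonneg_of_fibres (tradeKey {p, q}) _ (fibre_nonneg hpq F)

/-- The disjoint part of the squared generator is nonnegative. -/
theorem disjoint_sum_nonneg (F : Real' d → ℝ) :
    0 ≤ ∑ a ∈ pairs V, ∑ b ∈ pairs V,
      if Disjoint a b then ip (tradeQ d a F) (tradeQ d b F) else 0 := by
  classical
  set G : Quad V → ℝ := fun c => ip (tradeQ d c.fst F) (tradeQ d c.snd F)
  have hsum : ∑ p, ∑ q, ∑ z, ∑ w, quadTerm G p q z w
      = 2 • ∑ a ∈ pairs V, 2 • ∑ b ∈ pairs V,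
          if Disjoint a b then ip (tradeQ d a F) (tradeQ d b F) else 0 := by
    rw [two_mul_sum_pairs]
    refine Finset.sum_congr rfl fun p _ => Finset.sum_congr rfl fun q _ => ?_
    by_cases hpq : p = q
    · simp [quadTerm, hpq]
    rw [if_neg hpq, two_mul_sum_pairs]
    refine Finset.sum_congr rfl fun z _ => Finset.sum_congr rfl fun w _ => ?_
    by_cases hzw : z = w
    · simp [quadTerm, hzw]
    rw [if_neg hzw]
    by_cases hd : p ≠ q ∧ z ≠ w ∧ p ≠ z ∧ p ≠ w ∧ q ≠ z ∧ q ≠ w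
    · rw [quadTerm, dif_pos hd, if_pos (by simp [hd.2.2.1.symm, hd.2.2.2.1.symm, hd.2.2.2.2.1.symm,
        hd.2.2.2.2.2.symm, hd.2.2.1, hd.2.2.2.1, hd.2.2.2.2.1, hd.2.2.2.2.2])]
      rfl
    · rw [quadTerm, dif_neg hd, if_neg]
      simp only [Finset.disjoint_insert_left, Finset.disjoint_singleton_left, Finset.mem_insert,
        Finset.mem_singleton, not_or, not_and_or]
      simp only [ne_eq, hpq, hzw, not_false_iff, true_and, not_and_or, not_not] at hd
      tauto
  have hb : ∀ p q z w, quadTerm (fun c => ip (c.odd F) (c.odd F)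
        - ip (c.defect F) (c.defect F) / 2 - ip (c.swap.defect F) (c.swap.defect F) / 2) p q z w
      ≤ quadTerm G p q z w := by
    intro p q z w
    unfold quadTerm
    split_ifs with hd
    · exact Quad.disjoint_bound _ F
    · exact le_rfl
  have hswap : ∑ p, ∑ q, ∑ z, ∑ w, quadTerm (fun c => ip (c.swap.defect F) (c.swap.defect F)) p q z w
      = ∑ p, ∑ q, ∑ z, ∑ w, quadTerm (fun c => ip (c.defect F) (c.defect F)) p q z w := by
    have e : ∀ p q z w, quadTerm (fun c => ip (c.swap.defect F) (c.swap.defect F)) p q z w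
        = quadTerm (fun c => ip (c.defect F) (c.defect F)) z w p q := by
      intro p q z w
      by_cases hd : p ≠ q ∧ z ≠ w ∧ p ≠ z ∧ p ≠ w ∧ q ≠ z ∧ q ≠ w
      · obtain ⟨a, b, c, e, f, g⟩ := hd
        rw [quadTerm, dif_pos ⟨a, b, c, e, f, g⟩, quadTerm,
          dif_pos ⟨b, a, c.symm, f.symm, e.symm, g.symm⟩]
        rfl
      · rw [quadTerm, dif_neg hd, quadTerm, dif_neg]
        rintro ⟨a, b, c, e, f, g⟩
        exact hd ⟨b, a, c.symm, f.symm, e.symm, g.symm⟩
    simp only [e]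
    rw [Finset.sum_congr rfl fun p _ => Finset.sum_comm, Finset.sum_comm]
    refine Finset.sum_congr rfl fun z _ => ?_
    rw [Finset.sum_congr rfl fun p _ => Finset.sum_comm, Finset.sum_comm]
  have hlow : ∑ p, ∑ q, ∑ z, ∑ w, quadTerm (fun c => ip (c.odd F) (c.odd F)
        - ip (c.defect F) (c.defect F)) p q z w
      = ∑ p, ∑ q, ∑ z, ∑ w, quadTerm (fun c => ip (c.odd F) (c.odd F)
        - ip (c.defect F) (c.defect F) / 2 - ip (c.swap.defect F) (c.swap.defect F) / 2) p q z w := by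
    have e : ∀ p q z w, quadTerm (fun c => ip (c.odd F) (c.odd F)
        - ip (c.defect F) (c.defect F) / 2 - ip (c.swap.defect F) (c.swap.defect F) / 2) p q z w
        = quadTerm (fun c => ip (c.odd F) (c.odd F) - ip (c.defect F) (c.defect F)) p q z w
          + (quadTerm (fun c => ip (c.defect F) (c.defect F)) p q z w
            - quadTerm (fun c => ip (c.swap.defect F) (c.swap.defect F)) p q z w) / 2 := by
      intro p q z w
      unfold quadTerm
      split_ifs with hd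
      · ring
      · norm_num
    simp only [e, Finset.sum_add_distrib, ← Finset.sum_div, Finset.sum_sub_distrib, hswap,
      sub_self, zero_div, add_zero]
  have h0 : 0 ≤ ∑ p, ∑ q, ∑ z, ∑ w, quadTerm (fun c => ip (c.odd F) (c.odd F)
        - ip (c.defect F) (c.defect F)) p q z w := by
    refine Finset.sum_nonneg fun p _ => Finset.sum_nonneg fun q _ => ?_
    by_cases hpq : p = q
    · simp [quadTerm, hpq]
    · exact fixed_pair_nonneg hpq F
  have htot : 0 ≤ ∑ p, ∑ q, ∑ z, ∑ w, quadTerm G p q z w :=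
    (hlow ▸ h0).trans (Finset.sum_le_sum fun p _ => Finset.sum_le_sum fun q _ =>
      Finset.sum_le_sum fun z _ => Finset.sum_le_sum fun w _ => hb p q z w)
  rw [hsum] at htot
  simp only [nsmul_eq_mul, ← Finset.mul_sum, Nat.cast_ofNat] at htot
  linarith

end Vale.Agent.P335
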