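import Vale.Agent.P335.LinAlg

/-! Realisations of a degree sequence and the trade projections. -/

namespace Vale.Agent.P335

open Finset

variable {V : Type*} [Fintype V] [DecidableEq V]

/-- Indicator of a truth value. -/
def bn (b : Bool) : ℕ := if b then 1 else 0

/-- Degree in an adjacency table. -/
def deg (g : V → V → Bool) (i : V) : ℕ := ∑ j, bn (g i j)

/-- Realisations of a degree vector. -/
def IsReal (d : V → ℕ) (g : V → V → Bool) : Prop :=
  (∀ i j, g i j = g j i) ∧ (∀ i, g i i = false) ∧ ∀ i, deg g i = d i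

/-- The state space. -/
abbrev Real' (d : V → ℕ) : Type _ := {g : V → V → Bool // IsReal d g}

noncomputable instance instFintypeReal' (d : V → ℕ) : Fintype (Real' d) := Fintype.ofFinite _

variable {d : V → ℕ}

theorem Real'.symm (g : Real' d) (i j : V) : g.1 i j = g.1 j i := g.2.1 i j
theorem Real'.irrefl (g : Real' d) (i : V) : g.1 i i = false := g.2.2.1 i
theorem Real'.degree (g : Real' d) (i : V) : deg g.1 i = d i := g.2.2.2 i

theorem Real'.ext' {g h : Real' d} (e : ∀ i j, g.1 i j = h.1 i j) : g = h :=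
  Subtype.ext (funext fun i => funext fun j => e i j)

/-- The part of a table that a trade on `a` cannot change. -/
def tradeKey (a : Finset V) (g : Real' d) : V → V → Bool :=
  fun i j => if (i ∈ a ↔ j ∈ a) then g.1 i j else false

/-- The part of a table not incident to `T`. -/
def outKey (T : Finset V) (g : Real' d) : V → V → Bool :=
  fun i j => if (i ∈ T ∨ j ∈ T) then false else g.1 i j

theorem tradeKey_eq_iff {a : Finset V} {g h : Real' d} :
    tradeKey a g = tradeKey a h ↔ ∀ i j, (i ∈ a ↔ j ∈ a) → g.1 i j = h.1 i j := by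
  constructor
  · intro e i j hij
    have := congrFun (congrFun e i) j
    simpa [tradeKey, hij] using this
  · intro e
    funext i j
    unfold tradeKey
    split_ifs with hij
    · exact e i j hij
    · rfl

theorem outKey_eq_iff {T : Finset V} {g h : Real' d} :
    outKey T g = outKey T h ↔ ∀ i j, i ∉ T → j ∉ T → g.1 i j = h.1 i j := by
  constructor
  · intro e i j hi hj
    have := congrFun (congrFun e i) j
    simpa [outKey, hi, hj] using this
  · intro e
    funext i j
    unfold outKey
    split_ifs with hij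
    · rfl
    · push_neg at hij; exact e i j hij.1 hij.2

theorem tradeKey_out {a T : Finset V} (haT : a ⊆ T) {g h : Real' d}
    (e : tradeKey a g = tradeKey a h) : outKey T g = outKey T h := by
  rw [outKey_eq_iff]
  intro i j hi hj
  exact tradeKey_eq_iff.1 e i j
    ⟨fun h' => absurd (haT h') hi, fun h' => absurd (haT h') hj⟩

/-- Degree split along a set. -/
theorem deg_split (g : V → V → Bool) (a : Finset V) (i : V) :
    deg g i = ∑ j ∈ a, bn (g i j) + ∑ j ∈ aᶜ, bn (g i j) :=
  (Finset.sum_add_sum_compl a _).symm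

theorem tradeKey_col {a : Finset V} {g h : Real' d} (e : tradeKey a g = tradeKey a h)
    {v : V} (hv : v ∉ a) : ∑ j ∈ a, bn (g.1 v j) = ∑ j ∈ a, bn (h.1 v j) := by
  have h1 := deg_split g.1 a v
  have h2 := deg_split h.1 a v
  rw [g.degree] at h1
  rw [h.degree] at h2
  have h3 : ∑ j ∈ aᶜ, bn (g.1 v j) = ∑ j ∈ aᶜ, bn (h.1 v j) :=
    Finset.sum_congr rfl fun j hj => by
      rw [tradeKey_eq_iff.1 e v j ⟨fun x => absurd x hv, fun x => absurd x (Finset.mem_compl.1 hj)⟩]
  omega

/-- Trade projection. -/
noncomputable def tradeP (d : V → ℕ) (a : Finset V) : (Real' d → ℝ) →ₗ[ℝ] (Real' d → ℝ) :=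
  avgOp (tradeKey a)

/-- Complement of the trade projection. -/
noncomputable def tradeQ (d : V → ℕ) (a : Finset V) : (Real' d → ℝ) →ₗ[ℝ] (Real' d → ℝ) :=
  LinearMap.id - tradeP d a

theorem tradeQ_apply (d : V → ℕ) (a : Finset V) (F : Real' d → ℝ) :
    tradeQ d a F = F - avgOp (tradeKey a) F := rfl

/-- All pairs of vertices. -/
def pairs (V : Type*) [Fintype V] [DecidableEq V] : Finset (Finset V) :=
  (Finset.univ : Finset V).powersetCard 2

/-- The trade generator. -/
noncomputable def tradeK (d : V → ℕ) : (Real' d → ℝ) →ₗ[ℝ] (Real' d → ℝ) :=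
  ∑ a ∈ pairs V, tradeQ d a

theorem tradeK_apply (d : V → ℕ) (F : Real' d → ℝ) :
    tradeK d F = ∑ a ∈ pairs V, tradeQ d a F := by simp [tradeK]

theorem ip_tradeQ (d : V → ℕ) (a : Finset V) (F G : Real' d → ℝ) :
    ip (tradeQ d a F) G = ip F (tradeQ d a G) := by
  simp [tradeQ_apply, ip_sub_left, ip_sub_right, avgOp_sym]

theorem ip_tradeQ_self (d : V → ℕ) (a : Finset V) (F : Real' d → ℝ) :
    ip F (tradeQ d a F) = ip (tradeQ d a F) (tradeQ d a F) := by
  simp only [tradeQ_apply]
  exact (ip_sub_avgOp _ F F).symm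

end Vale.Agent.P335
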