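import Mathlib

/-! Finite inner products, averaging projections, and a gap criterion. -/

namespace Vale.Agent.P335

open Finset

variable {Ω : Type*} [Fintype Ω]

/-- Counting inner product. -/
def ip (f g : Ω → ℝ) : ℝ := ∑ x, f x * g x

theorem ip_comm (f g : Ω → ℝ) : ip f g = ip g f :=
  Finset.sum_congr rfl fun _ _ => mul_comm _ _

theorem ip_self_nonneg (f : Ω → ℝ) : 0 ≤ ip f f :=
  Finset.sum_nonneg fun _ _ => mul_self_nonneg _

theorem ip_add_left (f g h : Ω → ℝ) : ip (f + g) h = ip f h + ip g h := by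
  simp [ip, add_mul, Finset.sum_add_distrib]

theorem ip_add_right (f g h : Ω → ℝ) : ip f (g + h) = ip f g + ip f h := by
  simp [ip, mul_add, Finset.sum_add_distrib]

theorem ip_sub_left (f g h : Ω → ℝ) : ip (f - g) h = ip f h - ip g h := by
  simp [ip, sub_mul, Finset.sum_sub_distrib]

theorem ip_sub_right (f g h : Ω → ℝ) : ip f (g - h) = ip f g - ip f h := by
  simp [ip, mul_sub, Finset.sum_sub_distrib]

theorem ip_smul_left (c : ℝ) (f g : Ω → ℝ) : ip (c • f) g = c * ip f g := by
  simp [ip, Finset.mul_sum, mul_assoc]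

theorem ip_smul_right (c : ℝ) (f g : Ω → ℝ) : ip f (c • g) = c * ip f g := by
  simp [ip, Finset.mul_sum, mul_left_comm]

theorem ip_sum_right {ι : Type*} (s : Finset ι) (f : Ω → ℝ) (g : ι → Ω → ℝ) :
    ip f (∑ i ∈ s, g i) = ∑ i ∈ s, ip f (g i) := by
  simp only [ip, Finset.sum_apply, Finset.mul_sum]
  exact Finset.sum_comm

theorem ip_sum_left {ι : Type*} (s : Finset ι) (f : ι → Ω → ℝ) (g : Ω → ℝ) :
    ip (∑ i ∈ s, f i) g = ∑ i ∈ s, ip (f i) g := by
  simp only [ip, Finset.sum_apply, Finset.sum_mul]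
  exact Finset.sum_comm

theorem ip_self_eq_zero {f : Ω → ℝ} (h : ip f f = 0) : f = 0 := by
  funext x
  exact mul_self_eq_zero.1
    ((Finset.sum_eq_zero_iff_of_nonneg fun _ _ => mul_self_nonneg _).1 h x (Finset.mem_univ x))

theorem ip_sq_le (f g : Ω → ℝ) : ip f g ^ 2 ≤ ip f f * ip g g := by
  have := Finset.sum_mul_sq_le_sq_mul_sq Finset.univ f g
  simpa [ip, pow_two] using this

/-- Cauchy–Schwarz for a symmetric positive semidefinite map. -/
theorem psd_sq_le (K : (Ω → ℝ) →ₗ[ℝ] (Ω → ℝ)) (hsym : ∀ f g, ip (K f) g = ip f (K g))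
    (hpos : ∀ f, 0 ≤ ip f (K f)) (f g : Ω → ℝ) :
    ip f (K g) ^ 2 ≤ ip f (K f) * ip g (K g) := by
  have hq : ∀ t : ℝ, 0 ≤ ip g (K g) * (t * t) + 2 * ip f (K g) * t + ip f (K f) := by
    intro t
    have h := hpos (f + t • g)
    have e : ip g (K f) = ip f (K g) := by rw [ip_comm, hsym]
    simp only [map_add, map_smul, ip_add_left, ip_add_right, ip_smul_left, ip_smul_right, e] at h
    linarith
  have h := discrim_le_zero hq
  unfold discrim at h
  linarith

variable {κ : Type*} [DecidableEq κ]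

/-- Average over the block of `key`. -/
noncomputable def avgOp (key : Ω → κ) : (Ω → ℝ) →ₗ[ℝ] (Ω → ℝ) where
  toFun f x := (∑ y ∈ Finset.univ.filter (fun y => key y = key x), f y) /
    ((Finset.univ.filter (fun y => key y = key x)).card : ℝ)
  map_add' f g := by
    funext x; simp [Finset.sum_add_distrib, add_div]
  map_smul' c f := by
    funext x; simp [← Finset.mul_sum, mul_div_assoc]

theorem avgOp_apply (key : Ω → κ) (f : Ω → ℝ) (x : Ω) :
    avgOp key f x = (∑ y ∈ Finset.univ.filter (fun y => key y = key x), f y) /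
      ((Finset.univ.filter (fun y => key y = key x)).card : ℝ) := rfl

theorem block_card_pos (key : Ω → κ) (x : Ω) :
    0 < ((Finset.univ.filter (fun y => key y = key x)).card : ℝ) := by
  have : 0 < (Finset.univ.filter (fun y => key y = key x)).card :=
    Finset.card_pos.2 ⟨x, by simp⟩
  exact_mod_cast this

theorem avgOp_congr (key : Ω → κ) (f : Ω → ℝ) {x y : Ω} (h : key x = key y) :
    avgOp key f x = avgOp key f y := by rw [avgOp_apply, avgOp_apply, h]

theorem avgOp_eq_self (key : Ω → κ) (f : Ω → ℝ) (h : ∀ x y, key x = key y → f x = f y) :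
    avgOp key f = f := by
  funext x
  rw [avgOp_apply, Finset.sum_congr rfl (fun y hy => h y x (Finset.mem_filter.1 hy).2),
    Finset.sum_const, nsmul_eq_mul, mul_div_cancel_left₀ _ (block_card_pos key x).ne']

theorem avgOp_idem (key : Ω → κ) (f : Ω → ℝ) : avgOp key (avgOp key f) = avgOp key f :=
  avgOp_eq_self key _ fun _ _ h => avgOp_congr key f h

theorem avgOp_sym (key : Ω → κ) (f g : Ω → ℝ) : ip (avgOp key f) g = ip f (avgOp key g) := by
  classical
  unfold ip
  simp only [avgOp_apply, Finset.sum_div, Finset.sum_mul, Finset.mul_sum]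
  rw [Finset.sum_comm' (t' := Finset.univ)
    (s' := fun y => Finset.univ.filter (fun x => key x = key y))]
  · refine Finset.sum_congr rfl fun y _ => Finset.sum_congr rfl fun x hx => ?_
    have hk : key x = key y := (Finset.mem_filter.1 hx).2
    rw [hk]; ring
  · intro x y; simp [eq_comm]

theorem ip_avgOp_self (key : Ω → κ) (f : Ω → ℝ) :
    ip f (avgOp key f) = ip (avgOp key f) (avgOp key f) := by
  rw [avgOp_sym, avgOp_idem]

theorem ip_sub_avgOp (key : Ω → κ) (f g : Ω → ℝ) :
    ip (f - avgOp key f) (g - avgOp key g) = ip f (g - avgOp key g) := by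
  rw [ip_sub_left, avgOp_sym key f, map_sub, avgOp_idem, sub_self]
  simp [ip]

theorem ip_avgOp_le (key : Ω → κ) (f : Ω → ℝ) : ip f (avgOp key f) ≤ ip f f := by
  have h := ip_self_nonneg (f - avgOp key f)
  rw [ip_sub_avgOp, ip_sub_right] at h
  linarith

theorem sum_avgOp (key : Ω → κ) (f : Ω → ℝ) : ∑ x, avgOp key f x = ∑ x, f x := by
  have h := avgOp_sym key f (fun _ => 1)
  rw [avgOp_eq_self key (fun _ => (1 : ℝ)) fun _ _ _ => rfl] at h
  simpa [ip] using h

/-- A symmetric positive semidefinite map dominated by its square, with only constants in the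
kernel, has gap one. -/
theorem gap_of_sq (K : (Ω → ℝ) →ₗ[ℝ] (Ω → ℝ)) (hsym : ∀ f g, ip (K f) g = ip f (K g))
    (hone : K (fun _ => 1) = 0) (hpos : ∀ f, 0 ≤ ip f (K f))
    (hsq : ∀ f, ip f (K f) ≤ ip (K f) (K f))
    (hker : ∀ f, K f = 0 → ∀ x y, f x = f y)
    (f : Ω → ℝ) (hf : ∑ x, f x = 0) : ip f f ≤ ip f (K f) := by
  let Z : Submodule ℝ (Ω → ℝ) :=
    { carrier := {g | ∑ x, g x = 0}
      zero_mem' := by simp
      add_mem' := fun {a b} ha hb => by
        simp only [Set.mem_setOf_eq, Pi.add_apply, Finset.sum_add_distrib] at *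
        linarith
      smul_mem' := fun c a ha => by
        simp only [Set.mem_setOf_eq, Pi.smul_apply, smul_eq_mul, ← Finset.mul_sum] at *
        rw [ha, mul_zero] }
  have hKZ : ∀ g ∈ Z, K g ∈ Z := by
    intro g _
    show ∑ x, K g x = 0
    have h := hsym g (fun _ => 1)
    rw [hone] at h
    simpa [ip] using h
  let K' : Z →ₗ[ℝ] Z := K.restrict hKZ
  have hinj : Function.Injective K' := by
    rw [← LinearMap.ker_eq_bot, Submodule.eq_bot_iff]
    intro g hg
    have h0 : K g.1 = 0 := by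
      have := congrArg Subtype.val (LinearMap.mem_ker.1 hg)
      simpa [K'] using this
    apply Subtype.ext
    funext x
    have hconst := hker g.1 h0
    have hs : ∑ y, g.1 y = 0 := g.2
    rw [Finset.sum_congr rfl (fun y _ => hconst y x), Finset.sum_const, nsmul_eq_mul] at hs
    have hcard : 0 < (Finset.univ : Finset Ω).card := Finset.card_pos.2 ⟨x, Finset.mem_univ x⟩
    rcases mul_eq_zero.1 hs with h | h
    · exact absurd h (by exact_mod_cast hcard.ne')
    · exact h
  obtain ⟨g, hg⟩ := (LinearMap.injective_iff_surjective.1 hinj) ⟨f, hf⟩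
  have hg' : K g.1 = f := congrArg Subtype.val hg
  set h := g.1
  have h1 : ip f (K h) ^ 2 ≤ ip f (K f) * ip h (K h) := psd_sq_le K hsym hpos f h
  have h2 := hsq h
  rw [hg'] at h1 h2
  rcases (ip_self_nonneg f).eq_or_lt with h0 | h0
  · linarith [hpos f]
  · have h3 : ip f (K f) * ip h f ≤ ip f (K f) * ip f f := mul_le_mul_of_nonneg_left h2 (hpos f)
    nlinarith

/-- A gap bound gives geometric decay for a lazy symmetric averaging map. -/
theorem pow_decay (P : (Ω → ℝ) →ₗ[ℝ] (Ω → ℝ)) (hsym : ∀ f g, ip (P f) g = ip f (P g))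
    (hpos : ∀ f, 0 ≤ ip f (P f)) (hle : ∀ f, ip f (P f) ≤ ip f f)
    (hsum : ∀ f, ∑ x, P f x = ∑ x, f x) (γ : ℝ) (hγ : γ ≤ 1)
    (hgap : ∀ f, ∑ x, f x = 0 → γ * ip f f ≤ ip f f - ip f (P f))
    (f : Ω → ℝ) (hf : ∑ x, f x = 0) (t : ℕ) :
    ip ((P ^ t) f) ((P ^ t) f) ≤ (1 - γ) ^ t * ip f f := by
  have hmean : ∀ t, ∑ x, (P ^ t) f x = 0 := by
    intro t
    induction t with
    | zero => simpa using hf
    | succ t ih => rw [pow_succ', Module.End.mul_apply, hsum]; exact ih
  induction t with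
  | zero => simp
  | succ t ih =>
    rw [pow_succ', Module.End.mul_apply]
    set g := (P ^ t) f with hg
    have h1 : ip (P g) (P g) ≤ ip g (P g) := by
      have h := psd_sq_le P hsym hpos (P g) g
      have h2 := hle (P g)
      rcases (ip_self_nonneg (P g)).eq_or_lt with h0 | h0
      · linarith [hpos g]
      · have h3 := mul_le_mul_of_nonneg_right h2 (hpos g)
        nlinarith
    have h2 := hgap g (hmean t)
    calc ip (P g) (P g) ≤ ip g (P g) := h1
      _ ≤ (1 - γ) * ip g g := by linarith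
      _ ≤ (1 - γ) * ((1 - γ) ^ t * ip f f) := mul_le_mul_of_nonneg_left ih (by linarith)
      _ = (1 - γ) ^ (t + 1) * ip f f := by ring

end Vale.Agent.P335
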