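import Vale.Agent.P335.Triangle
import Vale.Agent.P335.Connect

/-! The trade generator is dominated by its square, and has gap at least one. -/

namespace Vale.Agent.P335

open Finset

variable {V : Type*} [Fintype V] [DecidableEq V] {d : V → ℕ}

theorem Tri.card_set (T : Tri V) : T.set.card = 3 := by
  rw [Tri.set, Finset.card_image_of_injective _ T.inj, Finset.card_univ, Fintype.card_fin]

theorem Tri.opp_inj (T : Tri V) : Function.Injective T.opp := by
  intro i j h
  rw [T.opp_eq, T.opp_eq] at h
  exact T.inj (Finset.erase_injOn T.set (T.t_mem i) (T.t_mem j) h)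

theorem Tri.pairs_eq (T : Tri V) : T.set.powersetCard 2 = Finset.univ.image T.opp := by
  refine (Finset.eq_of_subset_of_card_le ?_ ?_).symm
  · intro a ha
    obtain ⟨j, -, rfl⟩ := Finset.mem_image.1 ha
    refine Finset.mem_powersetCard.2 ⟨T.opp_subset j, ?_⟩
    rw [T.opp_eq, Finset.card_erase_of_mem (T.t_mem j), T.card_set]
  · rw [Finset.card_powersetCard, T.card_set, Finset.card_image_of_injective _ T.opp_inj,
      Finset.card_univ, Fintype.card_fin]
    rfl

theorem exists_tri (S : Finset V) (h : S.card = 3) : ∃ T : Tri V, T.set = S := by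
  obtain ⟨x, y, z, hxy, hxz, hyz, rfl⟩ := Finset.card_eq_three.1 h
  refine ⟨⟨![x, y, z], ?_⟩, ?_⟩
  · intro i j
    fin_cases i <;> fin_cases j <;> simp [hxy, hxz, hyz, hxy.symm, hxz.symm, hyz.symm]
  · ext v
    simp [Tri.set, Fin.exists_fin_succ, eq_comm]

theorem triple_nonneg (F : Real' d → ℝ) (S : Finset V) (h : S.card = 3) :
    0 ≤ ∑ a ∈ S.powersetCard 2, ∑ b ∈ S.powersetCard 2,
      if a ≠ b then ip (tradeQ d a F) (tradeQ d b F) else 0 := by
  obtain ⟨T, rfl⟩ := exists_tri S h
  have hsq := T.triangle_sq F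
  simp only [ip_sum_right, ip_tradeQ_self] at hsq
  simp only [T.pairs_eq, Finset.sum_image (fun _ _ _ _ h => T.opp_inj h)]
  have e : ∀ i j, (if T.opp i ≠ T.opp j then ip (tradeQ d (T.opp i) F) (tradeQ d (T.opp j) F) else 0)
      = ip (tradeQ d (T.opp i) F) (tradeQ d (T.opp j) F)
        - if i = j then ip (tradeQ d (T.opp i) F) (tradeQ d (T.opp j) F) else 0 := by
    intro i j
    by_cases hij : i = j
    · simp [hij]
    · rw [if_pos (fun h => hij (T.opp_inj h)), if_neg hij, sub_zero]
  simp only [e, Finset.sum_sub_distrib, Finset.sum_ite_eq, Finset.mem_univ, if_true]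
  simp only [ip_sum_left] at hsq
  rw [Finset.sum_comm] at hsq
  linarith

theorem intersecting_eq (x : Finset V → Finset V → ℝ) :
    ∑ a ∈ pairs V, ∑ b ∈ pairs V, (if ¬ Disjoint a b ∧ a ≠ b then x a b else 0)
      = ∑ S ∈ (Finset.univ : Finset V).powersetCard 3,
          ∑ a ∈ S.powersetCard 2, ∑ b ∈ S.powersetCard 2, if a ≠ b then x a b else 0 := by
  have hsub : ∀ S : Finset V, S.powersetCard 2 = (pairs V).filter fun a => a ⊆ S := by
    intro S
    ext a
    simp [pairs, Finset.mem_powersetCard, and_comm]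
  simp only [hsub, Finset.sum_filter]
  rw [Finset.sum_comm (s := (Finset.univ : Finset V).powersetCard 3)]
  refine Finset.sum_congr rfl fun a ha => ?_
  simp only [Finset.ite_sum_zero]
  rw [Finset.sum_comm]
  refine Finset.sum_congr rfl fun b hb => ?_
  simp only [← ite_and]
  have ca : a.card = 2 := (Finset.mem_powersetCard.1 ha).2
  have cb : b.card = 2 := (Finset.mem_powersetCard.1 hb).2
  have hu := Finset.card_union_add_card_inter a b
  by_cases hab : a = b
  · subst hab; simp
  by_cases hd : Disjoint a b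
  · rw [if_neg (by simp [hd])]
    refine (Finset.sum_eq_zero fun S hS => if_neg ?_).symm
    rintro ⟨h1, h2, -⟩
    have := Finset.card_le_card (Finset.union_subset h1 h2)
    rw [Finset.card_union_of_disjoint hd, ca, cb, (Finset.mem_powersetCard.1 hS).2] at this
    omega
  · rw [if_pos ⟨hd, hab⟩]
    have hi : 0 < (a ∩ b).card := Finset.card_pos.2 (Finset.not_disjoint_iff_nonempty_inter.1 hd)
    have hi2 : (a ∩ b).card < 2 := by
      rw [← ca]
      refine Finset.card_lt_card (Finset.inter_subset_left.ssubset_of_ne fun h => hab ?_)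
      exact Finset.eq_of_subset_of_card_le (Finset.inter_eq_left.1 h) (by omega)
    have c3 : (a ∪ b).card = 3 := by omega
    rw [Finset.sum_eq_single (a ∪ b)]
    · rw [if_pos ⟨Finset.subset_union_left, Finset.subset_union_right, hab⟩]
    · intro S hS hne
      refine if_neg ?_
      rintro ⟨h1, h2, -⟩
      refine hne (Finset.eq_of_subset_of_card_le (Finset.union_subset h1 h2) ?_).symm
      rw [c3, (Finset.mem_powersetCard.1 hS).2]
    · intro h
      exact absurd (Finset.mem_powersetCard.2 ⟨Finset.subset_univ _, c3⟩) h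

theorem tradeK_sym (F G : Real' d → ℝ) : ip (tradeK d F) G = ip F (tradeK d G) := by
  simp only [tradeK_apply, ip_sum_left, ip_sum_right, ip_tradeQ]

theorem tradeK_pos (F : Real' d → ℝ) : 0 ≤ ip F (tradeK d F) := by
  simp only [tradeK_apply, ip_sum_right, ip_tradeQ_self]
  exact Finset.sum_nonneg fun _ _ => ip_self_nonneg _

theorem tradeK_one : tradeK d (fun _ => 1) = 0 := by
  rw [tradeK_apply]
  refine Finset.sum_eq_zero fun a _ => ?_
  rw [tradeQ_apply, avgOp_eq_self _ _ fun _ _ _ => rfl, sub_self]

/-- The trade generator is dominated by its square. -/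
theorem tradeK_sq (F : Real' d → ℝ) : ip F (tradeK d F) ≤ ip (tradeK d F) (tradeK d F) := by
  have h1 := disjoint_sum_nonneg (d := d) F
  have h2 : 0 ≤ ∑ a ∈ pairs V, ∑ b ∈ pairs V,
      if ¬ Disjoint a b ∧ a ≠ b then ip (tradeQ d a F) (tradeQ d b F) else 0 := by
    rw [intersecting_eq]
    exact Finset.sum_nonneg fun S hS => triple_nonneg F S (Finset.mem_powersetCard.1 hS).2
  have e : ∀ a ∈ pairs V, ∀ b ∈ pairs V, ip (tradeQ d a F) (tradeQ d b F)
      = (if a = b then ip (tradeQ d a F) (tradeQ d b F) else 0)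
        + ((if Disjoint a b then ip (tradeQ d a F) (tradeQ d b F) else 0)
        + if ¬ Disjoint a b ∧ a ≠ b then ip (tradeQ d a F) (tradeQ d b F) else 0) := by
    intro a ha b _
    by_cases hab : a = b
    · subst hab
      have : ¬ Disjoint a a := by
        rw [disjoint_self, Finset.bot_eq_empty, ← Finset.card_eq_zero,
          (Finset.mem_powersetCard.1 ha).2]
        decide
      rw [if_pos rfl, if_neg this, if_neg (fun h => h.2 rfl), add_zero, add_zero]
    · by_cases hd : Disjoint a b <;> simp [hab, hd]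
  simp only [tradeK_apply, ip_sum_right, ip_sum_left, ip_tradeQ_self]
  rw [Finset.sum_comm (f := fun i j => ip (tradeQ d j F) (tradeQ d i F)),
    Finset.sum_congr rfl fun a ha => Finset.sum_congr rfl fun b hb => e a ha b hb]
  simp only [Finset.sum_add_distrib, Finset.sum_ite_eq]
  rw [Finset.sum_congr rfl fun a ha => if_pos ha]
  linarith

/-- The trade generator has gap at least one. -/
theorem trade_gap (F : Real' d → ℝ) (hF : ∑ x, F x = 0) : ip F F ≤ ip F (tradeK d F) :=
  gap_of_sq (tradeK d) tradeK_sym tradeK_one tradeK_pos tradeK_sq tradeK_ker F hF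

end Vale.Agent.P335
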