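import Mathlib
import Vale.Agent.P335.CountVar

/-! The variance inequality for constrained three-colourings. -/

namespace Vale.Agent.P335

open Finset

variable {I : Type*} [Fintype I] [DecidableEq I]

/-- Colourings in which, for each colour, the two classes have a prescribed count difference. -/
def colourings (cls : I → Bool) (e : Fin 3 → ℤ) : Finset (I → Fin 3) :=
  Finset.univ.filter fun χ => ∀ j,
    ((Finset.univ.filter fun i => cls i = true ∧ χ i = j).card : ℤ)
      - ((Finset.univ.filter fun i => cls i = false ∧ χ i = j).card : ℤ) = e j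

namespace Colour

/-- The number of points of `s` of class `l` and colour `j`. -/
def cnt (cls : I → Bool) (s : Finset I) (χ : I → Fin 3) (l : Bool) (j : Fin 3) : ℕ :=
  (s.filter fun i => cls i = l ∧ χ i = j).card

/-- Colourings equal to `base` off `s`, with the prescribed counts on `s`. -/
def col (cls : I → Bool) (s : Finset I) (base : I → Fin 3) (r : Bool → Fin 3 → ℕ) :
    Finset (I → Fin 3) :=
  univ.filter fun χ => (∀ i, i ∉ s → χ i = base i) ∧ ∀ l j, cnt cls s χ l j = r l j

/-- The sum of squared deviations from the mean. -/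
noncomputable def dev {β : Type*} (s : Finset β) (f : β → ℝ) : ℝ :=
  ∑ x ∈ s, f x ^ 2 - (∑ x ∈ s, f x) ^ 2 / s.card

/-- The indicator pattern of a colour. -/
def pat (χ : I → Fin 3) (j : Fin 3) : I → Bool := fun i => decide (χ i = j)

theorem mem_col {cls : I → Bool} {s : Finset I} {base : I → Fin 3} {r : Bool → Fin 3 → ℕ}
    {χ : I → Fin 3} :
    χ ∈ col cls s base r ↔ (∀ i, i ∉ s → χ i = base i) ∧ ∀ l j, cnt cls s χ l j = r l j := by
  simp [col]

theorem cnt_insert (cls : I → Bool) {s : Finset I} {x : I} (hx : x ∉ s) (χ : I → Fin 3) (l : Bool)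
    (j : Fin 3) :
    cnt cls (insert x s) χ l j = cnt cls s χ l j + if cls x = l ∧ χ x = j then 1 else 0 := by
  rw [cnt, cnt, filter_insert]
  split_ifs with h
  · rw [card_insert_of_notMem fun e => hx (mem_filter.1 e).1]
  · rfl

/-- One point of class `l₀` and colour `k` fewer. -/
def lower (r : Bool → Fin 3 → ℕ) (l₀ : Bool) (k : Fin 3) : Bool → Fin 3 → ℕ :=
  fun l j => r l j - if l = l₀ ∧ j = k then 1 else 0

theorem col_split {cls : I → Bool} {s : Finset I} {x : I} (hx : x ∉ s) (base : I → Fin 3)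
    (r : Bool → Fin 3 → ℕ) (k : Fin 3) :
    (col cls (insert x s) base r).filter (fun χ => χ x = k) =
      if r (cls x) k = 0 then ∅ else
        col cls s (Function.update base x k) (lower r (cls x) k) := by
  split_ifs with h0
  · refine filter_eq_empty_iff.2 fun χ hχ hk => ?_
    have := (mem_col.1 hχ).2 (cls x) k
    rw [cnt_insert cls hx, if_pos ⟨rfl, hk⟩, h0] at this
    omega
  · ext χ
    simp only [mem_filter, mem_col, mem_insert, lower]
    constructor
    · rintro ⟨⟨h1, h2⟩, h3⟩
      refine ⟨fun i hi => ?_, fun l j => ?_⟩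
      · rcases eq_or_ne i x with rfl | hne
        · simp [h3]
        · rw [Function.update_of_ne hne, h1 i (by tauto)]
      · have := h2 l j
        rw [cnt_insert cls hx, h3] at this
        simp only [eq_comm (a := cls x), eq_comm (a := k)] at this
        omega
    · rintro ⟨h1, h2⟩
      have h3 : χ x = k := by simpa using h1 x hx
      refine ⟨⟨fun i hi => ?_, fun l j => ?_⟩, h3⟩
      · push Not at hi
        rw [h1 i hi.2, Function.update_of_ne hi.1]
      · rw [cnt_insert cls hx, h2 l j, h3]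
        by_cases hc : cls x = l ∧ k = j
        · obtain ⟨rfl, rfl⟩ := hc
          simp
          omega
        · rw [if_neg hc, if_neg (fun h => hc ⟨h.1.symm, h.2.symm⟩)]
          simp

theorem sum_lower {r : Bool → Fin 3 → ℕ} {l₀ : Bool} {k : Fin 3} (h : r l₀ k ≠ 0) (l : Bool) :
    ∑ j, lower r l₀ k l j + (if l = l₀ then 1 else 0) = ∑ j, r l j := by
  have : (if l = l₀ then 1 else 0 : ℕ) = ∑ j, if l = l₀ ∧ j = k then 1 else 0 := by
    by_cases hl : l = l₀ <;> simp [hl]
  rw [this, ← sum_add_distrib]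
  refine sum_congr rfl fun j _ => ?_
  simp only [lower]
  split_ifs with hh
  · obtain ⟨rfl, rfl⟩ := hh
    omega
  · rfl

theorem fact_lower {r : Bool → Fin 3 → ℕ} {l₀ : Bool} {k : Fin 3} (h : r l₀ k ≠ 0) :
    r l₀ k * ∏ p : Bool × Fin 3, (lower r l₀ k p.1 p.2).factorial =
      ∏ p : Bool × Fin 3, (r p.1 p.2).factorial := by
  rw [← mul_prod_erase univ _ (mem_univ (l₀, k)), ← mul_prod_erase univ _ (mem_univ (l₀, k)),
    ← mul_assoc]
  have e1 : r l₀ k * (lower r l₀ k l₀ k).factorial = (r l₀ k).factorial := by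
    simp [lower, Nat.mul_factorial_pred h]
  rw [e1]
  refine congrArg _ (prod_congr rfl fun p hp => ?_)
  have hne : ¬(p.1 = l₀ ∧ p.2 = k) := fun e => (mem_erase.1 hp).1 (Prod.ext e.1 e.2)
  simp [lower, hne]

theorem card_col (cls : I → Bool) (s : Finset I) : ∀ (base : I → Fin 3) (r : Bool → Fin 3 → ℕ),
    (∀ l, ∑ j, r l j = (s.filter fun i => cls i = l).card) →
    (col cls s base r).card * ∏ p : Bool × Fin 3, (r p.1 p.2).factorial =
      ∏ l, (s.filter fun i => cls i = l).card.factorial := by
  induction s using Finset.induction with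
  | empty =>
    intro base r hr
    have h0 : ∀ l j, r l j = 0 := fun l j => by
      have h' := hr l
      rw [filter_empty, card_empty] at h'
      exact sum_eq_zero_iff.1 h' j (mem_univ j)
    have : col cls ∅ base r = {base} := by
      ext χ
      simp [mem_col, cnt, h0, funext_iff]
    simp [this, h0]
  | insert x s hx ih =>
    intro base r hr
    set R := ∏ p : Bool × Fin 3, (r p.1 p.2).factorial
    set m := fun l => (s.filter fun i => cls i = l).card
    have hm : ∀ l, ((insert x s).filter fun i => cls i = l).card =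
        m l + if cls x = l then 1 else 0 := by
      intro l
      rw [filter_insert]
      split_ifs with h
      · rw [card_insert_of_notMem fun e => hx (mem_filter.1 e).1]
      · rfl
    have piece : ∀ k, ((col cls (insert x s) base r).filter fun χ => χ x = k).card * R =
        r (cls x) k * ∏ l, (m l).factorial := by
      intro k
      rw [col_split hx]
      split_ifs with h0
      · simp [h0]
      · rw [show R = r (cls x) k * ∏ p : Bool × Fin 3, (lower r (cls x) k p.1 p.2).factorial from
          (fact_lower h0).symm, mul_left_comm, ih]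
        intro l
        have h1 := sum_lower h0 l
        have h2 := hr l
        rw [hm] at h2
        simp only [eq_comm (a := cls x)] at h2
        simp only [m] at h2
        omega
    rw [card_eq_sum_card_fiberwise (f := fun χ => χ x) (t := univ) (fun χ _ => mem_coe.2 (mem_univ _)),
      sum_mul, sum_congr rfl fun k _ => piece k, ← sum_mul, hr (cls x), hm]
    simp only [hm]
    cases hc : cls x <;>
      simp [Fintype.prod_bool, Nat.factorial_succ] <;> ring

theorem col_feasible {cls : I → Bool} {s : Finset I} {base : I → Fin 3} {r : Bool → Fin 3 → ℕ}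
    {χ : I → Fin 3} (hχ : χ ∈ col cls s base r) (l : Bool) :
    ∑ j, r l j = (s.filter fun i => cls i = l).card := by
  rw [card_eq_sum_card_fiberwise (f := χ) (t := univ) (fun i _ => mem_coe.2 (mem_univ _))]
  refine sum_congr rfl fun j _ => ?_
  rw [← (mem_col.1 hχ).2 l j, cnt, filter_filter]

/-- The possible sets of colour `j`. -/
def valid (cls : I → Bool) (s : Finset I) (r : Bool → Fin 3 → ℕ) (j : Fin 3) : Finset (Finset I) :=
  s.powerset.filter fun A => ∀ l, (A.filter fun i => cls i = l).card = r l j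

theorem pat_of_mem {cls : I → Bool} {s : Finset I} {base : I → Fin 3} {r : Bool → Fin 3 → ℕ}
    {χ : I → Fin 3} (hχ : χ ∈ col cls s base r) (j : Fin 3) :
    (s.filter fun i => χ i = j) ∈ valid cls s r j ∧
      pat χ j = fun i => decide (i ∈ s.filter (fun i => χ i = j) ∨ (i ∉ s ∧ base i = j)) := by
  refine ⟨mem_filter.2 ⟨mem_powerset.2 (filter_subset _ _), fun l => ?_⟩, ?_⟩
  · rw [← (mem_col.1 hχ).2 l j, cnt, filter_filter]
    congr 1
    exact filter_congr fun i _ => and_comm
  · funext i
    simp only [pat, mem_filter]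
    by_cases hi : i ∈ s
    · simp [hi]
    · simp [hi, (mem_col.1 hχ).1 i hi]

theorem fibre_eq {cls : I → Bool} {s : Finset I} (base : I → Fin 3) (r : Bool → Fin 3 → ℕ)
    (j : Fin 3) {A : Finset I} (hA : A ∈ valid cls s r j) :
    (col cls s base r).filter (fun χ => s.filter (fun i => χ i = j) = A) =
      col cls (s \ A) (fun i => if i ∈ A then j else base i)
        (fun l k => if k = j then 0 else r l k) := by
  obtain ⟨hAs, hAc⟩ := mem_filter.1 hA
  rw [mem_powerset] at hAs
  ext χ
  simp only [mem_filter, mem_col, mem_sdiff]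
  constructor
  · rintro ⟨⟨h1, h2⟩, h3⟩
    have hj : ∀ i ∈ s, (χ i = j ↔ i ∈ A) := fun i hi => by rw [← h3]; simp [hi]
    refine ⟨fun i hi => ?_, fun l k => ?_⟩
    · by_cases hiA : i ∈ A
      · rw [if_pos hiA]; exact (hj i (hAs hiA)).2 hiA
      · rw [if_neg hiA]; exact h1 i fun his => hi ⟨his, hiA⟩
    · split_ifs with hk
      · subst hk
        rw [cnt, card_eq_zero, filter_eq_empty_iff]
        intro i hi hh
        exact (mem_sdiff.1 hi).2 ((hj i (mem_sdiff.1 hi).1).1 hh.2)
      · rw [← h2 l k, cnt, cnt]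
        congr 1
        ext i
        simp only [mem_filter, mem_sdiff]
        exact ⟨fun h => ⟨h.1.1, h.2⟩,
          fun h => ⟨⟨h.1, fun hiA => hk (h.2.2 ▸ (hj i h.1).2 hiA)⟩, h.2⟩⟩
  · rintro ⟨h1, h2⟩
    have hA' : ∀ i ∈ A, χ i = j := fun i hi => by
      rw [h1 i fun h => h.2 hi, if_pos hi]
    have hj : ∀ i ∈ s, i ∉ A → χ i ≠ j := by
      intro i hi hiA he
      have := h2 (cls i) j
      rw [if_pos rfl, cnt, card_eq_zero, filter_eq_empty_iff] at this
      exact this (mem_sdiff.2 ⟨hi, hiA⟩) ⟨rfl, he⟩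
    refine ⟨⟨fun i hi => ?_, fun l k => ?_⟩, ?_⟩
    · rw [h1 i fun h => hi h.1, if_neg fun h => hi (hAs h)]
    · rcases eq_or_ne k j with rfl | hk
      · rw [← hAc l, cnt]
        congr 1
        ext i
        simp only [mem_filter]
        exact ⟨fun h => ⟨by_contra fun hiA => hj i h.1 hiA h.2.2, h.2.1⟩,
          fun h => ⟨hAs h.1, h.2, hA' i h.1⟩⟩
      · have := h2 l k
        rw [if_neg hk] at this
        rw [← this, cnt, cnt]
        congr 1
        ext i
        simp only [mem_filter, mem_sdiff]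
        exact ⟨fun h => ⟨⟨h.1, fun hiA => hk (h.2.2 ▸ hA' i hiA)⟩, h.2⟩,
          fun h => ⟨h.1.1, h.2⟩⟩
    · ext i
      simp only [mem_filter]
      exact ⟨fun h => by_contra fun hiA => hj i h.1 hiA h.2, fun h => ⟨hAs h, hA' i h⟩⟩

theorem marginal {cls : I → Bool} {s : Finset I} {base : I → Fin 3} {r : Bool → Fin 3 → ℕ}
    (j : Fin 3) (F : (I → Bool) → ℝ) :
    (∑ χ ∈ col cls s base r, F (pat χ j)) * ((valid cls s r j).card : ℝ) =
      ((col cls s base r).card : ℝ) *
        ∑ A ∈ valid cls s r j, F (fun i => decide (i ∈ A ∨ (i ∉ s ∧ base i = j))) := by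
  set Ω := col cls s base r
  rcases Ω.eq_empty_or_nonempty with h | ⟨χ₀, hχ₀⟩
  · simp [h]
  set R := ∏ p : Bool × Fin 3, (if p.2 = j then 0 else r p.1 p.2).factorial
  set K := ∏ l, ((s.filter fun i => cls i = l).card - r l j).factorial
  have hfib : ∀ A ∈ valid cls s r j,
      (Ω.filter fun χ => s.filter (fun i => χ i = j) = A).card * R = K := by
    intro A hA
    rw [fibre_eq base r j hA]
    have hc : ∀ l, ((s \ A).filter fun i => cls i = l).card =
        (s.filter fun i => cls i = l).card - r l j := by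
      intro l
      obtain ⟨h1, h2⟩ := mem_filter.1 hA
      rw [mem_powerset] at h1
      rw [← h2 l, ← card_sdiff_of_subset (filter_subset_filter _ h1)]
      congr 1
      ext i
      simp only [mem_filter, mem_sdiff]
      tauto
    have := card_col cls (s \ A) (fun i => if i ∈ A then j else base i)
      (fun l k => if k = j then 0 else r l k) (fun l => by
        rw [hc, ← col_feasible hχ₀ l, ← sum_erase_add univ (r l) (mem_univ j), Nat.add_sub_cancel,
          ← sum_erase_add univ (fun k => if k = j then 0 else r l k) (mem_univ j)]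
        simp only [if_true, add_zero]
        exact sum_congr rfl fun k hk => if_neg (ne_of_mem_erase hk))
    simp only [hc] at this
    exact this
  have hR : (R : ℝ) ≠ 0 := by
    simp only [R, Nat.cast_ne_zero]
    exact prod_ne_zero_iff.2 fun p _ => Nat.factorial_ne_zero _
  have hcard : (Ω.card : ℝ) * R = (valid cls s r j).card * (K : ℝ) := by
    rw [card_eq_sum_card_fiberwise (fun χ hχ => (pat_of_mem hχ j).1), Nat.cast_sum, sum_mul,
      ← nsmul_eq_mul, ← sum_const]
    exact sum_congr rfl fun A hA => by exact_mod_cast hfib A hA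
  have hsum : (∑ χ ∈ Ω, F (pat χ j)) * R =
      (K : ℝ) * ∑ A ∈ valid cls s r j, F (fun i => decide (i ∈ A ∨ (i ∉ s ∧ base i = j))) := by
    rw [← sum_fiberwise_of_maps_to (fun χ hχ => (pat_of_mem hχ j).1), sum_mul, mul_sum]
    refine sum_congr rfl fun A hA => ?_
    rw [sum_congr rfl (g := fun _ => F fun i => decide (i ∈ A ∨ (i ∉ s ∧ base i = j))),
      sum_const, nsmul_eq_mul, mul_right_comm]
    · congr 1
      exact_mod_cast hfib A hA
    · intro χ hχ
      obtain ⟨h1, h2⟩ := mem_filter.1 hχ
      rw [(pat_of_mem h1 j).2, h2]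
  refine mul_right_cancel₀ hR ?_
  linear_combination ((valid cls s r j).card : ℝ) * hsum -
    (∑ A ∈ valid cls s r j, F (fun i => decide (i ∈ A ∨ (i ∉ s ∧ base i = j)))) * hcard

theorem same_mean {cls : I → Bool} {s : Finset I} {base base' : I → Fin 3}
    {r r' : Bool → Fin 3 → ℕ} (j : Fin 3) (F : (I → Bool) → ℝ)
    (hb : ∀ i, i ∉ s → (base i = j ↔ base' i = j)) (hr : ∀ l, r l j = r' l j) :
    (∑ χ ∈ col cls s base r, F (pat χ j)) * ((col cls s base' r').card : ℝ) =
      (∑ χ ∈ col cls s base' r', F (pat χ j)) * ((col cls s base r).card : ℝ) := by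
  rcases (col cls s base r).eq_empty_or_nonempty with h | ⟨χ, hχ⟩
  · simp [h]
  have h1 := marginal (cls := cls) (s := s) (base := base) (r := r) j F
  have h2 := marginal (cls := cls) (s := s) (base := base') (r := r') j F
  have e1 : valid cls s r' j = valid cls s r j := by simp only [valid, hr]
  have e2 : ∀ A : Finset I, (fun i => decide (i ∈ A ∨ (i ∉ s ∧ base' i = j))) =
      fun i => decide (i ∈ A ∨ (i ∉ s ∧ base i = j)) := by
    intro A; funext i
    by_cases hi : i ∈ s
    · simp [hi]
    · simp [hi, hb i hi]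
  rw [e1] at h2
  simp only [e2] at h2
  have hP : ((valid cls s r j).card : ℝ) ≠ 0 :=
    Nat.cast_ne_zero.2 (card_ne_zero.2 ⟨_, (pat_of_mem hχ j).1⟩)
  refine mul_right_cancel₀ hP ?_
  linear_combination ((col cls s base' r').card : ℝ) * h1 - ((col cls s base r).card : ℝ) * h2

theorem dev_split {β κ : Type*} [Fintype κ] [DecidableEq κ] (Ω : Finset β) (g : β → κ)
    (f : β → ℝ) :
    dev Ω f = ∑ k, dev (Ω.filter fun x => g x = k) f +
      (∑ k, (∑ x ∈ Ω.filter (fun x => g x = k), f x) ^ 2 / (Ω.filter fun x => g x = k).card -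
        (∑ x ∈ Ω, f x) ^ 2 / Ω.card) := by
  simp only [dev, sum_sub_distrib, sum_fiberwise]
  ring

theorem between_eq {κ : Type*} [Fintype κ] (n S : κ → ℝ) (hn : ∀ k, 0 ≤ n k)
    (hS : ∀ k, n k = 0 → S k = 0) :
    ∑ k, ∑ l, n k * n l * (S k / n k - S l / n l) ^ 2 =
      2 * (∑ k, n k) * (∑ k, S k ^ 2 / n k - (∑ k, S k) ^ 2 / ∑ k, n k) := by
  have e : ∀ k l, n k * n l * (S k / n k - S l / n l) ^ 2 =
      S k ^ 2 / n k * n l + n k * (S l ^ 2 / n l) - 2 * (S k * S l) := by
    intro k l
    rcases eq_or_ne (n k) 0 with hk | hk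
    · simp [hk, hS k hk]
    rcases eq_or_ne (n l) 0 with hl | hl
    · simp [hl, hS l hl]
    field_simp
    ring
  simp only [e, sum_add_distrib, sum_sub_distrib, ← mul_sum, ← sum_mul]
  rcases eq_or_ne (∑ k, n k) 0 with h | h
  · have h' := (sum_eq_zero_iff_of_nonneg fun k _ => hn k).1 h
    simp [h, fun k => hS k (h' k (mem_univ k))]
  · field_simp
    ring

theorem pair_sq_le {a : Fin 3 → ℝ} {k l : Fin 3} (h : ∀ j, j ≠ k → j ≠ l → a j = 0) :
    (∑ j, a j) ^ 2 ≤ 2 * ∑ j, a j ^ 2 := by
  have hsum : ∑ j, a j = ∑ j ∈ ({k, l} : Finset (Fin 3)), a j :=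
    (sum_subset (subset_univ _) fun j _ hj => by
      simp only [mem_insert, mem_singleton, not_or] at hj
      exact h j hj.1 hj.2).symm
  rw [hsum]
  refine sq_sum_le_card_mul_sum_sq.trans ?_
  refine mul_le_mul ?_ ?_ (sum_nonneg fun _ _ => sq_nonneg _) zero_le_two
  · exact_mod_cast card_le_two
  · exact sum_le_sum_of_subset_of_nonneg (subset_univ _) fun _ _ _ => sq_nonneg _

theorem fixed_counts (cls : I → Bool) (f : Fin 3 → (I → Bool) → ℝ) (s : Finset I) :
    ∀ (base : I → Fin 3) (r : Bool → Fin 3 → ℕ),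
      dev (col cls s base r) (fun χ => ∑ j, f j (pat χ j)) ≤
        2 * ∑ j, dev (col cls s base r) (fun χ => f j (pat χ j)) := by
  induction s using Finset.induction with
  | empty =>
    intro base r
    rcases (col cls ∅ base r).eq_empty_or_nonempty with h | h
    · simp [h, dev]
    · have : col cls ∅ base r = {base} := by
        refine eq_singleton_iff_nonempty_unique_mem.2 ⟨h, fun χ hχ => ?_⟩
        funext i; exact (mem_col.1 hχ).1 i (notMem_empty i)
      simp [this, dev]
  | insert x s hx ih =>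
    intro base r
    set Ω := col cls (insert x s) base r
    set F := fun (j : Fin 3) (χ : I → Fin 3) => f j (pat χ j)
    rw [dev_split Ω (fun χ => χ x), sum_congr rfl fun j _ => dev_split Ω (fun χ => χ x) (F j),
      sum_add_distrib, mul_add]
    refine add_le_add ?_ ?_
    · rw [sum_comm, mul_sum]
      refine sum_le_sum fun k _ => ?_
      rw [col_split hx]
      split_ifs with h0
      · simp [dev]
      · exact ih _ _
    set n := fun k => ((Ω.filter fun χ => χ x = k).card : ℝ)
    set S := fun j k => ∑ χ ∈ Ω.filter (fun χ => χ x = k), F j χ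
    have hn : ∀ k, 0 ≤ n k := fun k => Nat.cast_nonneg _
    have hN : (Ω.card : ℝ) = ∑ k, n k := by
      simp only [n]
      exact_mod_cast card_eq_sum_card_fiberwise (f := fun χ : I → Fin 3 => χ x) (t := univ)
        (fun χ _ => mem_coe.2 (mem_univ _))
    have hS0 : ∀ j k, n k = 0 → S j k = 0 := fun j k h => by
      simp only [n, Nat.cast_eq_zero, card_eq_zero] at h
      simp [S, h]
    have hsame : ∀ j k l, j ≠ k → j ≠ l → S j k * n l = S j l * n k := by
      intro j k l hk hl
      simp only [S, n, Ω, col_split hx]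
      split_ifs with h1 h2 h2
      · simp
      · simp
      · simp
      · refine same_mean j (f j) (fun i _ => ?_) fun q => ?_
        · rcases eq_or_ne i x with rfl | hne
          · simp [hk.symm, hl.symm]
          · simp [hne]
        · simp [lower, hk, hl]
    have hsumS : ∀ k, ∑ χ ∈ Ω.filter (fun χ => χ x = k), ∑ j, F j χ = ∑ j, S j k :=
      fun k => sum_comm
    have htot : ∀ h : (I → Fin 3) → ℝ, ∑ χ ∈ Ω, h χ = ∑ k, ∑ χ ∈ Ω.filter (fun χ => χ x = k), h χ :=
      fun h => (sum_fiberwise Ω (fun χ => χ x) h).symm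
    simp only [htot, hN]
    change (∑ k, (∑ χ ∈ Ω.filter (fun χ => χ x = k), ∑ j, F j χ) ^ 2 / n k -
        (∑ k, ∑ χ ∈ Ω.filter (fun χ => χ x = k), ∑ j, F j χ) ^ 2 / ∑ k, n k) ≤
      2 * ∑ j, (∑ k, S j k ^ 2 / n k - (∑ k, S j k) ^ 2 / ∑ k, n k)
    simp only [hsumS]
    rcases (sum_nonneg fun k _ => hn k : 0 ≤ ∑ k, n k).eq_or_lt with hz | hz
    · have h' := (sum_eq_zero_iff_of_nonneg fun k _ => hn k).1 hz.symm
      simp [← hz, fun k => h' k (mem_univ k)]
    refine le_of_mul_le_mul_left ?_ (mul_pos two_pos hz)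
    rw [← between_eq n _ hn (fun k h => by simp [hS0 _ k h]), mul_left_comm _ (2 : ℝ),
      mul_sum (a := 2 * ∑ k, n k), mul_sum (a := (2 : ℝ))]
    rw [sum_congr rfl fun j _ => congrArg (2 * ·) (between_eq n (S j) hn (hS0 j)).symm]
    simp only [mul_sum]
    rw [sum_comm (γ := Fin 3) (s := univ) (t := univ)
      (f := fun j k => ∑ l, 2 * (n k * n l * (S j k / n k - S j l / n l) ^ 2))]
    refine sum_le_sum fun k _ => ?_
    rw [sum_comm (γ := Fin 3) (s := univ) (t := univ)
      (f := fun j l => 2 * (n k * n l * (S j k / n k - S j l / n l) ^ 2))]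
    refine sum_le_sum fun l _ => ?_
    rcases (hn k).eq_or_lt with hk | hk
    · simp [← hk]
    rcases (hn l).eq_or_lt with hl | hl
    · simp [← hl]
    rw [← mul_sum, ← mul_sum, mul_left_comm, sum_div, sum_div, ← sum_sub_distrib]
    refine mul_le_mul_of_nonneg_left ?_ (mul_nonneg hk.le hl.le)
    refine pair_sq_le (k := k) (l := l) fun j hjk hjl => ?_
    rw [sub_eq_zero, div_eq_div_iff hk.ne' hl.ne']
    exact hsame j k l hjk hjl

/-- The weight of a count of class false. -/
noncomputable def weight (e : Fin 3 → ℤ) (j : Fin 3) (a : ℤ) : ℝ :=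
  if 0 ≤ a ∧ 0 ≤ a + e j then
    1 / (((a.toNat).factorial : ℝ) * (((a + e j).toNat).factorial : ℝ)) else 0

theorem fact_shift (d : ℕ) : ∀ {p q : ℕ}, p ≤ q →
    (p + d).factorial * q.factorial ≤ p.factorial * (q + d).factorial := by
  induction d with
  | zero => intro p q _; simp
  | succ d ih =>
    intro p q h
    rw [← Nat.add_assoc, ← Nat.add_assoc, Nat.factorial_succ, Nat.factorial_succ]
    have := Nat.mul_le_mul (show p + d + 1 ≤ q + d + 1 by omega) (ih h)
    calc (p + d + 1) * (p + d).factorial * q.factorial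
        = (p + d + 1) * ((p + d).factorial * q.factorial) := by ring
      _ ≤ (q + d + 1) * (p.factorial * (q + d).factorial) := this
      _ = p.factorial * ((q + d + 1) * (q + d).factorial) := by ring

theorem weight_LC (e : Fin 3 → ℤ) (j : Fin 3) : CountVar.LC (weight e j) := by
  refine ⟨fun a => ?_, fun a ha => if_neg (by omega), fun a b δ hab hδ => ?_⟩
  · simp only [weight]
    split_ifs <;> positivity
  · simp only [weight]
    by_cases ha : 0 ≤ a ∧ 0 ≤ a + e j
    · rw [if_pos ha, if_pos (show 0 ≤ b + δ ∧ 0 ≤ b + δ + e j by omega),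
        if_pos (show 0 ≤ a + δ ∧ 0 ≤ a + δ + e j by omega),
        if_pos (show 0 ≤ b ∧ 0 ≤ b + e j by omega)]
      obtain ⟨d, rfl⟩ := Int.eq_ofNat_of_zero_le hδ
      have h1 := fact_shift d (show a.toNat ≤ b.toNat by omega)
      have h2 := fact_shift d (show (a + e j).toNat ≤ (b + e j).toNat by omega)
      have h := Nat.mul_le_mul h1 h2
      rw [show (a + (d : ℤ)).toNat = a.toNat + d by omega,
        show (b + (d : ℤ)).toNat = b.toNat + d by omega,
        show (a + (d : ℤ) + e j).toNat = (a + e j).toNat + d by omega,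
        show (b + (d : ℤ) + e j).toNat = (b + e j).toNat + d by omega]
      rw [div_mul_div_comm, div_mul_div_comm, div_le_div_iff₀ (by positivity) (by positivity)]
      have hR := (Nat.cast_le (α := ℝ)).2 h
      push_cast at hR
      nlinarith [hR]
    · rw [if_neg ha, zero_mul]
      exact mul_nonneg (by split_ifs <;> positivity) (by split_ifs <;> positivity)

end Colour

open Colour in
theorem three_colour (cls : I → Bool) (e : Fin 3 → ℤ) (f : Fin 3 → (I → Bool) → ℝ)
    (hf : ∀ j, ∑ χ ∈ colourings cls e, f j (fun i => decide (χ i = j)) = 0) :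
    ∑ χ ∈ colourings cls e, (∑ j, f j (fun i => decide (χ i = j))) ^ 2
      ≤ 2 * ∑ j, ∑ χ ∈ colourings cls e, f j (fun i => decide (χ i = j)) ^ 2 := by
  change ∀ j, ∑ χ ∈ colourings cls e, f j (pat χ j) = 0 at hf
  change ∑ χ ∈ colourings cls e, (∑ j, f j (pat χ j)) ^ 2 ≤
    2 * ∑ j, ∑ χ ∈ colourings cls e, f j (pat χ j) ^ 2
  set Ω := colourings cls e
  set n := (univ.filter fun i => cls i = false).card with hn
  set wv := fun (χ : I → Fin 3) (j : Fin 3) => (cnt cls univ χ false j : ℤ)
  rcases Ω.eq_empty_or_nonempty with hΩ | ⟨χ₀, hχ₀⟩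
  · simp [hΩ]
  have hmem : ∀ χ : I → Fin 3, χ ∈ Ω ↔
      ∀ j, (cnt cls univ χ true j : ℤ) = wv χ j + e j := by
    intro χ
    simp only [Ω, colourings, mem_filter, mem_univ, true_and, cnt, wv]
    exact forall_congr' fun j => by omega
  have htot : ∀ (χ : I → Fin 3) l,
      ∑ j, cnt cls univ χ l j = (univ.filter fun i => cls i = l).card := fun χ l =>
    col_feasible (base := χ) (r := fun l j => cnt cls univ χ l j)
      (mem_col.2 ⟨fun i _ => rfl, fun _ _ => rfl⟩) l
  have hmaps : ∀ χ ∈ Ω, wv χ ∈ CountVar.states n := by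
    intro χ _
    rw [CountVar.mem_states]
    have h := htot χ false
    refine ⟨fun j => ⟨Int.natCast_nonneg _, ?_⟩, ?_⟩
    · have := single_le_sum (f := fun j => cnt cls univ χ false j) (fun _ _ => Nat.zero_le _)
        (mem_univ j)
      simp only [wv]
      omega
    · simp only [wv]
      exact_mod_cast h
  set rw' := fun (w : Fin 3 → ℤ) (l : Bool) (j : Fin 3) =>
    if l = true then (w j + e j).toNat else (w j).toNat
  set C : ℝ := ∏ l, ((univ.filter fun i => cls i = l).card.factorial : ℝ)
  set Φ := fun (j : Fin 3) (a : ℤ) => weight e j a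
  have hfib : ∀ w ∈ CountVar.states n, (∀ j, 0 ≤ w j + e j) →
      Ω.filter (fun χ => wv χ = w) = col cls univ χ₀ (rw' w) := by
    intro w hw hwe
    ext χ
    simp only [mem_filter, hmem, mem_col, mem_univ, not_true, IsEmpty.forall_iff, implies_true,
      true_and, funext_iff, rw']
    constructor
    · rintro ⟨h1, h2⟩ l j
      have a1 := h1 j; have a2 := h2 j
      simp only [wv] at a1 a2
      cases l <;> simp <;> omega
    · intro h
      have hw' := (CountVar.mem_states.1 hw).1
      refine ⟨fun j => ?_, fun j => ?_⟩ <;>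
      · have a1 := h true j; have a2 := h false j; have := hw' j; have := hwe j
        simp at a1 a2
        simp only [wv]
        omega
  have hempty : ∀ w, (∃ j, w j + e j < 0) → Ω.filter (fun χ => wv χ = w) = ∅ := by
    rintro w ⟨j, hj⟩
    refine filter_eq_empty_iff.2 fun χ hχ h => ?_
    have := (hmem χ).1 hχ j
    rw [h] at this
    omega
  have hcard : ∀ w ∈ CountVar.states n,
      ((Ω.filter fun χ => wv χ = w).card : ℝ) = C * CountVar.wt Φ w := by
    intro w hw
    by_cases hwe : ∀ j, 0 ≤ w j + e j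
    · rw [hfib w hw hwe]
      have hsum : ∀ l, ∑ j, rw' w l j = (univ.filter fun i => cls i = l).card := by
        have hw' := CountVar.mem_states.1 hw
        have h0 := htot χ₀ true
        have h1 := htot χ₀ false
        have h2 := (hmem χ₀).1 hχ₀
        simp only [Fin.sum_univ_three, wv] at h0 h1 h2 hw'
        intro l
        have a0 := h2 0; have a1 := h2 1; have a2 := h2 2
        have b0 := hw'.1 0; have b1 := hw'.1 1; have b2 := hw'.1 2
        have c0 := hwe 0; have c1 := hwe 1; have c2 := hwe 2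
        have hs := hw'.2
        cases l <;> simp [rw', Fin.sum_univ_three] <;> omega
      have h := card_col cls univ χ₀ (rw' w) hsum
      have h' := congrArg (fun t : ℕ => (t : ℝ)) h
      simp only [Nat.cast_mul, Nat.cast_prod] at h'
      have hne : (∏ p : Bool × Fin 3, ((rw' w p.1 p.2).factorial : ℝ)) ≠ 0 :=
        prod_ne_zero_iff.2 fun p _ => Nat.cast_ne_zero.2 (Nat.factorial_ne_zero _)
      have hwt : CountVar.wt Φ w = 1 / ∏ p : Bool × Fin 3, ((rw' w p.1 p.2).factorial : ℝ) := by
        rw [one_div, Fintype.prod_prod_type, Fintype.prod_bool, ← prod_mul_distrib,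
          ← prod_inv_distrib, CountVar.wt]
        refine prod_congr rfl fun j _ => ?_
        simp only [Φ, weight, rw', if_pos (And.intro ((CountVar.mem_states.1 hw).1 j).1 (hwe j))]
        simp [mul_comm]
      rw [hwt, mul_one_div, eq_div_iff hne]
      exact h'
    · push Not at hwe
      rw [hempty w hwe]
      obtain ⟨j, hj⟩ := hwe
      have : CountVar.wt Φ w = 0 := prod_eq_zero (mem_univ j) (if_neg (by omega))
      simp [this]
  set g := fun (j : Fin 3) (a : ℤ) =>
    (∑ χ ∈ Ω.filter (fun χ => wv χ j = a), f j (pat χ j)) / (Ω.filter fun χ => wv χ j = a).card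
  have hg : ∀ w ∈ CountVar.states n, ∀ j, ∑ χ ∈ Ω.filter (fun χ => wv χ = w), f j (pat χ j) =
      ((Ω.filter fun χ => wv χ = w).card : ℝ) * g j (w j) := by
    intro w hw j
    set A := Ω.filter fun χ => wv χ = w
    set B := Ω.filter fun χ => wv χ j = w j
    rcases A.eq_empty_or_nonempty with hA | ⟨χ₁, hχ₁⟩
    · simp [hA]
    have hAB : A ⊆ B := fun χ hχ => by
      simp only [A, B, mem_filter] at hχ ⊢
      exact ⟨hχ.1, by rw [hχ.2]⟩
    have hB0 : (B.card : ℝ) ≠ 0 := Nat.cast_ne_zero.2 (card_ne_zero.2 ⟨χ₁, hAB hχ₁⟩)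
    have key : (∑ χ ∈ A, f j (pat χ j)) * (B.card : ℝ) =
        (∑ χ ∈ B, f j (pat χ j)) * (A.card : ℝ) := by
      have hm : ∀ χ ∈ B, wv χ ∈ CountVar.states n := fun χ hχ => hmaps χ (mem_filter.1 hχ).1
      rw [card_eq_sum_card_fiberwise (t := CountVar.states n) (f := wv) hm, Nat.cast_sum, mul_sum,
        ← sum_fiberwise_of_maps_to hm, sum_mul]
      refine sum_congr rfl fun v hv => ?_
      rcases (B.filter fun χ => wv χ = v).eq_empty_or_nonempty with hB | ⟨χ₂, hχ₂⟩
      · simp [hB]
      obtain ⟨hB₂, hv₂⟩ := mem_filter.1 hχ₂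
      obtain ⟨hΩ₂, hj₂⟩ := mem_filter.1 hB₂
      obtain ⟨hΩ₁, hw₁⟩ := mem_filter.1 hχ₁
      have hvw : v j = w j := by rw [← hv₂]; exact hj₂
      have e1 : B.filter (fun χ => wv χ = v) = Ω.filter fun χ => wv χ = v := by
        simp only [B, filter_filter]
        refine filter_congr fun χ _ => ⟨fun h => h.2, fun h => ⟨by rw [h, hvw], h⟩⟩
      have hwe : ∀ χ ∈ Ω, ∀ i, 0 ≤ wv χ i + e i := fun χ hχ i => by
        have := (hmem χ).1 hχ i; omega
      rw [e1]
      simp only [A]
      rw [hfib v hv (fun i => hv₂ ▸ hwe χ₂ hΩ₂ i), hfib w hw (fun i => hw₁ ▸ hwe χ₁ hΩ₁ i)]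
      exact same_mean j (f j) (fun i hi => absurd (mem_univ i) hi) fun l => by
        simp only [rw', hvw]
    change _ = (A.card : ℝ) * ((∑ χ ∈ B, f j (pat χ j)) / (B.card : ℝ))
    rw [mul_div_assoc', eq_div_iff hB0]
    linarith
  have hg0 : ∀ j, ∑ w ∈ CountVar.states n, CountVar.wt Φ w * g j (w j) = 0 := by
    intro j
    have h : ∑ w ∈ CountVar.states n, C * (CountVar.wt Φ w * g j (w j)) = 0 := by
      rw [sum_congr rfl fun w hw => (show C * (CountVar.wt Φ w * g j (w j)) =
        ∑ χ ∈ Ω.filter (fun χ => wv χ = w), f j (pat χ j) by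
          rw [hg w hw j, hcard w hw, mul_assoc]), sum_fiberwise_of_maps_to hmaps]
      exact hf j
    rw [← mul_sum] at h
    refine (mul_eq_zero.1 h).resolve_left ?_
    exact prod_ne_zero_iff.2 fun l _ => Nat.cast_ne_zero.2 (Nat.factorial_ne_zero _)
  have hB := CountVar.sum_sq_le (φ := Φ) (n := n) (fun j => weight_LC e j) (g := g) hg0
  have hC : 0 ≤ C := prod_nonneg fun _ _ => Nat.cast_nonneg _
  have hsq : ∀ w ∈ CountVar.states n, ∀ (h : (I → Fin 3) → ℝ) (μ : ℝ),
      ∑ χ ∈ Ω.filter (fun χ => wv χ = w), h χ = ((Ω.filter fun χ => wv χ = w).card : ℝ) * μ →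
      ∑ χ ∈ Ω.filter (fun χ => wv χ = w), h χ ^ 2 =
        dev (Ω.filter fun χ => wv χ = w) h + C * (CountVar.wt Φ w * μ ^ 2) := by
    intro w hw h μ hμ
    rw [← mul_assoc, ← hcard w hw, dev, hμ]
    rcases eq_or_ne (((Ω.filter fun χ => wv χ = w).card : ℝ)) 0 with h0 | h0
    · simp [h0]
    · field_simp; ring
  calc ∑ χ ∈ Ω, (∑ j, f j (pat χ j)) ^ 2
      = ∑ w ∈ CountVar.states n, (dev (Ω.filter fun χ => wv χ = w) (fun χ => ∑ j, f j (pat χ j)) +
          C * (CountVar.wt Φ w * (∑ j, g j (w j)) ^ 2)) := by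
        rw [← sum_fiberwise_of_maps_to hmaps]
        refine sum_congr rfl fun w hw => hsq w hw _ _ ?_
        rw [sum_comm, mul_sum]
        exact sum_congr rfl fun j _ => hg w hw j
    _ ≤ ∑ w ∈ CountVar.states n,
          2 * (∑ j, dev (Ω.filter fun χ => wv χ = w) (fun χ => f j (pat χ j))) +
          C * (2 * ∑ w ∈ CountVar.states n, CountVar.wt Φ w * ∑ j, g j (w j) ^ 2) := by
        rw [sum_add_distrib, ← mul_sum (a := C)]
        refine add_le_add (sum_le_sum fun w hw => ?_) (mul_le_mul_of_nonneg_left hB hC)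
        by_cases hwe : ∀ j, 0 ≤ w j + e j
        · rw [hfib w hw hwe]
          exact fixed_counts cls f univ χ₀ (rw' w)
        · push Not at hwe
          rw [hempty w hwe]
          simp [dev]
    _ = 2 * ∑ j, ∑ χ ∈ Ω, f j (pat χ j) ^ 2 := by
        rw [sum_congr rfl fun j _ => (sum_fiberwise_of_maps_to hmaps _).symm, sum_comm, mul_sum,
          mul_sum, mul_sum, ← sum_add_distrib]
        refine sum_congr rfl fun w hw => ?_
        rw [sum_congr rfl fun j _ => hsq w hw (fun χ => f j (pat χ j)) (g j (w j)) (hg w hw j),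
          sum_add_distrib, mul_add, ← mul_sum, ← mul_sum]
        ring

end Vale.Agent.P335
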