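import Vale.Agent.P335.DisjointSum
import Vale.Agent.P335.ThreeColour

/-! The three trades inside a triple of vertices. -/

namespace Vale.Agent.P335

open Finset

section Columns

variable {I : Type*} [Fintype I] [DecidableEq I]

/-- Tables with three columns and given row and column sums. -/
def tables (s : I → ℕ) (c : Fin 3 → ℕ) : Finset (I → Fin 3 → Bool) :=
  Finset.univ.filter fun M => (∀ i, ∑ j, bn (M i j) = s i) ∧ ∀ j, ∑ i, bn (M i j) = c j

/-- Row read from a colour. -/
def rowOf (s : ℕ) (k j : Fin 3) : Bool :=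
  if s = 1 then decide (k = j) else if s = 2 then !decide (k = j) else decide (s = 3)

/-- Colour read from a row. -/
def colOf (s : ℕ) (v : Fin 3 → Bool) : Fin 3 :=
  if v 0 = decide (s = 1) then 0 else if v 1 = decide (s = 1) then 1 else 2

theorem row_facts : ∀ v : Fin 3 → Bool,
    (∑ j, bn (v j)) ≤ 3 ∧ ∀ j, rowOf (∑ j, bn (v j)) (colOf (∑ j, bn (v j)) v) j = v j := by
  decide +kernel

theorem colOf_rowOf : ∀ k : Fin 3,
    (colOf 1 (rowOf 1 k) = k ∧ ∑ j, bn (rowOf 1 k j) = 1) ∧
      (colOf 2 (rowOf 2 k) = k ∧ ∑ j, bn (rowOf 2 k j) = 2) := by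
  decide +kernel

theorem rowOf_spec {s : ℕ} (h : s = 1 ∨ s = 2) (k : Fin 3) :
    colOf s (rowOf s k) = k ∧ ∑ j, bn (rowOf s k j) = s := by
  rcases h with rfl | rfl
  · exact (colOf_rowOf k).1
  · exact (colOf_rowOf k).2

theorem sum_sub {M : Type*} [AddCommMonoid M] (P : I → Prop) [DecidablePred P]
    [Fintype {i // P i}] (g : {i // P i} → M) :
    ∑ i, g i = ∑ i : I, if h : P i then g ⟨i, h⟩ else 0 := by
  rw [← Finset.sum_filter_of_ne (p := P) (fun i _ hne => by by_contra h; simp [h] at hne),
    Finset.sum_subtype (Finset.univ.filter P) (p := P) (by simp)]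
  exact Finset.sum_congr rfl fun i _ => by rw [dif_pos i.2]

theorem three_column (s : I → ℕ) (c : Fin 3 → ℕ) (f : Fin 3 → (I → Bool) → ℝ)
    (hf : ∀ j, ∑ M ∈ tables s c, f j (fun i => M i j) = 0) :
    ∑ M ∈ tables s c, (∑ j, f j (fun i => M i j)) ^ 2
      ≤ 2 * ∑ j, ∑ M ∈ tables s c, f j (fun i => M i j) ^ 2 := by
  classical
  rcases (tables s c).eq_empty_or_nonempty with hem | ⟨M₀, hM₀⟩
  · simp [hem]
  have hs3 : ∀ i, s i ≤ 3 := fun i => by
    have := ((Finset.mem_filter.1 hM₀).2.1 i); rw [← this]; exact (row_facts _).1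
  let I' := {i : I // s i = 1 ∨ s i = 2}
  let cls : I' → Bool := fun i => decide (s i.1 = 1)
  let e : Fin 3 → ℤ := fun j => (c j : ℤ) - (Finset.univ.filter fun i => s i = 3).card
    - (Finset.univ.filter fun i => s i = 2).card
  let toM : (I' → Fin 3) → (I → Fin 3 → Bool) := fun χ i j =>
    if h : s i = 1 ∨ s i = 2 then rowOf (s i) (χ ⟨i, h⟩) j else decide (s i = 3)
  let toC : (I → Fin 3 → Bool) → (I' → Fin 3) := fun M i => colOf (s i.1) (M i.1)
  have hback : ∀ M ∈ tables s c, toM (toC M) = M := by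
    intro M hM
    funext i j
    have hr := (Finset.mem_filter.1 hM).2.1 i
    have hh := (row_facts (M i)).2 j
    rw [hr] at hh
    by_cases h : s i = 1 ∨ s i = 2
    · simp only [toM, toC, dif_pos h]; exact hh
    · simp only [toM, dif_neg h]
      push_neg at h
      rw [← hh, rowOf, if_neg h.1, if_neg h.2]
  have hrows : ∀ χ i, ∑ j, bn (toM χ i j) = s i := by
    intro χ i
    by_cases h : s i = 1 ∨ s i = 2
    · simp only [toM, dif_pos h]
      exact (rowOf_spec h _).2
    · simp only [toM, dif_neg h]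
      have := hs3 i
      rcases (show s i = 0 ∨ s i = 3 by omega) with h' | h' <;> simp [h', bn]
  have hcols : ∀ (χ : I' → Fin 3) j, ((∑ i, bn (toM χ i j) : ℕ) : ℤ)
      = (Finset.univ.filter fun i => s i = 3).card + (Finset.univ.filter fun i => s i = 2).card
        + ((Finset.univ.filter fun i : I' => cls i = true ∧ χ i = j).card : ℤ)
        - ((Finset.univ.filter fun i : I' => cls i = false ∧ χ i = j).card : ℤ) := by
    intro χ j
    simp only [Finset.card_filter, Nat.cast_sum]
    rw [sum_sub (fun i => s i = 1 ∨ s i = 2), sum_sub (fun i => s i = 1 ∨ s i = 2)]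
    simp only [← Finset.sum_add_distrib, ← Finset.sum_sub_distrib]
    refine Finset.sum_congr rfl fun i _ => ?_
    by_cases h : s i = 1 ∨ s i = 2
    · simp only [toM, cls, dif_pos h]
      rcases id h with h' | h' <;> by_cases hk : χ ⟨i, h⟩ = j <;> simp [h', hk, rowOf, bn]
    · simp only [toM, dif_neg h]
      have := hs3 i
      rcases (show s i = 0 ∨ s i = 3 by omega) with h' | h' <;> simp [h', bn]
  have hsum : ∀ G : (I → Fin 3 → Bool) → ℝ,
      ∑ M ∈ tables s c, G M = ∑ χ ∈ colourings cls e, G (toM χ) := by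
    intro G
    refine Finset.sum_nbij' toC toM ?_ ?_ ?_ ?_ ?_
    · intro M hM
      refine Finset.mem_filter.2 ⟨Finset.mem_univ _, fun j => ?_⟩
      have h := hcols (toC M) j
      rw [hback M hM, (Finset.mem_filter.1 hM).2.2 j] at h
      simp only [e]; linarith
    · intro χ hχ
      refine Finset.mem_filter.2 ⟨Finset.mem_univ _, hrows χ, fun j => ?_⟩
      have h := hcols χ j
      have h' := (Finset.mem_filter.1 hχ).2 j
      simp only [e] at h'
      have : ((∑ i, bn (toM χ i j) : ℕ) : ℤ) = (c j : ℤ) := by linarith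
      exact_mod_cast this
    · intro M hM; exact hback M hM
    · intro χ _
      funext i
      rcases i with ⟨i, h⟩
      show colOf (s i) (toM χ i) = χ ⟨i, h⟩
      rw [show toM χ i = rowOf (s i) (χ ⟨i, h⟩) from funext fun j => by simp [toM, h]]
      exact (rowOf_spec h _).1
    · intro M hM; rw [hback M hM]
  let f' : Fin 3 → (I' → Bool) → ℝ := fun j ψ =>
    f j (fun i => if h : s i = 1 ∨ s i = 2 then (if s i = 1 then ψ ⟨i, h⟩ else !ψ ⟨i, h⟩)
      else decide (s i = 3))
  have hf' : ∀ (χ : I' → Fin 3) j, f j (fun i => toM χ i j) = f' j (fun i => decide (χ i = j)) := by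
    intro χ j
    refine congrArg (f j) (funext fun i => ?_)
    by_cases h : s i = 1 ∨ s i = 2
    · simp only [toM, dif_pos h]
      rcases h with h' | h' <;> simp [h', rowOf]
    · simp only [toM, dif_neg h]
  have key := three_colour cls e f' fun j => by
    have := hf j
    rw [hsum] at this
    simpa only [hf'] using this
  simp only [hsum]
  simpa only [hf'] using key

end Columns

variable {V : Type*} [Fintype V] [DecidableEq V] {d : V → ℕ}

/-- An injective listing of a triple. -/
structure Tri (V : Type*) where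
  t : Fin 3 → V
  inj : Function.Injective t

namespace Tri

variable (T : Tri V)

/-- Vertices of the triple. -/
def set : Finset V := Finset.univ.image T.t

/-- The pair opposite to the `j`-th vertex. -/
def opp (j : Fin 3) : Finset V := {T.t (j + 1), T.t (j + 2)}

/-- Items: outside vertices and one extra item. -/
abbrev Item : Type _ := Option {x : V // x ∉ T.set}

/-- The three column table of a realisation. -/
def mat (g : V → V → Bool) : T.Item → Fin 3 → Bool
  | some x, j => g x.1 (T.t j)
  | none, j => !g (T.t (j + 1)) (T.t (j + 2))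

/-- Index of a vertex inside the triple. -/
noncomputable def idx (x : V) : Option (Fin 3) := (List.finRange 3).find? fun j => decide (T.t j = x)

theorem t_mem (j : Fin 3) : T.t j ∈ T.set := Finset.mem_image_of_mem _ (Finset.mem_univ j)

theorem idx_t (j : Fin 3) : T.idx (T.t j) = some j := by
  unfold idx
  fin_cases j <;> simp [List.finRange, List.ofFn, T.inj.eq_iff, List.find?] <;> rfl

theorem idx_none {x : V} (h : x ∉ T.set) : T.idx x = none := by
  unfold idx
  rw [List.find?_eq_none]
  intro j _ hj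
  exact h (by simpa using (of_decide_eq_true hj) ▸ T.t_mem j)

theorem sum_set {M : Type*} [AddCommMonoid M] (f : V → M) :
    ∑ x ∈ T.set, f x = ∑ j, f (T.t j) := Finset.sum_image fun a _ b _ h => T.inj h

theorem sum_out {M : Type*} [AddCommMonoid M] (f : V → M) :
    ∑ x ∈ T.setᶜ, f x = ∑ x : {x : V // x ∉ T.set}, f x.1 :=
  (Finset.sum_subtype _ (by simp) f)

/-- Degree of a triple vertex. -/
theorem deg_t {g : V → V → Bool} (hs : ∀ i j, g i j = g j i) (h0 : ∀ i, g i i = false) (j : Fin 3) :
    deg g (T.t j) + ∑ k, bn (T.mat g none k)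
      = ∑ i : T.Item, bn (T.mat g i j) + 2 := by
  rw [deg_split g T.set, T.sum_set, T.sum_out, Fintype.sum_option]
  simp only [mat]
  rw [Finset.sum_congr rfl fun (x : {x : V // x ∉ T.set}) _ => congrArg bn (hs (T.t j) x.1)]
  fin_cases j <;>
    simp [Fin.sum_univ_three, h0, hs (T.t 1) (T.t 0), hs (T.t 2) (T.t 0), hs (T.t 2) (T.t 1)] <;>
    cases g (T.t 0) (T.t 1) <;> cases g (T.t 0) (T.t 2) <;> cases g (T.t 1) (T.t 2) <;>
      simp [bn] <;> omega

/-- The table encoded by a three column table. -/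
noncomputable def unmat (g₀ : V → V → Bool) (M : T.Item → Fin 3 → Bool) (i j : V) : Bool :=
  match T.idx i, T.idx j with
  | some a, some b => if a = b then false else !M none (-(a + b))
  | some a, none => if h : j ∈ T.set then false else M (some ⟨j, h⟩) a
  | none, some b => if h : i ∈ T.set then false else M (some ⟨i, h⟩) b
  | none, none => g₀ i j

theorem idx_cases (x : V) : (∃ j, x = T.t j ∧ T.idx x = some j) ∨ (x ∉ T.set ∧ T.idx x = none) := by
  by_cases h : x ∈ T.set
  · obtain ⟨j, -, rfl⟩ := Finset.mem_image.1 h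
    exact Or.inl ⟨j, rfl, T.idx_t j⟩
  · exact Or.inr ⟨h, T.idx_none h⟩

theorem mat_unmat (g₀ : V → V → Bool) (M : T.Item → Fin 3 → Bool) : T.mat (T.unmat g₀ M) = M := by
  funext i j
  cases i with
  | none =>
    simp only [mat, unmat, idx_t]
    have hne : j + 1 ≠ j + 2 := by revert j; decide
    have he : -(j + 1 + (j + 2)) = j := by revert j; decide
    rw [if_neg hne, he, Bool.not_not]
  | some x =>
    simp only [mat, unmat, idx_t, T.idx_none x.2, dif_neg x.2]

theorem unmat_real (g₀ : Real' d) (M : T.Item → Fin 3 → Bool)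
    (hM : M ∈ tables (fun i => ∑ j, bn (T.mat g₀.1 i j)) (fun j => ∑ i, bn (T.mat g₀.1 i j))) :
    IsReal d (T.unmat g₀.1 M) := by
  have hsym : ∀ i j, T.unmat g₀.1 M i j = T.unmat g₀.1 M j i := by
    intro i j
    rcases T.idx_cases i with ⟨a, rfl, ha⟩ | ⟨hi, ha⟩ <;>
      rcases T.idx_cases j with ⟨b, rfl, hb⟩ | ⟨hj, hb⟩ <;> simp only [unmat, ha, hb]
    · by_cases h : a = b
      · subst h; rfl
      · rw [if_neg h, if_neg (Ne.symm h), add_comm]
    · exact g₀.symm i j
  have hirr : ∀ i, T.unmat g₀.1 M i i = false := by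
    intro i
    rcases T.idx_cases i with ⟨a, rfl, ha⟩ | ⟨hi, ha⟩ <;> simp [unmat, ha, g₀.irrefl]
  refine ⟨hsym, hirr, fun i => ?_⟩
  obtain ⟨hr, hc⟩ := (Finset.mem_filter.1 hM).2
  rcases T.idx_cases i with ⟨a, rfl, -⟩ | ⟨hi, ha⟩
  · have h1 := T.deg_t hsym hirr a
    have h2 := T.deg_t g₀.symm g₀.irrefl a
    rw [mat_unmat, hc, hr] at h1
    rw [g₀.degree] at h2
    simp only at h1
    omega
  · rw [← g₀.degree i, deg_split _ T.set i, deg_split g₀.1 T.set i]
    congr 1
    · rw [T.sum_set, T.sum_set]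
      have := hr (some ⟨i, hi⟩)
      simp only [mat] at this
      simpa [unmat, ha, idx_t, hi] using this
    · refine Finset.sum_congr rfl fun j hj => ?_
      simp [unmat, ha, T.idx_none (Finset.mem_compl.1 hj)]

theorem mat_mem {g g₀ : Real' d} (h : outKey T.set g = outKey T.set g₀) :
    T.mat g.1 ∈ tables (fun i => ∑ j, bn (T.mat g₀.1 i j)) (fun j => ∑ i, bn (T.mat g₀.1 i j)) := by
  have hrow : ∀ x : {x : V // x ∉ T.set},
      ∑ j, bn (g.1 x.1 (T.t j)) = ∑ j, bn (g₀.1 x.1 (T.t j)) := by
    intro x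
    have h1 := deg_split g.1 T.set x.1
    have h2 := deg_split g₀.1 T.set x.1
    rw [g.degree, T.sum_set] at h1
    rw [g₀.degree, T.sum_set] at h2
    have h3 : ∑ j ∈ T.setᶜ, bn (g.1 x.1 j) = ∑ j ∈ T.setᶜ, bn (g₀.1 x.1 j) :=
      Finset.sum_congr rfl fun j hj =>
        congrArg bn (outKey_eq_iff.1 h x.1 j x.2 (Finset.mem_compl.1 hj))
    omega
  have hnone : ∑ j, bn (T.mat g.1 none j) = ∑ j, bn (T.mat g₀.1 none j) := by
    have e1 := fun j => T.deg_t g.symm g.irrefl j
    have e2 := fun j => T.deg_t g₀.symm g₀.irrefl j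
    simp only [g.degree] at e1
    simp only [g₀.degree] at e2
    have hs : ∀ f : Real' d, ∑ j, ∑ i : T.Item, bn (T.mat f.1 i j)
        = ∑ j, bn (T.mat f.1 none j) + ∑ x : {x : V // x ∉ T.set}, ∑ j, bn (f.1 x.1 (T.t j)) := by
      intro f
      rw [Finset.sum_comm, Fintype.sum_option]; rfl
    have hg := hs g
    have hg₀ := hs g₀
    rw [Finset.sum_congr rfl fun x _ => hrow x] at hg
    have q0 := e1 0; have q1 := e1 1; have q2 := e1 2
    have r0 := e2 0; have r1 := e2 1; have r2 := e2 2
    simp only [Fin.sum_univ_three] at hg hg₀ q0 q1 q2 r0 r1 r2 ⊢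
    omega
  refine Finset.mem_filter.2 ⟨Finset.mem_univ _, fun i => ?_, fun j => ?_⟩
  · cases i with
    | none => exact hnone
    | some x => exact hrow x
  · have e1 := T.deg_t g.symm g.irrefl j
    have e2 := T.deg_t g₀.symm g₀.irrefl j
    rw [g.degree] at e1
    rw [g₀.degree] at e2
    show _ = ∑ i, bn (T.mat g₀.1 i j)
    omega

theorem sum_fibre_mat (g₀ : Real' d) (G : (T.Item → Fin 3 → Bool) → ℝ) :
    ∑ g ∈ Finset.univ.filter (fun g : Real' d => outKey T.set g = outKey T.set g₀), G (T.mat g.1)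
      = ∑ M ∈ tables (fun i => ∑ j, bn (T.mat g₀.1 i j)) (fun j => ∑ i, bn (T.mat g₀.1 i j)),
          G M := by
  classical
  refine Finset.sum_nbij' (fun g => T.mat g.1)
    (fun M => if h : IsReal d (T.unmat g₀.1 M) then ⟨_, h⟩ else g₀) ?_ ?_ ?_ ?_ ?_
  · intro g hg
    simp only [Finset.mem_coe, Finset.mem_filter, Finset.mem_univ, true_and] at hg
    exact Finset.mem_coe.2 (T.mat_mem hg)
  · intro M hM
    rw [dif_pos (T.unmat_real g₀ M (Finset.mem_coe.1 hM))]
    simp only [Finset.mem_coe, Finset.mem_filter, Finset.mem_univ, true_and, outKey_eq_iff]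
    intro i j hi hj
    simp [unmat, T.idx_none hi, T.idx_none hj]
  · intro g hg
    simp only [Finset.mem_coe, Finset.mem_filter, Finset.mem_univ, true_and] at hg
    rw [dif_pos (T.unmat_real g₀ _ (T.mat_mem hg))]
    apply Real'.ext'
    intro i j
    show T.unmat g₀.1 (T.mat g.1) i j = g.1 i j
    rcases T.idx_cases i with ⟨a, rfl, ha⟩ | ⟨hi, ha⟩ <;>
      rcases T.idx_cases j with ⟨b, rfl, hb⟩ | ⟨hj, hb⟩ <;> simp only [unmat, ha, hb]
    · by_cases h : a = b
      · subst h; simp [g.irrefl]
      · rw [if_neg h]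
        simp only [mat, Bool.not_not]
        rcases ((by decide : ∀ a b : Fin 3, a ≠ b → (-(a + b) + 1 = a ∧ -(a + b) + 2 = b) ∨
          (-(a + b) + 1 = b ∧ -(a + b) + 2 = a)) a b h) with ⟨e1, e2⟩ | ⟨e1, e2⟩
        · rw [e1, e2]
        · rw [e1, e2, g.symm]
    · simp [mat, hj, g.symm (T.t a)]
    · simp [mat, hi]
    · exact (outKey_eq_iff.1 hg i j hi hj).symm
  · intro M hM
    rw [dif_pos (T.unmat_real g₀ M (Finset.mem_coe.1 hM))]
    exact T.mat_unmat g₀.1 M
  · intro g _; rfl

theorem opp_eq (j : Fin 3) : T.opp j = T.set.erase (T.t j) := by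
  ext x
  simp only [opp, set, Finset.mem_insert, Finset.mem_singleton, Finset.mem_erase, Finset.mem_image,
    Finset.mem_univ, true_and]
  constructor
  · rintro (rfl | rfl)
    · exact ⟨fun h => (by decide : ∀ j : Fin 3, j + 1 ≠ j) j (T.inj h), _, rfl⟩
    · exact ⟨fun h => (by decide : ∀ j : Fin 3, j + 2 ≠ j) j (T.inj h), _, rfl⟩
  · rintro ⟨hne, k, rfl⟩
    have : k ≠ j := fun h => hne (h ▸ rfl)
    rcases ((by decide : ∀ j k : Fin 3, k ≠ j → k = j + 1 ∨ k = j + 2) j k this) with rfl | rfl <;> simp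

theorem opp_subset (j : Fin 3) : T.opp j ⊆ T.set := by
  rw [opp_eq]; exact Finset.erase_subset _ _

theorem tradeKey_iff_col {g h : Real' d} (hgh : outKey T.set g = outKey T.set h) (j : Fin 3) :
    tradeKey (T.opp j) g = tradeKey (T.opp j) h
      ↔ (fun i => T.mat g.1 i j) = fun i => T.mat h.1 i j := by
  rw [tradeKey_eq_iff]
  constructor
  · intro H
    funext i
    cases i with
    | none => simp only [mat]; rw [H _ _ (by simp [opp])]
    | some x =>
      simp only [mat]
      refine H _ _ ⟨fun hx => absurd (T.opp_subset j hx) x.2, fun hx => ?_⟩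
      rw [opp_eq] at hx; exact absurd rfl (Finset.ne_of_mem_erase hx)
  · intro H i k hik
    by_cases hi : i ∈ T.opp j
    · have hk := hik.1 hi
      simp only [opp, Finset.mem_insert, Finset.mem_singleton] at hi hk
      have hn := congrFun H none
      simp only [mat, Bool.not_inj_iff] at hn
      rcases hi with rfl | rfl <;> rcases hk with rfl | rfl <;>
        simp [g.irrefl, h.irrefl, hn, g.symm (T.t (j + 2)) (T.t (j + 1)),
          h.symm (T.t (j + 2)) (T.t (j + 1))]
    · have hk : k ∉ T.opp j := fun h' => hi (hik.2 h')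
      rw [opp_eq] at hi hk
      by_cases hiT : i ∈ T.set
      · have ei : i = T.t j := by
          by_contra hne; exact hi (Finset.mem_erase.2 ⟨hne, hiT⟩)
        by_cases hkT : k ∈ T.set
        · have ek : k = T.t j := by
            by_contra hne; exact hk (Finset.mem_erase.2 ⟨hne, hkT⟩)
          rw [ei, ek, g.irrefl, h.irrefl]
        · have hx := congrFun H (some ⟨k, hkT⟩)
          simp only [mat] at hx
          rw [ei, g.symm, h.symm, hx]
      · by_cases hkT : k ∈ T.set
        · have ek : k = T.t j := by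
            by_contra hne; exact hk (Finset.mem_erase.2 ⟨hne, hkT⟩)
          have hx := congrFun H (some ⟨i, hiT⟩)
          simp only [mat] at hx
          rw [ek, hx]
        · exact outKey_eq_iff.1 hgh i k hiT hkT

/-- Three functions, one for each trade, mean zero on each fibre. -/
theorem three_trades (h : Fin 3 → Real' d → ℝ)
    (hk : ∀ j x y, tradeKey (T.opp j) x = tradeKey (T.opp j) y → h j x = h j y)
    (h0 : ∀ j, avgOp (outKey T.set) (h j) = 0) :
    ip (∑ j, h j) (∑ j, h j) ≤ 2 * ∑ j, ip (h j) (h j) := by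
  classical
  have hkey : ∀ g₀ : Real' d,
      0 ≤ ∑ g ∈ Finset.univ.filter (fun g => outKey T.set g = outKey T.set g₀),
        (2 * ∑ j, h j g ^ 2 - (∑ j, h j g) ^ 2) := by
    intro g₀
    set Fb := Finset.univ.filter (fun g : Real' d => outKey T.set g = outKey T.set g₀) with hFb
    let f : Fin 3 → (T.Item → Bool) → ℝ := fun j ψ =>
      if e : ∃ g ∈ Fb, (fun i => T.mat g.1 i j) = ψ then h j e.choose else 0
    have hf : ∀ g ∈ Fb, ∀ j, f j (fun i => T.mat g.1 i j) = h j g := by
      intro g hg j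
      have e : ∃ g' ∈ Fb, (fun i => T.mat g'.1 i j) = fun i => T.mat g.1 i j := ⟨g, hg, rfl⟩
      simp only [f, dif_pos e]
      refine hk j _ _ ((T.tradeKey_iff_col ?_ j).2 e.choose_spec.2)
      exact (Finset.mem_filter.1 e.choose_spec.1).2.trans (Finset.mem_filter.1 hg).2.symm
    have hz : ∀ j, ∑ g ∈ Fb, h j g = 0 := by
      intro j
      have := congrFun (h0 j) g₀
      rw [avgOp_apply, Pi.zero_apply, div_eq_zero_iff] at this
      rcases this with this | this
      · exact this
      · exact absurd this (block_card_pos _ g₀).ne'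
    have main := three_column _ _ f (fun j => by
      rw [← T.sum_fibre_mat g₀ (fun M => f j (fun i => M i j)), ← hz j]
      exact Finset.sum_congr rfl fun g hg => hf g hg j)
    rw [← T.sum_fibre_mat g₀ (fun M => (∑ j, f j (fun i => M i j)) ^ 2),
      Finset.sum_congr rfl fun j _ =>
        (T.sum_fibre_mat g₀ (fun M => f j (fun i => M i j) ^ 2)).symm] at main
    rw [Finset.sum_sub_distrib, ← Finset.mul_sum, Finset.sum_comm, sub_nonneg]
    calc ∑ g ∈ Fb, (∑ j, h j g) ^ 2 = ∑ g ∈ Fb, (∑ j, f j (fun i => T.mat g.1 i j)) ^ 2 :=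
          Finset.sum_congr rfl fun g hg => by simp only [hf g hg]
      _ ≤ 2 * ∑ j, ∑ g ∈ Fb, f j (fun i => T.mat g.1 i j) ^ 2 := main
      _ = _ := congrArg (2 * ·) (Finset.sum_congr rfl fun j _ =>
          Finset.sum_congr rfl fun g hg => by rw [hf g hg])
  have := sum_nonneg_of_fibres (outKey T.set) _ hkey
  simp only [Finset.sum_sub_distrib, ← Finset.mul_sum, sub_nonneg] at this
  rw [Finset.sum_comm] at this
  simpa [ip, pow_two, Finset.sum_apply] using this

/-- The triangle generator is dominated by its square. -/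
theorem triangle_sq (F : Real' d → ℝ) :
    ip F (∑ j, tradeQ d (T.opp j) F)
      ≤ ip (∑ j, tradeQ d (T.opp j) F) (∑ j, tradeQ d (T.opp j) F) := by
  have href : ∀ j, ∀ x y : Real' d, tradeKey (T.opp j) x = tradeKey (T.opp j) y →
      outKey T.set x = outKey T.set y := fun j x y e => tradeKey_out (T.opp_subset j) e
  set G := F - avgOp (outKey T.set) F with hG
  set L : (Real' d → ℝ) → (Real' d → ℝ) := fun u => ∑ j, tradeQ d (T.opp j) u with hL
  have hQ : ∀ j, tradeQ d (T.opp j) G = tradeQ d (T.opp j) F := by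
    intro j
    rw [hG, map_sub]
    simp only [tradeQ_apply, avgOp_comp_of_refines _ _ (href j)]
    abel
  have hLF : L F = L G := by simp only [hL, hQ]
  have hG0 : avgOp (outKey T.set) G = 0 := by rw [hG, map_sub, avgOp_idem, sub_self]
  have hip : ip F (L F) = ip G (L F) := by
    have : ip (avgOp (outKey T.set) F) (L F) = 0 := by
      simp only [hL, ip_sum_right]
      refine Finset.sum_eq_zero fun j _ => ?_
      rw [← ip_tradeQ, tradeQ_apply, avgOp_comp_of_refines _ _ (href j), sub_self]
      simp [ip]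
    rw [hG, ip_sub_left, this, sub_zero]
  show ip F (L F) ≤ ip (L F) (L F)
  rw [hip, hLF]
  set S := ∑ j, ip (avgOp (tradeKey (T.opp j)) G) (avgOp (tradeKey (T.opp j)) G) with hS
  have hLG : ip G (L G) = 3 * ip G G - S := by
    simp only [hL, tradeQ_apply, ip_sum_right, ip_sub_right, Finset.sum_sub_distrib, hS,
      ← ip_avgOp_self]
    simp
  have hthree := T.three_trades (fun j => avgOp (tradeKey (T.opp j)) G)
    (fun j x y e => avgOp_congr _ _ e)
    (fun j => by rw [avgOp_comp_of_refines' _ _ (href j), hG0])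
  have hSG : ip G (∑ j, avgOp (tradeKey (T.opp j)) G) = S := by
    simp only [ip_sum_right, hS, ← ip_avgOp_self]
  have hcs := ip_sq_le G (∑ j, avgOp (tradeKey (T.opp j)) G)
  rw [hSG] at hcs
  have hS0 : 0 ≤ S := Finset.sum_nonneg fun j _ => ip_self_nonneg _
  have hS2 : S ≤ 2 * ip G G := by
    rcases hS0.eq_or_lt with h | h
    · linarith [ip_self_nonneg G]
    · have := mul_le_mul_of_nonneg_left hthree (ip_self_nonneg G)
      nlinarith
  have hcs2 := ip_sq_le G (L G)
  have hge : ip G G ≤ ip G (L G) := by linarith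
  rcases (ip_self_nonneg G).eq_or_lt with h | h
  · have h0 : ip G (L G) ^ 2 ≤ 0 := by rw [← h] at hcs2; simpa using hcs2
    have : ip G (L G) = 0 := by nlinarith
    linarith [ip_self_nonneg (L G)]
  · have h1 : ip G G * ip (L G) (L G) ≤ ip G (L G) * ip (L G) (L G) :=
      mul_le_mul_of_nonneg_right hge (ip_self_nonneg _)
    nlinarith

end Tri

end Vale.Agent.P335
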